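import Vale.Agent.P205.Full.Stage.CalculusScale

/-!
# P205 full, module S1: calculus on a framed surface

Imports the rules for `D`, `DW`, `Bd`, and adds the facts special to maps into `ℝ⁴`:
`D_i D_k F - D_k D_i F` is tangent, the second fundamental form is symmetric, the identity for
normal fields, and smoothness of the components of the metrics.
-/

open scoped Manifold ContDiff RealInnerProductSpace Topology
open Bundle Filter

set_option linter.unusedSectionVars false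

namespace Vale.Agent.P205.Full

section

variable {M : Type} [TopologicalSpace M] [ChartedSpace R2 M] [IsManifold (𝓡 2) ∞ M]
variable {E : Type} [NormedAddCommGroup E] [NormedSpace ℝ E]
variable {N : ℕ} {V : Frame M N}

theorem D_eq_dR (f : M → ℝ) (i : Fin N) (x : M) : D V i f x = dR f x (V i x) := rfl

/-- The commutator of two derivatives of `F` is a value of the differential of `F`. -/
theorem exists_D_D_sub_eq (hV : FrameSmooth V) {F : M → E} {x : M}
    (hF : ContMDiffAt (𝓡 2) 𝓘(ℝ, E) ∞ F x) (i k : Fin N) :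
    ∃ v : TangentSpace (𝓡 2) x,
      D V i (D V k F) x - D V k (D V i F) x = mfderiv (𝓡 2) 𝓘(ℝ, E) F x v := by
  set φ := extChartAt (𝓡 2) x with hφ
  set G : R2 → E := fun a => F (φ.symm a) with hG
  have hφs : ContMDiffAt (𝓡 2) 𝓘(ℝ, R2) ∞ (fun y => φ y) x := contMDiffAt_extChartAt
  have hG1 : ContDiffAt ℝ ∞ G (φ x) := by
    have h := (contMDiffAt_iff.1 hF).2
    rw [ModelWithCorners.range_eq_univ, contDiffWithinAt_univ] at h
    exact h
  have hG2 : ContDiffAt ℝ (2 : ℕ) G (φ x) := contDiffAt_infty.1 hG1 2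
  have hev : ∀ᶠ y in 𝓝 x, MDifferentiableAt (𝓡 2) 𝓘(ℝ, R2) (fun z => φ z) y ∧
      DifferentiableAt ℝ G (φ y) ∧ F =ᶠ[𝓝 y] fun z => G (φ z) := by
    have h1 : ∀ᶠ a in 𝓝 (φ x), DifferentiableAt ℝ G a := by
      filter_upwards [hG2.eventually (by simp)] with a ha
      exact ha.differentiableAt (by simp)
    have h2 : F =ᶠ[𝓝 x] fun z => G (φ z) := by
      filter_upwards [extChartAt_source_mem_nhds (I := 𝓡 2) x] with z hz
      exact congrArg F (φ.left_inv hz).symm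
    filter_upwards [eventually_mdiffAt hφs, hφs.continuousAt.eventually h1, h2.eventuallyEq_nhds]
      with y hy hy1 hy2
    exact ⟨hy, hy1, hy2⟩
  have first : ∀ j, D V j F =ᶠ[𝓝 x]
      fun y => fderiv ℝ G (φ y) (D V j (fun z => φ z) y) := by
    intro j
    filter_upwards [hev] with y hy
    rw [D_congr hy.2.2]
    exact D_comp hy.2.1 hy.1
  have hd : DifferentiableAt ℝ (fderiv ℝ G) (φ x) :=
    (hG2.fderiv_right (m := (1 : ℕ)) (by norm_num)).differentiableAt (by simp)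
  have hφ' := mdiffAt_of_smoothAt hφs
  have second : ∀ j l, D V j (D V l F) x =
      fderiv ℝ (fderiv ℝ G) (φ x) (D V j (fun z => φ z) x) (D V l (fun z => φ z) x)
        + fderiv ℝ G (φ x) (D V j (D V l (fun z => φ z)) x) := by
    intro j l
    rw [D_congr (first l)]
    have h1 : MDifferentiableAt (𝓡 2) 𝓘(ℝ, R2 →L[ℝ] E) (fun y => fderiv ℝ G (φ y)) x :=
      hd.mdifferentiableAt.comp x hφ'
    have h2 := mdiffAt_of_smoothAt (contMDiffAt_D hV l hφs)
    refine (D_bilin (ContinuousLinearMap.id ℝ (R2 →L[ℝ] E)) h1 h2).trans ?_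
    rw [D_comp (φ := fderiv ℝ G) hd hφ']
    rfl
  have hsymm := (hG2.isSymmSndFDerivAt (by simp)).eq
    (D V i (fun z => φ z) x) (D V k (fun z => φ z) x)
  have hmf : mfderiv (𝓡 2) 𝓘(ℝ, E) F x = fderiv ℝ G (φ x) := by
    rw [(mdiffAt_of_smoothAt hF).mfderiv, ModelWithCorners.range_eq_univ, fderivWithin_univ]
    rfl
  refine ⟨D V i (D V k (fun z => φ z)) x - D V k (D V i (fun z => φ z)) x, ?_⟩
  rw [second, second, hsymm, hmf, add_sub_add_left_eq_sub]
  exact (map_sub _ _ _).symm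

theorem D_mem_tanPlane (F : M → R4) (i : Fin N) (x : M) : D V i F x ∈ tanPlane F x :=
  ⟨V i x, rfl⟩

theorem D_D_sub_mem_tanPlane (hV : FrameSmooth V) {F : M → R4} {x : M}
    (hF : ContMDiffAt (𝓡 2) 𝓘(ℝ, R4) ∞ F x) (i k : Fin N) :
    D V i (D V k F) x - D V k (D V i F) x ∈ tanPlane F x := by
  obtain ⟨v, hv⟩ := exists_D_D_sub_eq hV hF i k
  exact ⟨v, hv.symm⟩

theorem sff_symm (hV : FrameSmooth V) {F : M → R4} {x : M}
    (hF : ContMDiffAt (𝓡 2) 𝓘(ℝ, R4) ∞ F x) (i k : Fin N) :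
    sff F V i k x = sff F V k i x := by
  rw [← sub_eq_zero]
  show (tanPlane F x)ᗮ.starProjection (D V i (D V k F) x)
    - (tanPlane F x)ᗮ.starProjection (D V k (D V i F) x) = 0
  rw [← map_sub, Submodule.starProjection_apply_eq_zero_iff, Submodule.orthogonal_orthogonal]
  exact D_D_sub_mem_tanPlane hV hF i k

/-- A vector normal to the tangent plane sees only the second fundamental form. -/
theorem inner_sff_of_normal {F : M → R4} {x : M} {v : R4} (hv : v ∈ (tanPlane F x)ᗮ)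
    (i k : Fin N) : ⟪sff F V i k x, v⟫ = ⟪D V i (D V k F) x, v⟫ := by
  show ⟪(tanPlane F x)ᗮ.starProjection (D V i (D V k F) x), v⟫ = _
  rw [Submodule.inner_starProjection_left_eq_right, Submodule.starProjection_eq_self_iff.2 hv]

/-- `⟪D_i F, D_k v⟫ = - ⟪D_k D_i F, v⟫` for a normal field `v`. -/
theorem inner_D_of_normal (hV : FrameSmooth V) {F v : M → R4} {x : M}
    (hF : ContMDiffAt (𝓡 2) 𝓘(ℝ, R4) ∞ F x) (hv : ContMDiffAt (𝓡 2) 𝓘(ℝ, R4) ∞ v x)
    (hn : ∀ᶠ y in 𝓝 x, v y ∈ (tanPlane F y)ᗮ) (i k : Fin N) :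
    ⟪D V i F x, D V k v x⟫ = -⟪D V k (D V i F) x, v x⟫ := by
  have h0 : (fun y => ⟪D V i F y, v y⟫) =ᶠ[𝓝 x] fun _ => (0 : ℝ) := by
    filter_upwards [hn] with y hy
    exact Submodule.inner_right_of_mem_orthogonal (D_mem_tanPlane F i y) hy
  have h := D_congr (V := V) (i := k) h0
  rw [D_const, D_inner (mdiffAt_of_smoothAt (contMDiffAt_D hV i hF)) (mdiffAt_of_smoothAt hv)] at h
  exact eq_neg_of_add_eq_zero_right h

/-- The same identity, with the second fundamental form. -/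
theorem inner_D_of_normal_sff (hV : FrameSmooth V) {F v : M → R4} {x : M}
    (hF : ContMDiffAt (𝓡 2) 𝓘(ℝ, R4) ∞ F x) (hv : ContMDiffAt (𝓡 2) 𝓘(ℝ, R4) ∞ v x)
    (hn : ∀ᶠ y in 𝓝 x, v y ∈ (tanPlane F y)ᗮ) (i k : Fin N) :
    ⟪D V i F x, D V k v x⟫ = -⟪sff F V i k x, v x⟫ := by
  rw [inner_D_of_normal hV hF hv hn, sff_symm hV hF i k, inner_sff_of_normal hn.self_of_nhds]

/-! ## Smoothness of the components -/

theorem contMDiffAt_inner_fun {H : Type} [NormedAddCommGroup H] [InnerProductSpace ℝ H]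
    {u v : M → H} {x : M} (hu : ContMDiffAt (𝓡 2) 𝓘(ℝ, H) ∞ u x)
    (hv : ContMDiffAt (𝓡 2) 𝓘(ℝ, H) ∞ v x) :
    ContMDiffAt (𝓡 2) 𝓘(ℝ, ℝ) ∞ (fun y => ⟪u y, v y⟫) x :=
  contMDiffAt_bilin (innerSL ℝ : H →L[ℝ] H →L[ℝ] ℝ) hu hv

theorem contMDiff_pullV (hV : FrameSmooth V) {F : M → R4} (hF : ContMDiff (𝓡 2) 𝓘(ℝ, R4) ∞ F)
    (i k : Fin N) : ContMDiff (𝓡 2) 𝓘(ℝ, ℝ) ∞ (pullV F V i k) :=
  fun x => contMDiffAt_inner_fun (contMDiff_D hV i hF x) (contMDiff_D hV k hF x)

theorem contMDiff_gV (g : Metric M) (hV : FrameSmooth V) (i k : Fin N) :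
    ContMDiff (𝓡 2) 𝓘(ℝ, ℝ) ∞ (gV g V i k) := fun x => by
  have h : ContMDiffAt (𝓡 2) ((𝓡 2).prod 𝓘(ℝ)) ∞
      (fun y => TotalSpace.mk' ℝ (E := Bundle.Trivial M ℝ) y (g.inner y (V i y) (V k y))) x := by
    apply ContMDiffAt.clm_bundle_apply₂ (F₁ := R2) (F₂ := R2)
    · exact g.contMDiff x
    · exact hV i x
    · exact hV k x
  simp only [contMDiffAt_totalSpace] at h
  exact h.2

theorem pullV_comm (F : M → R4) (i k : Fin N) : pullV F V i k = pullV F V k i :=
  funext fun _ => real_inner_comm _ _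

theorem gV_comm (g : Metric M) (i k : Fin N) : gV g V i k = gV g V k i :=
  funext fun x => g.symm x _ _

end

end Vale.Agent.P205.Full
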