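import Vale.Agent.P205.Full.Defs

/-!
# P205 full, module S2: linear algebra of the tangent and normal planes

A symmetric tensor on a tangent plane is recorded by its `N × N` matrix in a spanning family.
All formulas are rational in the entries, with the only denominator `tr2 M = λ₁ λ₂` (and `nsq`).

* `proj`, `pinv`: projection and pseudo-inverse of `M = Φ * Ψ` with `Φ` having two columns.
* `res G a E`: the component of `E` that is not of the form `sym (a ⊗ Z)`; `solveZ` the solution.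
* `one_sub_proj_outer`: the projection on the normal plane.
* `exists_coord`, `normal_projection`: the same at a point of the surface.
* `exists_good_rotation`: a nonzero quadratic map of the plane is bounded below near one of the
  three rotations of an equilateral triple of directions.
-/

set_option linter.unusedSectionVars false

namespace Vale.Agent.P205.Full.Plane

open Matrix
open scoped Manifold ContDiff

noncomputable section

variable {n : Type} [Fintype n] [DecidableEq n]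

/-- The second invariant; for rank two the product of the nonzero eigenvalues. -/
def tr2 (M : Matrix n n ℝ) : ℝ := (M.trace ^ 2 - (M * M).trace) / 2

/-- The projection on the image of a matrix of rank two. -/
def proj (M : Matrix n n ℝ) : Matrix n n ℝ := (tr2 M)⁻¹ • (M.trace • M - M * M)

/-- The pseudo-inverse of a matrix of rank two. -/
def pinv (M : Matrix n n ℝ) : Matrix n n ℝ :=
  (tr2 M)⁻¹ • ((M.trace • (1 : Matrix n n ℝ) - M) * proj M)

section Factor

variable (Φ : Matrix n (Fin 2) ℝ) (Ψ : Matrix (Fin 2) n ℝ)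

/-- Cayley-Hamilton in dimension two. -/
theorem cayley_two (S : Matrix (Fin 2) (Fin 2) ℝ) :
    (S.trace • (1 : Matrix (Fin 2) (Fin 2) ℝ) - S) * S = S.det • 1 ∧
      S * (S.trace • (1 : Matrix (Fin 2) (Fin 2) ℝ) - S) = S.det • 1 := by
  constructor <;> ext i j <;> fin_cases i <;> fin_cases j <;>
    simp [Matrix.mul_apply, Fin.sum_univ_two, Matrix.trace_fin_two, Matrix.det_fin_two] <;> ring

theorem trace_factor : (Φ * Ψ).trace = (Ψ * Φ).trace := Matrix.trace_mul_comm _ _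

theorem tr2_factor : tr2 (Φ * Ψ) = (Ψ * Φ).det := by
  have h : (Φ * Ψ * (Φ * Ψ)).trace = (Ψ * Φ * (Ψ * Φ)).trace := by
    rw [Matrix.mul_assoc, Matrix.trace_mul_comm]
    simp only [Matrix.mul_assoc]
  rw [tr2, h, trace_factor]
  simp [Matrix.trace_fin_two, Matrix.det_fin_two, Matrix.mul_apply, Fin.sum_univ_two]
  ring

theorem proj_factor : proj (Φ * Ψ) =
    ((Ψ * Φ).det)⁻¹ • (Φ * ((Ψ * Φ).trace • (1 : Matrix (Fin 2) (Fin 2) ℝ) - Ψ * Φ) * Ψ) := by
  rw [proj, tr2_factor, trace_factor]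
  simp [Matrix.mul_sub, Matrix.sub_mul, Matrix.mul_assoc]

variable {Φ Ψ} (h : (Ψ * Φ).det ≠ 0)
include h

theorem proj_mul_left : proj (Φ * Ψ) * Φ = Φ := by
  rw [proj_factor, Matrix.smul_mul, Matrix.mul_assoc, Matrix.mul_assoc, (cayley_two _).1,
    Matrix.mul_smul, Matrix.mul_one, smul_smul, inv_mul_cancel₀ h, one_smul]

theorem mul_proj_right : Ψ * proj (Φ * Ψ) = Ψ := by
  rw [proj_factor, Matrix.mul_smul, ← Matrix.mul_assoc, ← Matrix.mul_assoc, (cayley_two _).2,
    Matrix.smul_mul, Matrix.one_mul, smul_smul, inv_mul_cancel₀ h, one_smul]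

theorem proj_mul_self : proj (Φ * Ψ) * (Φ * Ψ) = Φ * Ψ := by
  rw [← Matrix.mul_assoc, proj_mul_left h]

theorem mul_proj_self : Φ * Ψ * proj (Φ * Ψ) = Φ * Ψ := by
  rw [Matrix.mul_assoc, mul_proj_right h]

theorem proj_mul_proj : proj (Φ * Ψ) * proj (Φ * Ψ) = proj (Φ * Ψ) := by
  conv_lhs => arg 2; rw [proj_factor]
  rw [Matrix.mul_smul, ← Matrix.mul_assoc, ← Matrix.mul_assoc, proj_mul_left h, ← proj_factor]

/-- The short formula for the pseudo-inverse. -/
theorem pinv_eq : pinv (Φ * Ψ) =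
    (tr2 (Φ * Ψ))⁻¹ • ((Φ * Ψ).trace • proj (Φ * Ψ) - Φ * Ψ) := by
  rw [pinv, Matrix.sub_mul, mul_proj_self h, Matrix.smul_mul, Matrix.one_mul]

/-- The defining property of the pseudo-inverse. -/
theorem factor_pinv : Ψ * pinv (Φ * Ψ) * Φ = 1 := by
  rw [pinv_eq h, tr2_factor, trace_factor, Matrix.mul_smul, Matrix.smul_mul, Matrix.mul_sub,
    Matrix.sub_mul, Matrix.mul_smul, Matrix.smul_mul, mul_proj_right h, ← Matrix.mul_assoc Ψ Φ Ψ,
    Matrix.mul_assoc (Ψ * Φ) Ψ Φ]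
  have := (cayley_two (Ψ * Φ)).1
  rw [Matrix.sub_mul, Matrix.smul_mul, Matrix.one_mul] at this
  rw [this, smul_smul, inv_mul_cancel₀ h, one_smul]

theorem mul_pinv : Φ * Ψ * pinv (Φ * Ψ) = proj (Φ * Ψ) := by
  rw [pinv_eq h, Matrix.mul_smul, Matrix.mul_sub, Matrix.mul_smul, mul_proj_self h, proj]

theorem pinv_mul : pinv (Φ * Ψ) * (Φ * Ψ) = proj (Φ * Ψ) := by
  rw [pinv_eq h, Matrix.smul_mul, Matrix.sub_mul, Matrix.smul_mul, proj_mul_self h, proj]

end Factor

theorem proj_transpose (M : Matrix n n ℝ) : (proj M)ᵀ = proj Mᵀ := by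
  have h : (Mᵀ * Mᵀ).trace = (M * M).trace := by
    rw [← Matrix.transpose_mul, Matrix.trace_transpose]
  simp [proj, tr2, Matrix.transpose_mul, h]

theorem pinv_transpose_of_gram {Φ : Matrix n (Fin 2) ℝ} (h : (Φᵀ * Φ).det ≠ 0) :
    (pinv (Φ * Φᵀ))ᵀ = pinv (Φ * Φᵀ) := by
  rw [pinv_eq h]
  simp [proj_transpose, Matrix.transpose_mul]

section Covector

variable (G : Matrix n n ℝ) (a : n → ℝ) (E : Matrix n n ℝ)

/-- The dual vector of a covector. -/
def sharp : n → ℝ := pinv G *ᵥ a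

/-- The squared length of a covector. -/
def nsq : ℝ := a ⬝ᵥ sharp G a

/-- The trace of a tensor. -/
def trG : ℝ := (pinv G * E).trace

/-- The value of a tensor on the dual vector. -/
def qsharp : ℝ := sharp G a ⬝ᵥ E *ᵥ sharp G a

/-- `tr E * |a|² - E(a♯, a♯)`. -/
def res : ℝ := trG G E * nsq G a - qsharp G a E

/-- The solution of `E = sym (a ⊗ Z)`. -/
def solveZ : n → ℝ :=
  (2 / nsq G a) • (E *ᵥ sharp G a) - (qsharp G a E / nsq G a ^ 2) • a

/-- The symmetrised product. -/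
def symOuter {m : Type} (a b : m → ℝ) : Matrix m m ℝ :=
  (1 / 2 : ℝ) • (vecMulVec a b + vecMulVec b a)

theorem res_add (E E' : Matrix n n ℝ) : res G a (E + E') = res G a E + res G a E' := by
  simp [res, trG, qsharp, Matrix.mul_add, Matrix.add_mulVec, dotProduct_add]; ring

theorem res_smul (r : ℝ) (E : Matrix n n ℝ) : res G a (r • E) = r * res G a E := by
  simp [res, trG, qsharp, Matrix.smul_mulVec, dotProduct_smul]; ring

end Covector

section Gram

variable {Φ : Matrix n (Fin 2) ℝ} (h : (Φᵀ * Φ).det ≠ 0) (α : Fin 2 → ℝ)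
  (e : Matrix (Fin 2) (Fin 2) ℝ)
include h

theorem transpose_mulVec_sharp : Φᵀ *ᵥ sharp (Φ * Φᵀ) (Φ *ᵥ α) = α := by
  rw [sharp, Matrix.mulVec_mulVec, Matrix.mulVec_mulVec, factor_pinv h, Matrix.one_mulVec]

theorem nsq_coord : nsq (Φ * Φᵀ) (Φ *ᵥ α) = α ⬝ᵥ α := by
  rw [nsq, dotProduct_comm, dotProduct_mulVec, ← Matrix.mulVec_transpose,
    transpose_mulVec_sharp h]

theorem mulVec_sharp :
    (Φ * e * Φᵀ) *ᵥ sharp (Φ * Φᵀ) (Φ *ᵥ α) = Φ *ᵥ (e *ᵥ α) := by
  rw [← Matrix.mulVec_mulVec, transpose_mulVec_sharp h, Matrix.mulVec_mulVec]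

theorem qsharp_coord : qsharp (Φ * Φᵀ) (Φ *ᵥ α) (Φ * e * Φᵀ) = α ⬝ᵥ e *ᵥ α := by
  rw [qsharp, mulVec_sharp h, dotProduct_mulVec, ← Matrix.mulVec_transpose,
    transpose_mulVec_sharp h]

theorem trG_coord : trG (Φ * Φᵀ) (Φ * e * Φᵀ) = e.trace := by
  rw [trG, ← Matrix.mul_assoc, Matrix.trace_mul_comm, ← Matrix.mul_assoc, ← Matrix.mul_assoc,
    factor_pinv h, Matrix.one_mul]

/-- In coordinates `res` is the value of `E` on the kernel of the covector. -/
theorem res_coord :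
    res (Φ * Φᵀ) (Φ *ᵥ α) (Φ * e * Φᵀ) = ![-α 1, α 0] ⬝ᵥ e *ᵥ ![-α 1, α 0] := by
  rw [res, trG_coord h, nsq_coord h, qsharp_coord h]
  simp [dotProduct, Matrix.mulVec, Fin.sum_univ_two, Matrix.trace_fin_two]
  ring

/-- The solution lies in the image, so it is the covector of a tangent vector. -/
theorem solveZ_coord : solveZ (Φ * Φᵀ) (Φ *ᵥ α) (Φ * e * Φᵀ) =
    Φ *ᵥ ((2 / (α ⬝ᵥ α)) • (e *ᵥ α) - ((α ⬝ᵥ e *ᵥ α) / (α ⬝ᵥ α) ^ 2) • α) := by
  rw [solveZ, mulVec_sharp h, qsharp_coord h, nsq_coord h, Matrix.mulVec_sub,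
    Matrix.mulVec_smul, Matrix.mulVec_smul]

/-- Every symmetric tensor of the plane is `sym (a ⊗ Z)` plus a multiple of its `res`. -/
theorem decompose (hα : α ≠ 0) (he : e 1 0 = e 0 1) :
    Φ * e * Φᵀ = symOuter (Φ *ᵥ α) (solveZ (Φ * Φᵀ) (Φ *ᵥ α) (Φ * e * Φᵀ)) +
      (res (Φ * Φᵀ) (Φ *ᵥ α) (Φ * e * Φᵀ) / nsq (Φ * Φᵀ) (Φ *ᵥ α) ^ 2) •
        (nsq (Φ * Φᵀ) (Φ *ᵥ α) • (Φ * Φᵀ) - vecMulVec (Φ *ᵥ α) (Φ *ᵥ α)) := by
  have hv : ∀ x y : Fin 2 → ℝ, vecMulVec (Φ *ᵥ x) (Φ *ᵥ y) = Φ * vecMulVec x y * Φᵀ := by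
    intro x y
    rw [Matrix.mul_vecMulVec, Matrix.vecMulVec_mul, Matrix.vecMul_transpose]
  have hne : α ⬝ᵥ α ≠ 0 := fun h0 => hα (dotProduct_self_eq_zero.1 h0)
  rw [res_coord h, solveZ_coord h, nsq_coord h, symOuter, hv, hv, hv]
  have key : e = (1 / 2 : ℝ) •
      (vecMulVec α ((2 / (α ⬝ᵥ α)) • (e *ᵥ α) - ((α ⬝ᵥ e *ᵥ α) / (α ⬝ᵥ α) ^ 2) • α) +
        vecMulVec ((2 / (α ⬝ᵥ α)) • (e *ᵥ α) - ((α ⬝ᵥ e *ᵥ α) / (α ⬝ᵥ α) ^ 2) • α) α) +
      ((![-α 1, α 0] ⬝ᵥ e *ᵥ ![-α 1, α 0]) / (α ⬝ᵥ α) ^ 2) •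
        ((α ⬝ᵥ α) • (1 : Matrix (Fin 2) (Fin 2) ℝ) - vecMulVec α α) := by
    have hne' : α 0 * α 0 + α 1 * α 1 ≠ 0 := by simpa [dotProduct, Fin.sum_univ_two] using hne
    ext i j
    simp only [Matrix.add_apply, Matrix.smul_apply, Matrix.sub_apply, vecMulVec_apply,
      Pi.sub_apply, Pi.smul_apply, smul_eq_mul, Matrix.one_apply, Matrix.mulVec, dotProduct,
      Fin.sum_univ_two]
    have hne2 : α 0 ^ 2 + α 1 ^ 2 ≠ 0 := by rwa [pow_two, pow_two]
    fin_cases i <;> fin_cases j <;> simp [he] <;> field_simp [hne', hne2] <;> ring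
  conv_lhs => rw [key]
  simp only [Matrix.mul_add, Matrix.add_mul, Matrix.mul_sub, Matrix.sub_mul, Matrix.mul_smul,
    Matrix.smul_mul, Matrix.mul_one, smul_add]

/-- If `res = 0` the tensor is `sym (a ⊗ Z)`. -/
theorem eq_symOuter (hα : α ≠ 0) (he : e 1 0 = e 0 1)
    (hr : res (Φ * Φᵀ) (Φ *ᵥ α) (Φ * e * Φᵀ) = 0) :
    Φ * e * Φᵀ = symOuter (Φ *ᵥ α) (solveZ (Φ * Φᵀ) (Φ *ᵥ α) (Φ * e * Φᵀ)) := by
  have := decompose h α e hα he
  rwa [hr, zero_div, zero_smul, add_zero] at this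

/-- `res` kills the solvable tensors. -/
theorem res_symOuter (ζ : Fin 2 → ℝ) :
    res (Φ * Φᵀ) (Φ *ᵥ α) (symOuter (Φ *ᵥ α) (Φ *ᵥ ζ)) = 0 := by
  have : symOuter (Φ *ᵥ α) (Φ *ᵥ ζ) = Φ * symOuter α ζ * Φᵀ := by
    simp only [symOuter, Matrix.mul_smul, Matrix.smul_mul, Matrix.mul_add, Matrix.add_mul]
    rw [Matrix.mul_vecMulVec, Matrix.mul_vecMulVec, Matrix.vecMulVec_mul, Matrix.vecMulVec_mul,
      Matrix.vecMul_transpose, Matrix.vecMul_transpose]
  rw [this, res_coord h]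
  simp [symOuter, dotProduct, Matrix.mulVec, Fin.sum_univ_two, vecMulVec_apply]
  ring

/-- The tangent vector with coefficients `sharp` represents the covector. -/
theorem gram_mulVec_sharp : (Φ * Φᵀ) *ᵥ sharp (Φ * Φᵀ) (Φ *ᵥ α) = Φ *ᵥ α := by
  rw [← Matrix.mulVec_mulVec, transpose_mulVec_sharp h]

theorem proj_mulVec : proj (Φ * Φᵀ) *ᵥ (Φ *ᵥ α) = Φ *ᵥ α := by
  rw [Matrix.mulVec_mulVec, proj_mul_left h]

end Gram

/-- Bounds of the Gram map give bounds of both invariants. -/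
theorem invariant_bounds {Φ : Matrix n (Fin 2) ℝ} {t T : ℝ} (ht : 0 < t)
    (hlo : ∀ x, t * (x ⬝ᵥ x) ≤ (Φ *ᵥ x) ⬝ᵥ (Φ *ᵥ x))
    (hhi : ∀ x, (Φ *ᵥ x) ⬝ᵥ (Φ *ᵥ x) ≤ T * (x ⬝ᵥ x)) :
    t ^ 2 ≤ tr2 (Φ * Φᵀ) ∧ (Φ * Φᵀ).trace ≤ 2 * T ∧ (Φᵀ * Φ).det ≠ 0 := by
  have hS : ∀ x, (Φ *ᵥ x) ⬝ᵥ (Φ *ᵥ x) = x ⬝ᵥ (Φᵀ * Φ) *ᵥ x := fun x => by
    rw [← Matrix.mulVec_mulVec, dotProduct_mulVec x, Matrix.vecMul_transpose]
  have hsymm : (Φᵀ * Φ) 1 0 = (Φᵀ * Φ) 0 1 := by simp [Matrix.mul_apply, mul_comm]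
  set S := Φᵀ * Φ with hSdef
  have l1 := hlo ![1, 0]
  have u1 := hhi ![1, 0]
  have u2 := hhi ![0, 1]
  have l3 := hlo ![-S 0 1, S 0 0]
  rw [hS] at l1 u1 u2 l3
  simp [dotProduct, Matrix.mulVec, Fin.sum_univ_two] at l1 u1 u2 l3
  have hdet : t ^ 2 ≤ S.det := by
    rw [Matrix.det_fin_two]
    rw [hsymm] at l3 ⊢
    have ha : 0 < S 0 0 := ht.trans_le l1
    refine le_of_mul_le_mul_left ?_ ha
    nlinarith [mul_le_mul_of_nonneg_left l1 (mul_nonneg ht.le ha.le), mul_nonneg ht.le (sq_nonneg (S 0 1))]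
  refine ⟨by rwa [tr2_factor], ?_, ((pow_pos ht 2).trans_le hdet).ne'⟩
  rw [trace_factor, ← hSdef, Matrix.trace_fin_two]
  linarith

theorem det_gram_ne_zero {Φ : Matrix n (Fin 2) ℝ} (h : ∀ x, Φ *ᵥ x = 0 → x = 0) :
    (Φᵀ * Φ).det ≠ 0 := by
  intro h0
  obtain ⟨x, hx, hx0⟩ := Matrix.exists_mulVec_eq_zero_iff.2 h0
  refine hx (h x (dotProduct_self_eq_zero.1 ?_))
  rw [← Matrix.vecMul_transpose Φ, ← dotProduct_mulVec, Matrix.vecMul_transpose,
    Matrix.mulVec_mulVec, hx0, dotProduct_zero]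

section Basis

variable {T : Type} [AddCommGroup T] [Module ℝ T] [FiniteDimensional ℝ T]

/-- A positive definite form on a plane has an orthonormal basis. -/
theorem exists_orthonormal (hT : Module.finrank ℝ T = 2) (g : LinearMap.BilinForm ℝ T)
    (hs : ∀ v w, g v w = g w v) (hp : ∀ v, v ≠ 0 → 0 < g v v) :
    ∃ b : Fin 2 → T, (∀ i j, g (b i) (b j) = if i = j then 1 else 0) ∧
      ∀ v, v = ∑ i, g v (b i) • b i := by
  let b₀ := Module.finBasisOfFinrankEq ℝ T hT
  have h00 := hp _ (b₀.ne_zero 0)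
  set u := (Real.sqrt (g (b₀ 0) (b₀ 0)))⁻¹ • b₀ 0 with hu
  set w' := b₀ 1 - g (b₀ 1) u • u with hw'
  have huu : g u u = 1 := by
    simp [hu, ← mul_assoc, ← sq, inv_pow, Real.sq_sqrt h00.le, inv_mul_cancel₀ h00.ne']
  have hw0 : w' ≠ 0 := by
    intro h0
    have hk : b₀.repr w' 1 = (1 : ℝ) := by simp [hw', hu]
    rw [h0] at hk
    simp at hk
  have hww := hp _ hw0
  set w := (Real.sqrt (g w' w'))⁻¹ • w' with hw
  have h1 : g w w = 1 := by
    simp [hw, ← mul_assoc, ← sq, inv_pow, Real.sq_sqrt hww.le, inv_mul_cancel₀ hww.ne']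
  have h2 : g u w' = 0 := by
    simp [hw', huu, hs u (b₀ 1)]
  have h3 : g u w = 0 := by simp [hw, h2]
  have horth : ∀ i j, g (![u, w] i) (![u, w] j) = if i = j then 1 else 0 := by
    intro i j
    fin_cases i <;> fin_cases j <;> simp [huu, h1, h3, hs w u]
  refine ⟨![u, w], horth, fun v => ?_⟩
  have hli : LinearIndependent ℝ ![u, w] := by
    refine Fintype.linearIndependent_iff.2 fun c hc i => ?_
    have := congrArg (fun z => g z (![u, w] i)) hc
    simp only [map_sum, LinearMap.sum_apply, map_smul, LinearMap.smul_apply, horth] at this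
    simpa using this
  have hv : v ∈ Submodule.span ℝ (Set.range ![u, w]) := by
    rw [hli.span_eq_top_of_card_eq_finrank (by simp [hT])]
    trivial
  obtain ⟨c, rfl⟩ := (Submodule.mem_span_range_iff_exists_fun ℝ).1 hv
  refine Finset.sum_congr rfl fun i _ => ?_
  simp only [map_sum, LinearMap.sum_apply, map_smul, LinearMap.smul_apply, horth]
  simp

variable {b : Fin 2 → T} {g : LinearMap.BilinForm ℝ T}

/-- Coordinates of a family in an orthonormal basis. -/
def coordMat (g : LinearMap.BilinForm ℝ T) (b : Fin 2 → T) (v : n → T) : Matrix n (Fin 2) ℝ :=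
  Matrix.of fun i α => g (v i) (b α)

variable (hb : ∀ v, v = ∑ i, g v (b i) • b i) (v : n → T)
include hb

omit [FiniteDimensional ℝ T] [Fintype n] [DecidableEq n] in
theorem coord_lin (a : T →ₗ[ℝ] ℝ) :
    (fun i => a (v i)) = coordMat g b v *ᵥ fun α => a (b α) := by
  funext i
  conv_lhs => rw [hb (v i)]
  simp [coordMat, Matrix.mulVec, dotProduct]

omit [FiniteDimensional ℝ T] [Fintype n] [DecidableEq n] in
theorem coord_bilin (E : LinearMap.BilinForm ℝ T) :
    Matrix.of (fun i k => E (v i) (v k)) =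
      coordMat g b v * Matrix.of (fun α β => E (b α) (b β)) * (coordMat g b v)ᵀ := by
  ext i k
  simp only [Matrix.of_apply]
  conv_lhs => rw [hb (v i), hb (v k)]
  simp [coordMat, Matrix.mul_apply, Fin.sum_univ_two]
  ring

omit [FiniteDimensional ℝ T] [Fintype n] [DecidableEq n] in
theorem coord_gram (horth : ∀ i j, g (b i) (b j) = if i = j then 1 else 0) :
    Matrix.of (fun i k => g (v i) (v k)) = coordMat g b v * (coordMat g b v)ᵀ := by
  rw [coord_bilin hb v g]
  have : Matrix.of (fun α β => g (b α) (b β)) = (1 : Matrix (Fin 2) (Fin 2) ℝ) := by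
    ext i j; simp [horth, Matrix.one_apply]
  rw [this, Matrix.mul_one]

omit [FiniteDimensional ℝ T] [DecidableEq n] in
theorem coord_injective (hv : Submodule.span ℝ (Set.range v) = ⊤)
    (hp : ∀ w, g w w = 0 → w = 0) (horth : ∀ i j, g (b i) (b j) = if i = j then 1 else 0)
    (x : Fin 2 → ℝ) (hx : coordMat g b v *ᵥ x = 0) : x = 0 := by
  set w := ∑ α, x α • b α with hw
  have hz : g.flip w = 0 := by
    refine LinearMap.ext_on_range hv fun i => ?_
    have := congrFun hx i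
    simp [coordMat, Matrix.mulVec, dotProduct] at this
    simp [hw, ← this, mul_comm]
  have h0 : w = 0 := hp w (by simpa using LinearMap.congr_fun hz w)
  funext α
  have := congrArg (fun z => g z (b α)) h0
  fin_cases α <;> simpa [hw, map_sum, horth] using this

omit [DecidableEq n] [FiniteDimensional ℝ T] in
/-- Frame bounds in coordinates. -/
theorem coord_bounds {t R : ℝ} (hlo : ∀ w, t * g w w ≤ ∑ i, g (v i) w ^ 2)
    (hhi : ∀ w, ∑ i, g (v i) w ^ 2 ≤ R * g w w)
    (horth : ∀ i j, g (b i) (b j) = if i = j then 1 else 0) (x : Fin 2 → ℝ) :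
    t * (x ⬝ᵥ x) ≤ (coordMat g b v *ᵥ x) ⬝ᵥ (coordMat g b v *ᵥ x) ∧
      (coordMat g b v *ᵥ x) ⬝ᵥ (coordMat g b v *ᵥ x) ≤ R * (x ⬝ᵥ x) := by
  have h1 : g (∑ α, x α • b α) (∑ α, x α • b α) = x ⬝ᵥ x := by
    simp [horth, Fin.sum_univ_two, dotProduct]
  have h2 : ∑ i, g (v i) (∑ α, x α • b α) ^ 2 =
      (coordMat g b v *ᵥ x) ⬝ᵥ (coordMat g b v *ᵥ x) := by
    refine Finset.sum_congr rfl fun i _ => ?_
    simp [coordMat, Matrix.mulVec, dotProduct, sq, mul_comm]
  rw [← h1, ← h2]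
  exact ⟨hlo _, hhi _⟩

omit [Fintype n] [DecidableEq n] [FiniteDimensional ℝ T] v in
/-- A covector close to `g u` has coordinates close to those of `u`. -/
theorem coord_close (a : T →ₗ[ℝ] ℝ) (u : T) {δ : ℝ} (_hδ : 0 ≤ δ)
    (horth : ∀ i j, g (b i) (b j) = if i = j then 1 else 0)
    (hclose : ∀ w, |a w - g u w| ≤ δ * Real.sqrt (g w w)) :
    (fun i => a (b i) - g u (b i)) ⬝ᵥ (fun i => a (b i) - g u (b i)) ≤ δ ^ 2 := by
  set z := fun i => a (b i) - g u (b i) with hz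
  have hw := hclose (∑ i, z i • b i)
  have h1 : g (∑ i, z i • b i) (∑ i, z i • b i) = z ⬝ᵥ z := by
    simp [horth, Fin.sum_univ_two, dotProduct]
  have h2 : a (∑ i, z i • b i) - g u (∑ i, z i • b i) = z ⬝ᵥ z := by
    simp [hz, Fin.sum_univ_two, dotProduct]; ring
  have hnn : 0 ≤ z ⬝ᵥ z := Finset.sum_nonneg fun i _ => mul_self_nonneg _
  rw [h1, h2, abs_of_nonneg hnn] at hw
  rcases hnn.eq_or_lt with h0 | h0
  · rw [← h0]; positivity
  · nlinarith [Real.mul_self_sqrt h0.le, Real.sqrt_pos.2 h0]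

end Basis

section Normal

variable {m : ℕ} {N : ℕ}

/-- `∑ i, uᵢ uᵢᵀ`. -/
def outer (u : Fin N → EuclideanSpace ℝ (Fin m)) : Matrix (Fin m) (Fin m) ℝ :=
  Matrix.of fun p q => ∑ i, u i p * u i q

/-- The Gram matrix `⟪uᵢ, uₖ⟫`. -/
def inner' (u : Fin N → EuclideanSpace ℝ (Fin m)) : Matrix (Fin N) (Fin N) ℝ :=
  Matrix.of fun i k => inner ℝ (u i) (u k)

theorem outer_invariants (u : Fin N → EuclideanSpace ℝ (Fin m)) :
    (outer u).trace = (inner' u).trace ∧ tr2 (outer u) = tr2 (inner' u) := by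
  set U : Matrix (Fin N) (Fin m) ℝ := Matrix.of fun i p => u i p with hU
  have h1 : outer u = Uᵀ * U := by ext p q; simp [outer, hU, Matrix.mul_apply]
  have h2 : inner' u = U * Uᵀ := by
    ext i k; simp [inner', hU, Matrix.mul_apply, PiLp.inner_apply, mul_comm]
  have h3 : (Uᵀ * U).trace = (U * Uᵀ).trace := Matrix.trace_mul_comm _ _
  have h4 : (Uᵀ * U * (Uᵀ * U)).trace = (U * Uᵀ * (U * Uᵀ)).trace := by
    rw [Matrix.mul_assoc, Matrix.trace_mul_comm]
    simp only [Matrix.mul_assoc]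
  exact ⟨by rw [h1, h2, h3], by rw [tr2, tr2, h1, h2, h3, h4]⟩

/-- The projection on the normal plane of a spanning family, as a rational expression. -/
theorem one_sub_proj_outer (u : Fin N → EuclideanSpace ℝ (Fin m))
    (P : Submodule ℝ (EuclideanSpace ℝ (Fin m))) (hP : Module.finrank ℝ P = 2)
    (hu : Submodule.span ℝ (Set.range u) = P) (y : EuclideanSpace ℝ (Fin m)) :
    tr2 (outer u) ≠ 0 ∧
      ((1 : Matrix (Fin m) (Fin m) ℝ) - proj (outer u)) *ᵥ y.ofLp =
        (Pᗮ.starProjection y).ofLp := by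
  let f := (stdOrthonormalBasis ℝ P).reindex (finCongr hP)
  set Fm : Matrix (Fin m) (Fin 2) ℝ :=
    Matrix.of fun p α => (f α : EuclideanSpace ℝ (Fin m)) p with hFm
  set C : Matrix (Fin N) (Fin 2) ℝ :=
    Matrix.of fun i α => inner ℝ (f α : EuclideanSpace ℝ (Fin m)) (u i) with hC
  have hmem : ∀ i, u i ∈ P := fun i => hu ▸ Submodule.subset_span ⟨i, rfl⟩
  have hexp : ∀ i, u i = ∑ α, C i α • (f α : EuclideanSpace ℝ (Fin m)) := by
    intro i
    have := congrArg (fun z : P => (z : EuclideanSpace ℝ (Fin m)))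
      (f.sum_repr' ⟨u i, hmem i⟩)
    simpa [hC] using this.symm
  have hFF : Fmᵀ * Fm = 1 := by
    ext α β
    have := orthonormal_iff_ite.1 f.orthonormal β α
    simp only [Submodule.coe_inner, PiLp.inner_apply, RCLike.inner_apply, conj_trivial] at this
    simpa [hFm, Matrix.mul_apply, Matrix.one_apply, eq_comm] using this
  have hout : outer u = Fm * (Cᵀ * C * Fmᵀ) := by
    ext p q
    simp only [outer, Matrix.of_apply, hexp]
    simp [hFm, Matrix.mul_apply, Fin.sum_univ_two, Finset.sum_mul]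
    simp only [Finset.mul_sum, ← Finset.sum_add_distrib]
    exact Finset.sum_congr rfl fun i _ => by ring
  have hCinj : ∀ x, C *ᵥ x = 0 → x = 0 := by
    intro x hx
    set w := ∑ α, x α • (f α : EuclideanSpace ℝ (Fin m)) with hw
    have hwP : w ∈ P := P.sum_mem fun α _ => P.smul_mem _ (f α).2
    have horth : ∀ z ∈ P, inner ℝ w z = (0 : ℝ) := by
      rw [← hu]
      intro z hz
      induction hz using Submodule.span_induction with
      | mem z hz =>
        obtain ⟨i, rfl⟩ := hz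
        have := congrFun hx i
        simp [hC, Matrix.mulVec, dotProduct] at this
        simp [hw, inner_add_left, real_inner_smul_left, ← this, mul_comm]
      | zero => simp
      | add a b _ _ ha hb => simp [inner_add_right, ha, hb]
      | smul r a _ ha => simp [real_inner_smul_right, ha]
    have hw0 : w = 0 := inner_self_eq_zero.1 (horth w hwP)
    have hz : ∑ α, x α • f α = 0 := Subtype.ext (by simpa [hw] using hw0)
    funext α
    exact Fintype.linearIndependent_iff.1 f.orthonormal.linearIndependent x hz α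
  have hdet : (Cᵀ * C * Fmᵀ * Fm).det ≠ 0 := by
    rw [Matrix.mul_assoc, hFF, Matrix.mul_one]
    exact det_gram_ne_zero hCinj
  refine ⟨by rwa [hout, tr2_factor], ?_⟩
  have hy : y = P.starProjection y + Pᗮ.starProjection y :=
    (P.starProjection_add_starProjection_orthogonal y).symm
  obtain ⟨x, hx⟩ : ∃ x : Fin 2 → ℝ, (P.starProjection y).ofLp = Fm *ᵥ x := by
    refine ⟨fun α => inner ℝ (f α) ⟨_, P.starProjection_apply_mem y⟩, ?_⟩
    have := congrArg (fun z : P => (z : EuclideanSpace ℝ (Fin m)))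
      (f.sum_repr' ⟨_, P.starProjection_apply_mem y⟩)
    funext p
    have := congrArg (fun z : EuclideanSpace ℝ (Fin m) => z p) this
    simpa [hFm, Matrix.mulVec, dotProduct, mul_comm] using this.symm
  have hperp : Fmᵀ *ᵥ (Pᗮ.starProjection y).ofLp = 0 := by
    funext α
    have := Submodule.inner_right_of_mem_orthogonal (f α).2 (Pᗮ.starProjection_apply_mem y)
    simp only [PiLp.inner_apply, RCLike.inner_apply, conj_trivial] at this
    simpa [hFm, Matrix.mulVec, dotProduct, mul_comm] using this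
  have k1 : proj (outer u) *ᵥ (P.starProjection y).ofLp = (P.starProjection y).ofLp := by
    rw [hx, Matrix.mulVec_mulVec, hout, proj_mul_left hdet]
  have k2 : proj (outer u) *ᵥ (Pᗮ.starProjection y).ofLp = 0 := by
    rw [hout, proj_factor, Matrix.smul_mulVec, ← Matrix.mulVec_mulVec, ← Matrix.mulVec_mulVec,
      ← Matrix.mulVec_mulVec, hperp]
    simp
  conv_lhs => rw [hy]
  rw [WithLp.ofLp_add, Matrix.mulVec_add, Matrix.sub_mulVec, Matrix.sub_mulVec,
    Matrix.one_mulVec, Matrix.one_mulVec, k1, k2, sub_self, zero_add, sub_zero]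

end Normal

section Quadratic

variable {F : Type} [NormedAddCommGroup F] [NormedSpace ℝ F]

/-- The quadratic map with coefficients `h 0`, `h 1`, `h 2`. -/
def quad (h : Fin 3 → F) (e : Fin 2 → ℝ) : F :=
  e 0 ^ 2 • h 0 + (2 * (e 0 * e 1)) • h 1 + e 1 ^ 2 • h 2

/-- The determinant of two vectors. -/
def cross (a b : Fin 2 → ℝ) : ℝ := a 0 * b 1 - a 1 * b 0

theorem quad_interpolate (h : Fin 3 → F) (a b c : Fin 2 → ℝ) :
    (cross a b * cross a c * cross b c) • h 0 =
        (cross b c * (b 1 * c 1)) • quad h a - (cross a c * (a 1 * c 1)) • quad h b +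
          (cross a b * (a 1 * b 1)) • quad h c ∧
      (cross a b * cross a c * cross b c) • h 1 =
        (-(cross b c * (b 1 * c 0 + b 0 * c 1) / 2)) • quad h a +
          (cross a c * (a 1 * c 0 + a 0 * c 1) / 2) • quad h b -
          (cross a b * (a 1 * b 0 + a 0 * b 1) / 2) • quad h c ∧
      (cross a b * cross a c * cross b c) • h 2 =
        (cross b c * (b 0 * c 0)) • quad h a - (cross a c * (a 0 * c 0)) • quad h b +
          (cross a b * (a 0 * b 0)) • quad h c := by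
  refine ⟨?_, ?_, ?_⟩ <;>
    simp only [quad, cross] <;> module

/-- Three separated directions control a quadratic map. -/
theorem quad_control (h : Fin 3 → F) {a b c : Fin 2 → ℝ} {d ε : ℝ} (hd : 0 < d)
    (ha : ∀ i, |a i| ≤ 2) (hb : ∀ i, |b i| ≤ 2) (hc : ∀ i, |c i| ≤ 2)
    (hab : d ≤ |cross a b|) (hac : d ≤ |cross a c|) (hbc : d ≤ |cross b c|)
    (qa : ‖quad h a‖ ≤ ε) (qb : ‖quad h b‖ ≤ ε) (qc : ‖quad h c‖ ≤ ε) (k : Fin 3) :
    d ^ 3 * ‖h k‖ ≤ 96 * ε := by
  have hm : ∀ {x y : Fin 2 → ℝ}, (∀ i, |x i| ≤ 2) → (∀ i, |y i| ≤ 2) →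
      ∀ i j, |x i * y j| ≤ 4 := fun hx hy i j => by
    rw [abs_mul]
    exact (mul_le_mul (hx i) (hy j) (abs_nonneg _) two_pos.le).trans (by norm_num)
  have hcr : ∀ {x y : Fin 2 → ℝ}, (∀ i, |x i| ≤ 2) → (∀ i, |y i| ≤ 2) → |cross x y| ≤ 8 :=
    fun hx hy => (abs_sub _ _).trans (by linarith [hm hx hy 0 1, hm hx hy 1 0])
  have h32 : ∀ {p q : ℝ}, |p| ≤ 8 → |q| ≤ 4 → |p * q| ≤ 32 := fun hp hq => by
    rw [abs_mul]; exact (mul_le_mul hp hq (abs_nonneg _) (by norm_num)).trans (by norm_num)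
  have hco : ∀ {x y : Fin 2 → ℝ}, (∀ i, |x i| ≤ 2) → (∀ i, |y i| ≤ 2) →
      |cross x y * (x 1 * y 1)| ≤ 32 ∧ |cross x y * (x 1 * y 0 + x 0 * y 1) / 2| ≤ 32 ∧
        |cross x y * (x 0 * y 0)| ≤ 32 := by
    intro x y hx hy
    refine ⟨h32 (hcr hx hy) (hm hx hy 1 1), ?_, h32 (hcr hx hy) (hm hx hy 0 0)⟩
    rw [mul_div_assoc]
    refine h32 (hcr hx hy) ?_
    rw [abs_div, abs_two]
    linarith [abs_add_le (x 1 * y 0) (x 0 * y 1), hm hx hy 1 0, hm hx hy 0 1]
  have hε : 0 ≤ ε := (norm_nonneg _).trans qa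
  have hP : d ^ 3 ≤ |cross a b * cross a c * cross b c| := by
    rw [abs_mul, abs_mul, pow_three, ← mul_assoc]; gcongr
  have key : ∀ (x : F) (p q r : ℝ), |p| ≤ 32 → |q| ≤ 32 → |r| ≤ 32 →
      (cross a b * cross a c * cross b c) • x = p • quad h a + q • quad h b + r • quad h c →
      d ^ 3 * ‖x‖ ≤ 96 * ε := by
    intro x p q r hp hq hr e
    calc d ^ 3 * ‖x‖ ≤ ‖(cross a b * cross a c * cross b c) • x‖ := by
          rw [norm_smul, Real.norm_eq_abs]; gcongr
      _ ≤ ‖p • quad h a‖ + ‖q • quad h b‖ + ‖r • quad h c‖ := by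
          rw [e]; exact norm_add₃_le
      _ ≤ 32 * ε + 32 * ε + 32 * ε := by
          simp only [norm_smul, Real.norm_eq_abs]; gcongr
      _ = 96 * ε := by ring
  obtain ⟨e0, e1, e2⟩ := quad_interpolate h a b c
  fin_cases k
  · refine key _ (cross b c * (b 1 * c 1)) (-(cross a c * (a 1 * c 1)))
      (cross a b * (a 1 * b 1)) (hco hb hc).1 ?_ (hco ha hb).1 (e0.trans (by module))
    rw [abs_neg]; exact (hco ha hc).1
  · refine key _ (-(cross b c * (b 1 * c 0 + b 0 * c 1) / 2))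
      (cross a c * (a 1 * c 0 + a 0 * c 1) / 2)
      (-(cross a b * (a 1 * b 0 + a 0 * b 1) / 2)) ?_ (hco ha hc).2.1 ?_ (e1.trans (by module))
    · rw [abs_neg]; exact (hco hb hc).2.1
    · rw [abs_neg]; exact (hco ha hb).2.1
  · refine key _ (cross b c * (b 0 * c 0)) (-(cross a c * (a 0 * c 0)))
      (cross a b * (a 0 * b 0)) (hco hb hc).2.2 ?_ (hco ha hb).2.2 (e2.trans (by module))
    rw [abs_neg]; exact (hco ha hc).2.2

/-- The nine test directions. -/
def dir (i : Fin 9) : Fin 2 → ℝ := ![Real.cos (i * Real.pi / 9), Real.sin (i * Real.pi / 9)]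

/-- `e` is within `1/20` of the line direction `d`. -/
def NearDir (e d : Fin 2 → ℝ) : Prop :=
  (e - d) ⬝ᵥ (e - d) ≤ (1 / 20) ^ 2 ∨ (e + d) ⬝ᵥ (e + d) ≤ (1 / 20) ^ 2

theorem dir_cross {i j : Fin 9} (hij : i < j) : 2 / 9 ≤ cross (dir i) (dir j) := by
  have hc : cross (dir i) (dir j) = Real.sin (((j : ℕ) - (i : ℕ) : ℝ) * Real.pi / 9) := by
    rw [sub_mul, sub_div, Real.sin_sub]; simp [cross, dir]; ring
  rw [hc]
  have h1 : (1 : ℝ) ≤ (j : ℕ) - (i : ℕ) := by
    have : (i : ℕ) + 1 ≤ j := hij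
    have : ((i : ℕ) : ℝ) + 1 ≤ (j : ℕ) := by exact_mod_cast this
    linarith
  have h8 : ((j : ℕ) : ℝ) - (i : ℕ) ≤ 8 := by
    have : ((j : ℕ) : ℝ) ≤ 8 := by exact_mod_cast (show (j : ℕ) ≤ 8 by omega)
    linarith [(i : ℕ).cast_nonneg (α := ℝ)]
  set m : ℝ := ((j : ℕ) : ℝ) - (i : ℕ) with hm
  have hπ := Real.pi_pos
  rcases le_total m (9 / 2) with hle | hle
  · refine le_trans ?_ (Real.mul_le_sin (by positivity) (by nlinarith))
    rw [show 2 / Real.pi * (m * Real.pi / 9) = 2 * m / 9 by field_simp]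
    linarith
  · rw [← Real.sin_pi_sub]
    have hy : Real.pi - m * Real.pi / 9 = (9 - m) * Real.pi / 9 := by ring
    rw [hy]
    refine le_trans ?_ (Real.mul_le_sin (by nlinarith) (by nlinarith))
    rw [show 2 / Real.pi * ((9 - m) * Real.pi / 9) = 2 * (9 - m) / 9 by field_simp]
    linarith

theorem dir_cross_abs {i j : Fin 9} (hij : i ≠ j) : 2 / 9 ≤ |cross (dir i) (dir j)| := by
  rcases lt_or_gt_of_ne hij with h | h
  · exact (dir_cross h).trans (le_abs_self _)
  · refine ((dir_cross h).trans (le_abs_self _)).trans_eq ?_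
    rw [← abs_neg]; congr 1; simp only [cross]; ring

theorem abs_cross_le {x y : Fin 2 → ℝ} {r s : ℝ} (hr : 0 ≤ r) (hs : 0 ≤ s)
    (hx : x ⬝ᵥ x ≤ r ^ 2) (hy : y ⬝ᵥ y ≤ s ^ 2) : |cross x y| ≤ r * s := by
  simp only [dotProduct, Fin.sum_univ_two] at hx hy
  refine abs_le_of_sq_le_sq ?_ (mul_nonneg hr hs)
  unfold cross
  nlinarith [sq_nonneg (x 0 * y 0 + x 1 * y 1),
    mul_le_mul hx hy (by nlinarith [sq_nonneg (y 0), sq_nonneg (y 1)]) (sq_nonneg r)]

/-- Near test directions are separated. -/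
theorem near_cross {i j : Fin 9} (hij : i ≠ j) {e e' : Fin 2 → ℝ} (he : NearDir e (dir i))
    (he' : NearDir e' (dir j)) : 1 / 10 ≤ |cross e e'| := by
  have hd : ∀ k, dir k ⬝ᵥ dir k ≤ (1 : ℝ) ^ 2 := fun k => by
    simp [dir, dotProduct, Fin.sum_univ_two, ← sq]
  have neg : ∀ x y : Fin 2 → ℝ, |cross (-x) y| = |cross x y| ∧ |cross x (-y)| = |cross x y| := by
    intro x y
    constructor <;> (rw [← abs_neg]; congr 1; simp [cross]; ring)
  have base : ∀ x x' : Fin 2 → ℝ, (x - dir i) ⬝ᵥ (x - dir i) ≤ (1 / 20) ^ 2 →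
      (x' - dir j) ⬝ᵥ (x' - dir j) ≤ (1 / 20) ^ 2 → 1 / 10 ≤ |cross x x'| := by
    intro x x' hx hx'
    have k1 := abs_cross_le (by norm_num) (by norm_num) hx hx'
    have k2 := abs_cross_le (by norm_num) one_pos.le hx (hd j)
    have k3 := abs_cross_le one_pos.le (by norm_num) (hd i) hx'
    have hsplit : cross (dir i) (dir j) = cross x x' + (-cross (x - dir i) (x' - dir j) +
        -cross (x - dir i) (dir j) + -cross (dir i) (x' - dir j)) := by
      simp [cross]; ring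
    have k4 := dir_cross_abs hij
    rw [hsplit] at k4
    have t1 := abs_add_le (cross x x') (-cross (x - dir i) (x' - dir j) +
      -cross (x - dir i) (dir j) + -cross (dir i) (x' - dir j))
    have t2 := abs_add_three (-cross (x - dir i) (x' - dir j)) (-cross (x - dir i) (dir j))
      (-cross (dir i) (x' - dir j))
    simp only [abs_neg] at t2
    norm_num at k1 k2 k3
    linarith
  have flip : ∀ (x : Fin 2 → ℝ) k, NearDir x (dir k) →
      ((x - dir k) ⬝ᵥ (x - dir k) ≤ (1 / 20) ^ 2 ∨ (-x - dir k) ⬝ᵥ (-x - dir k) ≤ (1 / 20) ^ 2) := by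
    intro x k hx
    refine hx.imp id fun h => ?_
    rwa [show -x - dir k = -(x + dir k) by abel, neg_dotProduct, dotProduct_neg, neg_neg]
  rcases flip e i he with h | h <;> rcases flip e' j he' with h' | h'
  · exact base _ _ h h'
  · exact (neg e e').2 ▸ base _ _ h h'
  · exact (neg e e').1 ▸ base _ _ h h'
  · have := base _ _ h h'
    rwa [(neg e (-e')).1, (neg e e').2] at this

theorem near_le_two {e : Fin 2 → ℝ} {i : Fin 9} (he : NearDir e (dir i)) (k : Fin 2) :
    |e k| ≤ 2 := by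
  have hd : |dir i k| ≤ 1 := by
    fin_cases k <;> simp [dir, Real.abs_cos_le_one, Real.abs_sin_le_one]
  rcases he with h | h <;> simp only [dotProduct, Fin.sum_univ_two, Pi.sub_apply, Pi.add_apply] at h
  all_goals
    obtain ⟨hd1, hd2⟩ := abs_le.1 hd
    refine abs_le.2 ⟨?_, ?_⟩ <;> fin_cases k <;>
      simp at hd1 hd2 ⊢ <;>
      nlinarith [mul_self_nonneg (e 0 - dir i 0), mul_self_nonneg (e 1 - dir i 1),
        mul_self_nonneg (e 0 + dir i 0), mul_self_nonneg (e 1 + dir i 1)]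

/-- The bad directions of a quadratic map lie in two short arcs: for one of the three rotations
`{dir k, dir (k+3), dir (k+6)}` of an equilateral triple, the map is bounded below near all three
directions. -/
theorem exists_good_rotation (h : Fin 3 → F) :
    ∃ k : Fin 3, ∀ i : Fin 9, (i : ℕ) % 3 = k → ∀ e, NearDir e (dir i) →
      (1 / 100000000 : ℝ) * (‖h 0‖ + ‖h 1‖ + ‖h 2‖) ≤ ‖quad h e‖ := by
  by_contra hcon
  push Not at hcon
  obtain ⟨i, hi, a, ha, qa⟩ := hcon 0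
  obtain ⟨j, hj, b, hb, qb⟩ := hcon 1
  obtain ⟨l, hl, c, hc, qc⟩ := hcon 2
  have hij : i ≠ j := fun e => by subst e; rw [hi] at hj; exact absurd hj (by decide)
  have hil : i ≠ l := fun e => by subst e; rw [hi] at hl; exact absurd hl (by decide)
  have hjl : j ≠ l := fun e => by subst e; rw [hj] at hl; exact absurd hl (by decide)
  have hq := quad_control h (d := 1 / 10) (by norm_num) (near_le_two ha) (near_le_two hb)
    (near_le_two hc) (near_cross hij ha hb) (near_cross hil ha hc) (near_cross hjl hb hc)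
    qa.le qb.le qc.le
  have q0 := hq 0
  have q1 := hq 1
  have q2 := hq 2
  have := norm_nonneg (quad h a)
  norm_num at q0 q1 q2 qa
  linarith [norm_nonneg (h 0), norm_nonneg (h 1), norm_nonneg (h 2)]

/-- The kernel vector of a covector. -/
def perp (α : Fin 2 → ℝ) : Fin 2 → ℝ := ![-α 1, α 0]

/-- A covector within `1/20` of the unit covector whose kernel is `d` has kernel near `d`. -/
theorem nearDir_perp {α u d : Fin 2 → ℝ} (hu : perp u = d ∨ perp u = -d)
    (hclose : (α - u) ⬝ᵥ (α - u) ≤ (1 / 20) ^ 2) : NearDir (perp α) d := by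
  have : (perp α - perp u) ⬝ᵥ (perp α - perp u) = (α - u) ⬝ᵥ (α - u) := by
    simp [perp, dotProduct, Fin.sum_univ_two]; ring
  rcases hu with rfl | h
  · exact Or.inl (this ▸ hclose)
  · exact Or.inr (by rw [h, sub_neg_eq_add] at this; rwa [this])

/-- `quad` is the diagonal of a symmetric bilinear map. -/
theorem quad_of_bilin (B : (Fin 2 → ℝ) →ₗ[ℝ] (Fin 2 → ℝ) →ₗ[ℝ] F)
    (hB : ∀ x y, B x y = B y x) (e : Fin 2 → ℝ) :
    quad ![B ![1, 0] ![1, 0], B ![1, 0] ![0, 1], B ![0, 1] ![0, 1]] e = B e e := by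
  have he : e = e 0 • ![1, 0] + e 1 • ![0, 1] := by funext i; fin_cases i <;> simp
  rw [show B e e = B (e 0 • ![1, 0] + e 1 • ![0, 1]) (e 0 • ![1, 0] + e 1 • ![0, 1]) by rw [← he]]
  simp only [quad, map_add, map_smul, LinearMap.add_apply, LinearMap.smul_apply,
    hB ![0, 1] ![1, 0]]
  simp only [show ∀ x y z : F, ![x, y, z] 0 = x ∧ ![x, y, z] 1 = y ∧ ![x, y, z] 2 = z from
    fun x y z => ⟨rfl, rfl, rfl⟩]
  module

end Quadratic

section Tangent

variable {M : Type} [TopologicalSpace M] [ChartedSpace R2 M] [IsManifold (𝓡 2) ∞ M] {N : ℕ}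

/-- The metric at a point, as a bilinear form on `ℝ²`. -/
def metricForm (g : Metric M) (x : M) : LinearMap.BilinForm ℝ R2 :=
  LinearMap.mk₂ ℝ (fun v w => g.inner x v w)
    (fun v v' w => by exact DFunLike.congr_fun ((g.inner x).map_add v v') w)
    (fun c v w => by exact DFunLike.congr_fun ((g.inner x).map_smul c v) w)
    (fun v w w' => by exact (g.inner x v).map_add w w')
    (fun c v w => by exact (g.inner x v).map_smul c w)

/-- The frame at a point, as vectors of `ℝ²`. -/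
def frameAt (V : Frame M N) (x : M) : Fin N → R2 := fun i => V i x

/-- The frame in orthonormal coordinates: the input of all the lemmas about `Φ`. -/
theorem exists_coord (g : Metric M) (V : Frame M N) (hs : FrameSpans V) (x : M) :
    ∃ b : Fin 2 → R2, (∀ i j, metricForm g x (b i) (b j) = if i = j then 1 else 0) ∧
      (∀ v, v = ∑ i, metricForm g x v (b i) • b i) ∧
      ((coordMat (metricForm g x) b (frameAt V x))ᵀ *
        coordMat (metricForm g x) b (frameAt V x)).det ≠ 0 ∧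
      Matrix.of (fun i k => gV g V i k x) =
        coordMat (metricForm g x) b (frameAt V x) *
          (coordMat (metricForm g x) b (frameAt V x))ᵀ := by
  obtain ⟨b, hb, hexp⟩ := exists_orthonormal (show Module.finrank ℝ R2 = 2 by simp)
    (metricForm g x) (fun v w => g.symm x v w) (fun v hv => g.pos x v hv)
  refine ⟨b, hb, hexp, det_gram_ne_zero ?_, coord_gram hexp (frameAt V x) hb⟩
  exact coord_injective hexp _ (hs x) (fun w hw => by
    by_contra h
    exact (g.pos x w h).ne' hw) hb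

/-- The projection on the normal plane of an immersion, as a rational expression. -/
theorem normal_projection (V : Frame M N) (hs : FrameSpans V) (F : M → R4) (x : M)
    (hinj : Function.Injective (mfderiv (𝓡 2) 𝓘(ℝ, R4) F x)) (y : R4) :
    tr2 (outer fun i => D V i F x) ≠ 0 ∧
      ((1 : Matrix (Fin 4) (Fin 4) ℝ) - proj (outer fun i => D V i F x)) *ᵥ y.ofLp =
        ((tanPlane F x)ᗮ.starProjection y).ofLp := by
  let L : R2 →ₗ[ℝ] R4 := (mfderiv (𝓡 2) 𝓘(ℝ, R4) F x).toLinearMap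
  have hinj' : Function.Injective L := hinj
  have hr : Module.finrank ℝ (LinearMap.range L) = 2 := by
    rw [LinearMap.finrank_range_of_inj hinj']; simp
  have hspan : Submodule.span ℝ (Set.range fun i => L (frameAt V x i)) = LinearMap.range L := by
    have h0 : (Set.range fun i => L (frameAt V x i)) = L '' Set.range (frameAt V x) := by
      rw [← Set.range_comp]; rfl
    have h1 : Submodule.span ℝ (Set.range (frameAt V x)) = ⊤ := hs x
    rw [h0, Submodule.span_image, h1, Submodule.map_top]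
  exact one_sub_proj_outer (fun i => D V i F x) (tanPlane F x) hr hspan y

end Tangent

end

end Vale.Agent.P205.Full.Plane
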