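import Vale.Agent.P205.Full.Stage.Interface

/-!
# P205 full, module S4: trigonometric fields (algebra)

* `TF.eval` is linear and commutes with fibrewise linear maps; `TF.mul` is the product;
* `TF.suppAll`: the coefficient `m` is supported in `Good q` for every `q` with `m q ≠ 0`.
  It is preserved by all operations and implies `TF.supported`;
* `top_dominates`, `rForm_lower`, `nrm2_lower`: for large `R` a combination of covectors behaves
  like its top term.
-/

noncomputable section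

open scoped Matrix Topology
open Filter Finset

namespace Vale.Agent.P205.Full.Stage

variable {Q : ℕ}

/-! ### Boxes and phases -/

theorem mem_box {L : ℕ} {m : Fin Q → ℤ} : m ∈ box Q L ↔ ∀ q, |m q| ≤ (L : ℤ) := by
  simp [box, abs_le]

theorem zero_mem_box (Q L : ℕ) : (0 : Fin Q → ℤ) ∈ box Q L := mem_box.2 fun q => by simp

theorem neg_mem_box {L : ℕ} {m : Fin Q → ℤ} : -m ∈ box Q L ↔ m ∈ box Q L := by simp [mem_box]

theorem box_mono {L L' : ℕ} (h : L ≤ L') : box Q L ⊆ box Q L' := fun _m hm =>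
  mem_box.2 fun q => (mem_box.1 hm q).trans (by exact_mod_cast h)

theorem add_mem_box {L L' : ℕ} {m m' : Fin Q → ℤ} (hm : m ∈ box Q L) (hm' : m' ∈ box Q L') :
    m + m' ∈ box Q (L + L') :=
  mem_box.2 fun q => by
    push_cast
    exact (abs_add_le _ _).trans (add_le_add (mem_box.1 hm q) (mem_box.1 hm' q))

theorem sub_mem_box {L L' : ℕ} {m m' : Fin Q → ℤ} (hm : m ∈ box Q L) (hm' : m' ∈ box Q L') :
    m - m' ∈ box Q (L + L') := by
  rw [sub_eq_add_neg]
  exact add_mem_box hm (neg_mem_box.2 hm')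

theorem card_box (Q L : ℕ) : (box Q L).card = (2 * L + 1) ^ Q := by
  simp only [box, Fintype.card_piFinset, Int.card_Icc, Finset.prod_const, Finset.card_univ,
    Fintype.card_fin]
  congr 1
  omega

section Phase

variable {M : Type} (R ε : ℝ) (Y : Fin Q → M → ℝ)

theorem phase_zero (x : M) : phase R ε Y 0 x = 0 := by simp [phase]

theorem phase_add (m m' : Fin Q → ℤ) (x : M) :
    phase R ε Y (m + m') x = phase R ε Y m x + phase R ε Y m' x := by
  simp [phase, add_mul, Finset.sum_add_distrib, add_div]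

theorem phase_neg (m : Fin Q → ℤ) (x : M) : phase R ε Y (-m) x = -phase R ε Y m x := by
  simp [phase, neg_div]

theorem phase_sub (m m' : Fin Q → ℤ) (x : M) :
    phase R ε Y (m - m') x = phase R ε Y m x - phase R ε Y m' x := by
  rw [sub_eq_add_neg, phase_add, phase_neg]
  ring

end Phase

/-! ### Degree and supports -/

section Supports

variable {M : Type} {E E' : Type} [AddCommGroup E] [AddCommGroup E']

/-- The coefficient `m` is supported in `Good q` for every `q` with `m q ≠ 0`. -/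
def TF.suppAll [TopologicalSpace M] (A : TF M Q E) (Good : Fin Q → Set M) : Prop :=
  ∀ m q, m q ≠ 0 → ∀ b, tsupport (A m b) ⊆ Good q

theorem tsupport_subset_of_eventually [TopologicalSpace M] {f : M → E} {G : Set M}
    (h : ∀ x, x ∉ G → f =ᶠ[𝓝 x] 0) : tsupport f ⊆ G := fun x hx => by
  by_contra hG
  exact notMem_tsupport_iff_eventuallyEq.2 (h x hG) hx

theorem TF.suppAll.eventually_zero [TopologicalSpace M] {A : TF M Q E} {Good : Fin Q → Set M}
    (h : TF.suppAll A Good) {m : Fin Q → ℤ} {q : Fin Q} (hq : m q ≠ 0) {x : M} (hx : x ∉ Good q)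
    (b : Bool) : A m b =ᶠ[𝓝 x] 0 :=
  notMem_tsupport_iff_eventuallyEq.1 fun h' => hx (h m q hq b h')

theorem TF.suppAll.add [TopologicalSpace M] {A A' : TF M Q E} {Good : Fin Q → Set M}
    (h : TF.suppAll A Good) (h' : TF.suppAll A' Good) : TF.suppAll (A + A') Good := fun m q hq b =>
  (tsupport_add _ _).trans (Set.union_subset (h m q hq b) (h' m q hq b))

theorem TF.suppAll.neg [TopologicalSpace M] {A : TF M Q E} {Good : Fin Q → Set M}
    (h : TF.suppAll A Good) : TF.suppAll (-A) Good := fun m q hq b =>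
  tsupport_subset_of_eventually fun x hx => by
    filter_upwards [h.eventually_zero hq hx b] with y hy
    simp [hy]

theorem TF.suppAll.sub [TopologicalSpace M] {A A' : TF M Q E} {Good : Fin Q → Set M}
    (h : TF.suppAll A Good) (h' : TF.suppAll A' Good) : TF.suppAll (A - A') Good := by
  rw [sub_eq_add_neg]
  exact h.add h'.neg

theorem TF.suppAll.sum [TopologicalSpace M] {ι : Type*} (s : Finset ι) {A : ι → TF M Q E}
    {Good : Fin Q → Set M} (h : ∀ k ∈ s, TF.suppAll (A k) Good) :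
    TF.suppAll (∑ k ∈ s, A k) Good := fun m q hq b =>
  tsupport_subset_of_eventually fun x hx => by
    filter_upwards [(eventually_all_finset s).2
      fun k hk => (h k hk).eventually_zero hq hx b] with y hy
    simp only [Finset.sum_apply, Pi.zero_apply]
    exact Finset.sum_eq_zero fun k hk => hy k hk

/-- A fibrewise operation sending `0` to `0`, which may mix cosine and sine, keeps supports. -/
theorem TF.suppAll.map [TopologicalSpace M] {A : TF M Q E} {Good : Fin Q → Set M}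
    (h : TF.suppAll A Good) (Φ : (Fin Q → ℤ) → Bool → M → E → E → E')
    (hΦ : ∀ m b x, Φ m b x 0 0 = 0) :
    TF.suppAll (fun m b x => Φ m b x (A m false x) (A m true x)) Good := fun m q hq b =>
  tsupport_subset_of_eventually fun x hx => by
    filter_upwards [h.eventually_zero hq hx false, h.eventually_zero hq hx true] with y h0 h1
    simp [h0, h1, hΦ]

theorem TF.suppAll.single [TopologicalSpace M] {Good : Fin Q → Set M} {m : Fin Q → ℤ}
    {f : Bool → M → E} (h : ∀ q, m q ≠ 0 → ∀ b, tsupport (f b) ⊆ Good q) :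
    TF.suppAll (Pi.single m f : TF M Q E) Good := by
  intro m' q hq b
  by_cases he : m' = m
  · subst he
    rw [Pi.single_eq_same]
    exact h q hq b
  · rw [Pi.single_eq_of_ne he, Pi.zero_apply, tsupport_eq_empty_iff.2 rfl]
    exact Set.empty_subset _

theorem exists_top {m : Fin Q → ℤ} (hm : m ≠ 0) : ∃ q, m q ≠ 0 ∧ ∀ q', q < q' → m q' = 0 := by
  classical
  have hne : (Finset.univ.filter fun q => m q ≠ 0).Nonempty := by
    obtain ⟨q, hq⟩ := Function.ne_iff.1 hm
    exact ⟨q, by simpa using hq⟩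
  refine ⟨_, (Finset.mem_filter.1 (Finset.max'_mem _ hne)).2, fun q' hq' => ?_⟩
  by_contra h
  exact absurd hq' (not_lt.2 (Finset.le_max' _ q' (by simpa using h)))

end Supports

section Deg

variable {M : Type} {E E' : Type} [NormedAddCommGroup E] [NormedAddCommGroup E']

theorem TF.suppAll.supported [TopologicalSpace M] {A : TF M Q E} {Good : Fin Q → Set M}
    (h : TF.suppAll A Good) : TF.supported A Good := fun m q hq b => h m q hq b

theorem TF.deg.mono {A : TF M Q E} {L L' : ℕ} (h : A.deg L) (hL : L ≤ L') : A.deg L' :=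
  fun m hm => h m fun hm' => hm (box_mono hL hm')

theorem TF.deg.add {A A' : TF M Q E} {L : ℕ} (h : A.deg L) (h' : A'.deg L) :
    TF.deg (A + A') L :=
  fun m hm => by rw [Pi.add_apply, h m hm, h' m hm, add_zero]

theorem TF.deg.neg {A : TF M Q E} {L : ℕ} (h : A.deg L) : TF.deg (-A) L :=
  fun m hm => by rw [Pi.neg_apply, h m hm, neg_zero]

theorem TF.deg.sub {A A' : TF M Q E} {L : ℕ} (h : A.deg L) (h' : A'.deg L) :
    TF.deg (A - A') L :=
  fun m hm => by rw [Pi.sub_apply, h m hm, h' m hm, sub_zero]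

theorem TF.deg.sum {L : ℕ} {ι : Type*} (s : Finset ι) {A : ι → TF M Q E}
    (h : ∀ k ∈ s, (A k).deg L) : TF.deg (∑ k ∈ s, A k) L :=
  fun m hm => by
    rw [Finset.sum_apply]
    exact Finset.sum_eq_zero fun k hk => h k hk m hm

/-- A fibrewise operation sending `0` to `0`, which may mix cosine and sine, keeps the degree. -/
theorem TF.deg.map {A : TF M Q E} {L : ℕ} (h : A.deg L)
    (Φ : (Fin Q → ℤ) → Bool → M → E → E → E') (hΦ : ∀ m b x, Φ m b x 0 0 = 0) :
    TF.deg (fun m b x => Φ m b x (A m false x) (A m true x) : TF M Q E') L :=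
  fun m hm => funext fun b => funext fun x => by simp [h m hm, hΦ]

theorem TF.deg.single {L : ℕ} {m : Fin Q → ℤ} (hm : m ∈ box Q L) (f : Bool → M → E) :
    TF.deg (Pi.single m f : TF M Q E) L :=
  fun m' hm' => Pi.single_eq_of_ne (M := fun _ : Fin Q → ℤ => Bool → M → E) (i := m) (i' := m')
    (by rintro rfl; exact hm' hm) f

end Deg

/-! ### Evaluation and products -/

section Eval

variable {M : Type} {E E' E'' : Type} [NormedAddCommGroup E] [NormedSpace ℝ E]
  [NormedAddCommGroup E'] [NormedSpace ℝ E'] [NormedAddCommGroup E''] [NormedSpace ℝ E'']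
  (R ε : ℝ) (Y : Fin Q → M → ℝ)

theorem TF.eval_mono {A : TF M Q E} {L L' : ℕ} (h : A.deg L) (hL : L ≤ L') :
    A.eval L' R ε Y = A.eval L R ε Y := by
  funext x
  refine (Finset.sum_subset (box_mono hL) fun m _ hm => ?_).symm
  simp [h m hm]

theorem TF.eval_add (A A' : TF M Q E) (L : ℕ) :
    TF.eval (A + A') L R ε Y = A.eval L R ε Y + A'.eval L R ε Y := by
  funext x
  simp only [TF.eval, Pi.add_apply, smul_add, ← Finset.sum_add_distrib]
  exact Finset.sum_congr rfl fun m _ => by abel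

theorem TF.eval_neg (A : TF M Q E) (L : ℕ) : TF.eval (-A) L R ε Y = -A.eval L R ε Y := by
  funext x
  simp only [TF.eval, Pi.neg_apply, smul_neg, ← Finset.sum_neg_distrib]
  exact Finset.sum_congr rfl fun m _ => by abel

theorem TF.eval_sub (A A' : TF M Q E) (L : ℕ) :
    TF.eval (A - A') L R ε Y = A.eval L R ε Y - A'.eval L R ε Y := by
  rw [sub_eq_add_neg, TF.eval_add, TF.eval_neg, ← sub_eq_add_neg]

theorem TF.eval_zero (L : ℕ) : TF.eval (0 : TF M Q E) L R ε Y = 0 := by
  funext x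
  simp [TF.eval]

theorem TF.eval_sum {ι : Type*} (s : Finset ι) (A : ι → TF M Q E) (L : ℕ) :
    TF.eval (∑ k ∈ s, A k) L R ε Y = ∑ k ∈ s, (A k).eval L R ε Y :=
  map_sum ({ toFun := fun A : TF M Q E => A.eval L R ε Y
             map_zero' := TF.eval_zero R ε Y L
             map_add' := fun A A' => TF.eval_add R ε Y A A' L } : TF M Q E →+ (M → E)) A s

/-- A fibrewise linear map commutes with the evaluation. -/
theorem TF.eval_map (Φ : M → E →ₗ[ℝ] E') (A : TF M Q E) (L : ℕ) :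
    TF.eval (fun m b x => Φ x (A m b x) : TF M Q E') L R ε Y
      = fun x => Φ x (A.eval L R ε Y x) := by
  funext x
  simp [TF.eval]

theorem TF.eval_smul (c : M → ℝ) (A : TF M Q E) (L : ℕ) :
    TF.eval (fun m b x => c x • A m b x : TF M Q E) L R ε Y
      = fun x => c x • A.eval L R ε Y x := by
  funext x
  simp only [TF.eval, Finset.smul_sum, smul_add]
  exact Finset.sum_congr rfl fun m _ => by rw [smul_comm, smul_comm (c x) (Real.sin _)]

theorem TF.eval_single {L : ℕ} {m : Fin Q → ℤ} (hm : m ∈ box Q L) (f : Bool → M → E) :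
    TF.eval (Pi.single m f : TF M Q E) L R ε Y = fun x =>
      Real.cos (phase R ε Y m x) • f false x + Real.sin (phase R ε Y m x) • f true x := by
  funext x
  refine (Finset.sum_eq_single m (fun m' _ hm' => ?_) fun h => absurd hm h).trans ?_
  · simp [Pi.single_eq_of_ne hm']
  · rw [Pi.single_eq_same]

/-- The oscillatory part. -/
def TF.osc (A : TF M Q E) : TF M Q E := Function.update A 0 0

theorem TF.eval_eq_mean_add_osc (A : TF M Q E) (L : ℕ) (x : M) :
    A.eval L R ε Y x = A 0 false x + (TF.osc A).eval L R ε Y x := by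
  simp only [TF.eval]
  rw [← Finset.add_sum_erase _ _ (zero_mem_box Q L),
    ← Finset.add_sum_erase _ (fun m => Real.cos (phase R ε Y m x) • TF.osc A m false x
      + Real.sin (phase R ε Y m x) • TF.osc A m true x) (zero_mem_box Q L)]
  simp only [TF.osc, Function.update_self, Pi.zero_apply, smul_zero, zero_add, add_zero,
    phase_zero, Real.cos_zero, Real.sin_zero, one_smul, zero_smul]
  congr 1
  refine Finset.sum_congr rfl fun m hm => ?_
  rw [Function.update_of_ne (Finset.ne_of_mem_erase hm)]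

/-- The coefficient of the sum phase in a product of two modes. -/
def plusCoef (B : E →ₗ[ℝ] E' →ₗ[ℝ] E'') (u : Bool → E) (v : Bool → E') (s : Bool) : E'' :=
  if s then B (u true) (v false) + B (u false) (v true)
  else B (u false) (v false) - B (u true) (v true)

/-- The coefficient of the difference phase in a product of two modes. -/
def minusCoef (B : E →ₗ[ℝ] E' →ₗ[ℝ] E'') (u : Bool → E) (v : Bool → E') (s : Bool) : E'' :=
  if s then B (u true) (v false) - B (u false) (v true)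
  else B (u false) (v false) + B (u true) (v true)

theorem mode_mul (B : E →ₗ[ℝ] E' →ₗ[ℝ] E'') (u : Bool → E) (v : Bool → E') (a b : ℝ) :
    B (Real.cos a • u false + Real.sin a • u true) (Real.cos b • v false + Real.sin b • v true)
      = (1 / 2 : ℝ) •
        ((Real.cos (a + b) • plusCoef B u v false + Real.sin (a + b) • plusCoef B u v true) +
          (Real.cos (a - b) • minusCoef B u v false + Real.sin (a - b) • minusCoef B u v true)) := by
  simp only [map_add, map_smul, LinearMap.add_apply, LinearMap.smul_apply, plusCoef, minusCoef,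
    Real.cos_add, Real.sin_add, Real.cos_sub, Real.sin_sub, Bool.false_eq_true, if_false, if_true]
  module

/-- The product of two fields, the first of degree `L`. -/
def TF.mul (B : E →ₗ[ℝ] E' →ₗ[ℝ] E'') (L : ℕ) (A : TF M Q E) (A' : TF M Q E') : TF M Q E'' :=
  fun m s x => (1 / 2 : ℝ) • ∑ k ∈ box Q L,
    (plusCoef B (fun b => A k b x) (fun b => A' (m - k) b x) s
      + minusCoef B (fun b => A k b x) (fun b => A' (k - m) b x) s)

theorem TF.deg_mul (B : E →ₗ[ℝ] E' →ₗ[ℝ] E'') {L L' : ℕ} (A : TF M Q E) {A' : TF M Q E'}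
    (h' : A'.deg L') : TF.deg (TF.mul B L A A') (L + L') := by
  refine fun m hm => funext fun s => funext fun x => ?_
  simp only [TF.mul, Pi.zero_apply, smul_eq_zero]
  refine Or.inr (Finset.sum_eq_zero fun k hk => ?_)
  have h1 : A' (m - k) = 0 := h' _ fun h => hm (by simpa using add_mem_box hk h)
  have h2 : A' (k - m) = 0 := h' _ fun h => hm (by simpa using sub_mem_box hk h)
  cases s <;> simp [plusCoef, minusCoef, h1, h2]

theorem TF.suppAll.mul [TopologicalSpace M] (B : E →ₗ[ℝ] E' →ₗ[ℝ] E'') {L : ℕ} {A : TF M Q E}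
    {A' : TF M Q E'} {Good : Fin Q → Set M} (h : TF.suppAll A Good) (h' : TF.suppAll A' Good) :
    TF.suppAll (TF.mul B L A A') Good := by
  intro m q hq s
  refine tsupport_subset_of_eventually fun x hx => ?_
  have key : ∀ k ∈ box Q L, ∀ᶠ y in 𝓝 x,
      plusCoef B (fun b => A k b y) (fun b => A' (m - k) b y) s
        + minusCoef B (fun b => A k b y) (fun b => A' (k - m) b y) s = 0 := by
    intro k _
    by_cases hk : k q = 0
    · have h1 : (m - k) q ≠ 0 := by simpa [hk] using hq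
      have h2 : (k - m) q ≠ 0 := by simpa [hk] using hq
      filter_upwards [h'.eventually_zero h1 hx false, h'.eventually_zero h1 hx true,
        h'.eventually_zero h2 hx false, h'.eventually_zero h2 hx true] with y a b c d
      cases s <;> simp [plusCoef, minusCoef, a, b, c, d]
    · filter_upwards [h.eventually_zero hk hx false, h.eventually_zero hk hx true] with y a b
      cases s <;> simp [plusCoef, minusCoef, a, b]
  filter_upwards [(eventually_all_finset _).2 key] with y hy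
  rw [Pi.zero_apply, TF.mul, Finset.sum_eq_zero hy, smul_zero]

/-- The evaluation of a product is the product of the evaluations. -/
theorem TF.eval_mul (B : E →ₗ[ℝ] E' →ₗ[ℝ] E'') {L L' : ℕ} (A : TF M Q E) {A' : TF M Q E'}
    (h' : A'.deg L') (x : M) :
    TF.eval (TF.mul B L A A') (L + L') R ε Y x
      = B (A.eval L R ε Y x) (A'.eval L' R ε Y x) := by
  set T : (Fin Q → ℤ) → (Bool → E'') → E'' := fun m w =>
    Real.cos (phase R ε Y m x) • w false + Real.sin (phase R ε Y m x) • w true with hT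
  have hadd : ∀ m w w', T m (fun s => w s + w' s) = T m w + T m w' := fun m w w' => by
    simp only [hT, smul_add]; abel
  have hsum : ∀ m (w : (Fin Q → ℤ) → Bool → E''),
      T m (fun s => (1 / 2 : ℝ) • ∑ k ∈ box Q L, w k s)
        = (1 / 2 : ℝ) • ∑ k ∈ box Q L, T m (w k) := fun m w => by
    simp only [hT, smul_sum, ← Finset.sum_add_distrib, smul_add, smul_comm (1 / 2 : ℝ)]
  have hz : ∀ m, T m (fun _ => 0) = 0 := fun m => by simp [hT]
  show ∑ m ∈ box Q (L + L'), T m (fun s => TF.mul B L A A' m s x) = _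
  simp only [TF.mul, hsum, hadd, Finset.sum_add_distrib, smul_add]
  rw [← Finset.smul_sum, ← Finset.smul_sum, Finset.sum_comm, Finset.sum_comm (s := box Q (L + L'))]
  have p1 : ∀ k ∈ box Q L, ∑ m ∈ box Q (L + L'),
      T m (plusCoef B (fun b => A k b x) (fun b => A' (m - k) b x))
      = ∑ l ∈ box Q L', T (k + l) (plusCoef B (fun b => A k b x) (fun b => A' l b x)) := by
    intro k hk
    refine Finset.sum_bij_ne_zero (fun m _ _ => m - k) ?_ ?_ ?_ ?_
    · intro m _ hne
      by_contra hl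
      apply hne
      have : A' (m - k) = 0 := h' _ hl
      simp [hT, plusCoef, this]
    · intro a _ _ b _ _ hab
      simpa using hab
    · intro l hl hne
      exact ⟨k + l, add_mem_box hk hl, by simpa using hne, by simp⟩
    · intro m _ _
      simp
  have p2 : ∀ k ∈ box Q L, ∑ m ∈ box Q (L + L'),
      T m (minusCoef B (fun b => A k b x) (fun b => A' (k - m) b x))
      = ∑ l ∈ box Q L', T (k - l) (minusCoef B (fun b => A k b x) (fun b => A' l b x)) := by
    intro k hk
    refine Finset.sum_bij_ne_zero (fun m _ _ => k - m) ?_ ?_ ?_ ?_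
    · intro m _ hne
      by_contra hl
      apply hne
      have : A' (k - m) = 0 := h' _ hl
      simp [hT, minusCoef, this]
    · intro a _ _ b _ _ hab
      simpa using hab
    · intro l hl hne
      exact ⟨k - l, sub_mem_box hk hl, by simpa using hne, by simp⟩
    · intro m _ _
      simp
  rw [Finset.sum_congr rfl p1, Finset.sum_congr rfl p2]
  have hB : B (A.eval L R ε Y x) (A'.eval L' R ε Y x) = ∑ k ∈ box Q L, ∑ l ∈ box Q L',
      B (Real.cos (phase R ε Y k x) • A k false x + Real.sin (phase R ε Y k x) • A k true x)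
        (Real.cos (phase R ε Y l x) • A' l false x + Real.sin (phase R ε Y l x) • A' l true x) := by
    simp only [TF.eval, map_sum, LinearMap.sum_apply]
    exact Finset.sum_comm
  rw [hB]
  simp only [Finset.smul_sum, ← Finset.sum_add_distrib]
  refine Finset.sum_congr rfl fun k _ => Finset.sum_congr rfl fun l _ => ?_
  rw [mode_mul B (fun b => A k b x) (fun b => A' l b x)]
  simp only [hT, phase_add, phase_sub, smul_add]

end Eval

/-! ### Dominance of the top frequency -/

section Dominance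

variable {W F : Type*} [NormedAddCommGroup W] [NormedSpace ℝ W] [NormedAddCommGroup F]
  [NormedSpace ℝ F]

/-- The momentum of a multi-index. -/
def mom (R : ℝ) (ξ : Fin Q → W) (m : Fin Q → ℤ) : W := ∑ q, ((m q : ℝ) * R ^ (q : ℕ)) • ξ q

theorem geom_le {R : ℝ} (hR : 2 ≤ R) :
    ∀ n : ℕ, ∑ k ∈ Finset.range n, R ^ k ≤ 2 * R ^ n / R := by
  intro n
  induction n with
  | zero => simp; positivity
  | succ n ih =>
    have h0 : 0 < R := by linarith
    have h2 : 2 * R ^ n / R ≤ R ^ n := by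
      rw [div_le_iff₀ h0, mul_comm (R ^ n) R]
      exact mul_le_mul_of_nonneg_right hR (by positivity)
    calc ∑ k ∈ Finset.range (n + 1), R ^ k = (∑ k ∈ Finset.range n, R ^ k) + R ^ n :=
          Finset.sum_range_succ _ _
      _ ≤ R ^ n + R ^ n := add_le_add (ih.trans h2) le_rfl
      _ = 2 * R ^ (n + 1) / R := by rw [pow_succ]; field_simp; ring

/-- The lower terms of a momentum are small against the top one. -/
theorem top_dominates {R X : ℝ} {L : ℕ} {ξ : Fin Q → W} {m : Fin Q → ℤ} {q : Fin Q}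
    (hm : m ∈ box Q L) (hq : ∀ q', q < q' → m q' = 0) (hR : 2 ≤ R) (hX0 : 0 ≤ X)
    (hX : ∀ q', m q' ≠ 0 → ‖ξ q'‖ ≤ X) :
    ‖mom R ξ m - ((m q : ℝ) * R ^ (q : ℕ)) • ξ q‖ ≤ 2 * L * X * R ^ (q : ℕ) / R := by
  classical
  have hR0 : 0 < R := by linarith
  have hsplit : mom R ξ m - ((m q : ℝ) * R ^ (q : ℕ)) • ξ q
      = ∑ q' ∈ Finset.univ.filter (fun q' => q' < q), ((m q' : ℝ) * R ^ (q' : ℕ)) • ξ q' := by
    rw [mom, ← Finset.add_sum_erase _ _ (Finset.mem_univ q), add_sub_cancel_left]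
    refine (Finset.sum_subset ?_ ?_).symm
    · intro q' hq'
      simp only [Finset.mem_filter] at hq'
      exact Finset.mem_erase.2 ⟨hq'.2.ne, Finset.mem_univ _⟩
    · intro q' hq' hnot
      simp only [Finset.mem_filter, Finset.mem_univ, true_and, not_lt] at hnot
      rw [hq q' (lt_of_le_of_ne hnot (Finset.ne_of_mem_erase hq').symm)]
      simp
  rw [hsplit]
  refine (norm_sum_le _ _).trans ((Finset.sum_le_sum (g := fun q' : Fin Q => L * X * R ^ (q' : ℕ))
    fun q' _ => ?_).trans ?_)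
  · by_cases h : m q' = 0
    · simp [h]; positivity
    · rw [norm_smul, Real.norm_eq_abs, abs_mul, abs_of_pos (pow_pos hR0 (q' : ℕ)),
        mul_right_comm _ X]
      refine mul_le_mul (mul_le_mul_of_nonneg_right ?_ (by positivity)) (hX q' h) (norm_nonneg _)
        (by positivity)
      exact_mod_cast mem_box.1 hm q'
  · rw [← Finset.mul_sum]
    have hsum : ∑ q' ∈ Finset.univ.filter (fun q' => q' < q), R ^ (q' : ℕ)
        = ∑ k ∈ Finset.range (q : ℕ), R ^ k := by
      refine Finset.sum_bij (fun q' _ => (q' : ℕ)) ?_ ?_ ?_ ?_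
      · intro q' hq'; simpa using hq'
      · exact fun _ _ _ _ h => Fin.ext h
      · intro k hk
        have : k < (q : ℕ) := by simpa using hk
        exact ⟨⟨k, this.trans q.2⟩, Finset.mem_filter.2 ⟨Finset.mem_univ _, Fin.lt_def.2 this⟩, rfl⟩
      · intros; rfl
    rw [hsum]
    refine (mul_le_mul_of_nonneg_left (geom_le hR _) (by positivity)).trans (le_of_eq ?_)
    ring

/-- A quadratic form bounded below at `ξ` is bounded below near the line of `ξ`. -/
theorem quad_lower (P : W →ₗ[ℝ] W →ₗ[ℝ] F) {v ξ : W} {a c C δ : ℝ} (hC0 : 0 ≤ C)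
    (hC : ∀ u u', ‖P u u'‖ ≤ C * ‖u‖ * ‖u'‖) (hc : c * ‖ξ‖ ^ 2 ≤ ‖P ξ ξ‖)
    (he : ‖v - a • ξ‖ ≤ δ * |a| * ‖ξ‖) (hδ0 : 0 ≤ δ) (hδ : δ ≤ 1) (hsmall : 6 * C * δ ≤ c) :
    c / 2 * (a ^ 2 * ‖ξ‖ ^ 2) ≤ ‖P v v‖ := by
  set e := v - a • ξ with hedef
  have hexp : a ^ 2 • P ξ ξ = P v v - (a • P ξ e + a • P e ξ + P e e) := by
    have hv : v = a • ξ + e := by rw [hedef]; abel
    rw [hv]
    simp only [map_add, map_smul, LinearMap.add_apply, LinearMap.smul_apply, smul_add, smul_smul,
      sq]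
    abel
  have h1 : ‖a • P ξ e + a • P e ξ + P e e‖ ≤ 3 * C * δ * (a ^ 2 * ‖ξ‖ ^ 2) := by
    refine norm_add₃_le.trans ?_
    rw [norm_smul, norm_smul, Real.norm_eq_abs]
    have he2 : ‖e‖ ≤ |a| * ‖ξ‖ := he.trans
      (mul_le_mul_of_nonneg_right (mul_le_of_le_one_left (abs_nonneg a) hδ) (norm_nonneg ξ))
    calc |a| * ‖P ξ e‖ + |a| * ‖P e ξ‖ + ‖P e e‖
        ≤ |a| * (C * ‖ξ‖ * (δ * |a| * ‖ξ‖)) + |a| * (C * (δ * |a| * ‖ξ‖) * ‖ξ‖)
          + C * (δ * |a| * ‖ξ‖) * (|a| * ‖ξ‖) := by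
          refine add_le_add (add_le_add ?_ ?_) ?_
          · exact mul_le_mul_of_nonneg_left ((hC _ _).trans (by gcongr)) (abs_nonneg a)
          · exact mul_le_mul_of_nonneg_left ((hC _ _).trans (by gcongr)) (abs_nonneg a)
          · exact (hC _ _).trans (by gcongr)
      _ = 3 * C * δ * (a ^ 2 * ‖ξ‖ ^ 2) := by rw [← sq_abs a]; ring
  have h2 : c * (a ^ 2 * ‖ξ‖ ^ 2) ≤ ‖a ^ 2 • P ξ ξ‖ := by
    rw [norm_smul, Real.norm_eq_abs, abs_of_nonneg (sq_nonneg a)]
    calc c * (a ^ 2 * ‖ξ‖ ^ 2) = a ^ 2 * (c * ‖ξ‖ ^ 2) := by ring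
      _ ≤ _ := mul_le_mul_of_nonneg_left hc (sq_nonneg a)
  rw [hexp] at h2
  have h3 := norm_sub_le (P v v) (a • P ξ e + a • P e ξ + P e e)
  have h4 := mul_le_mul_of_nonneg_right hsmall (show 0 ≤ a ^ 2 * ‖ξ‖ ^ 2 by positivity)
  linarith

/-- For large `R` a quadratic form at a momentum is as large as at its top covector. -/
theorem quad_mom_lower (P : W →ₗ[ℝ] W →ₗ[ℝ] F) {R X c C : ℝ} {L : ℕ} {ξ : Fin Q → W}
    {m : Fin Q → ℤ} {q : Fin Q} (hm : m ∈ box Q L) (hq0 : m q ≠ 0)
    (hq : ∀ q', q < q' → m q' = 0) (hX : ∀ q', m q' ≠ 0 → ‖ξ q'‖ ≤ X)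
    (hC : ∀ u u', ‖P u u'‖ ≤ C * ‖u‖ * ‖u'‖) (hC0 : 0 ≤ C) (hc : c ≤ ‖P (ξ q) (ξ q)‖) (hc0 : 0 < c)
    (hR2 : 2 ≤ R) (hR : 12 * C * L * X ^ 2 ≤ c * R) (hR' : 2 * L * C * X ^ 2 ≤ c * R) :
    c / 2 * ((m q : ℝ) * R ^ (q : ℕ)) ^ 2 ≤ ‖P (mom R ξ m) (mom R ξ m)‖ := by
  set t := ‖ξ q‖ with ht
  have htX : t ≤ X := hX q hq0
  have ht0 : 0 ≤ t := norm_nonneg _
  have hct : c ≤ C * t ^ 2 := hc.trans ((hC _ _).trans (le_of_eq (by rw [ht]; ring)))
  have htp : 0 < t := by
    rcases ht0.lt_or_eq with h | h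
    · exact h
    · rw [← h] at hct
      simp at hct
      linarith
  have hR0 : 0 < R := by linarith
  have h1a : (1 : ℝ) ≤ |((m q : ℤ) : ℝ)| := by exact_mod_cast Int.one_le_abs hq0
  set δ := 2 * L * X / (R * t) with hδdef
  have hX0 : 0 ≤ X := ht0.trans htX
  have hLX : 2 * L * X * t ≤ 2 * L * X * X := mul_le_mul_of_nonneg_left htX (by positivity)
  have hδ : δ ≤ 1 := by
    rw [hδdef, div_le_one (by positivity)]
    have h5 : 2 * L * X * c ≤ R * t * c := by
      calc 2 * L * X * c ≤ 2 * L * X * (C * t ^ 2) := mul_le_mul_of_nonneg_left hct (by positivity)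
        _ ≤ 2 * L * X * X * (C * t) := by
            rw [show 2 * L * X * (C * t ^ 2) = 2 * L * X * t * (C * t) by ring]
            exact mul_le_mul_of_nonneg_right hLX (mul_nonneg hC0 ht0)
        _ = 2 * L * C * X ^ 2 * t := by ring
        _ ≤ c * R * t := mul_le_mul_of_nonneg_right hR' ht0
        _ = R * t * c := by ring
    exact le_of_mul_le_mul_right h5 hc0
  have he : ‖mom R ξ m - ((m q : ℝ) * R ^ (q : ℕ)) • ξ q‖
      ≤ δ * |(m q : ℝ) * R ^ (q : ℕ)| * ‖ξ q‖ := by
    refine (top_dominates hm hq hR2 hX0 hX).trans ?_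
    rw [abs_mul, abs_of_pos (pow_pos hR0 _), ← ht, hδdef]
    calc 2 * (L : ℝ) * X * R ^ (q : ℕ) / R = 2 * L * X / (R * t) * (1 * R ^ (q : ℕ)) * t := by
          field_simp
      _ ≤ 2 * L * X / (R * t) * (|((m q : ℤ) : ℝ)| * R ^ (q : ℕ)) * t := by gcongr
  have hc' : c / t ^ 2 * ‖ξ q‖ ^ 2 ≤ ‖P (ξ q) (ξ q)‖ := by
    rw [← ht, div_mul_cancel₀ _ (by positivity)]
    exact hc
  have hs : 6 * C * δ ≤ c / t ^ 2 := by
    rw [hδdef, le_div_iff₀ (by positivity)]
    calc 6 * C * (2 * L * X / (R * t)) * t ^ 2 = 12 * C * L * (X * t) / R := by field_simp; ring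
      _ ≤ 12 * C * L * X ^ 2 / R := by
          rw [sq X]
          gcongr
      _ ≤ c := (div_le_iff₀ hR0).2 hR
  refine le_trans (le_of_eq ?_) (quad_lower P hC0 hC hc' he (by positivity) hδ hs)
  rw [← ht]
  field_simp

end Dominance

/-! ### The quadratic forms of the stage -/

section Forms

variable {N : ℕ} {W : Type} [NormedAddCommGroup W] [NormedSpace ℝ W]

/-- The polarisation of `rForm` in the covector. -/
def rBil (G : Matrix (Fin N) (Fin N) ℝ) (E : Fin N → Fin N → W) :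
    (Fin N → ℝ) →ₗ[ℝ] (Fin N → ℝ) →ₗ[ℝ] W :=
  LinearMap.mk₂ ℝ (fun α β => (α ⬝ᵥ sharp G β) • (∑ i, ∑ k, pinv G i k • E i k)
      - ∑ i, ∑ k, (sharp G α i * sharp G β k) • E i k)
    (fun α α' β => by
      simp only [sharp, Matrix.mulVec_add, Pi.add_apply, add_dotProduct, add_mul, add_smul,
        Finset.sum_add_distrib]
      abel)
    (fun c α β => by
      simp only [sharp, Matrix.mulVec_smul, Pi.smul_apply, smul_eq_mul, smul_dotProduct, smul_sub,
        Finset.smul_sum, smul_smul, mul_assoc])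
    (fun α β β' => by
      simp only [sharp, Matrix.mulVec_add, Pi.add_apply, dotProduct_add, mul_add, add_smul,
        Finset.sum_add_distrib]
      abel)
    (fun c α β => by
      simp only [sharp, Matrix.mulVec_smul, Pi.smul_apply, smul_eq_mul, dotProduct_smul, smul_sub,
        Finset.smul_sum, smul_smul, mul_assoc, mul_left_comm])

theorem rBil_self (G : Matrix (Fin N) (Fin N) ℝ) (E : Fin N → Fin N → W) (α : Fin N → ℝ) :
    rBil G E α α = rForm G α E := rfl

theorem abs_sharp_le {G : Matrix (Fin N) (Fin N) ℝ} {C : ℝ} (h : ∀ i k, |pinv G i k| ≤ C)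
    (α : Fin N → ℝ) (i : Fin N) : |sharp G α i| ≤ N * C * ‖α‖ := by
  show |∑ k, pinv G i k * α k| ≤ _
  refine (Finset.abs_sum_le_sum_abs _ _).trans ?_
  refine (Finset.sum_le_sum (g := fun _ => C * ‖α‖) fun k _ => ?_).trans (le_of_eq ?_)
  · rw [abs_mul]
    exact mul_le_mul (h i k) (by simpa [Real.norm_eq_abs] using norm_le_pi_norm α k) (abs_nonneg _)
      ((abs_nonneg _).trans (h i k))
  · simp [mul_assoc]

theorem abs_dot_sharp_le {G : Matrix (Fin N) (Fin N) ℝ} {C : ℝ} (h : ∀ i k, |pinv G i k| ≤ C)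
    (α β : Fin N → ℝ) : |α ⬝ᵥ sharp G β| ≤ N ^ 2 * C * ‖α‖ * ‖β‖ := by
  show |∑ k, α k * sharp G β k| ≤ _
  refine (Finset.abs_sum_le_sum_abs _ _).trans ?_
  refine (Finset.sum_le_sum (g := fun _ => ‖α‖ * (N * C * ‖β‖)) fun k _ => ?_).trans (le_of_eq ?_)
  · rw [abs_mul]
    exact mul_le_mul (by simpa [Real.norm_eq_abs] using norm_le_pi_norm α k) (abs_sharp_le h β k)
      (abs_nonneg _) (norm_nonneg _)
  · simp only [Finset.sum_const, Finset.card_univ, Fintype.card_fin, nsmul_eq_mul]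
    ring

theorem rBil_le {G : Matrix (Fin N) (Fin N) ℝ} {E : Fin N → Fin N → W} {C S : ℝ} (hC : 0 ≤ C)
    (h : ∀ i k, |pinv G i k| ≤ C) (hE : ∀ i k, ‖E i k‖ ≤ S) (α β : Fin N → ℝ) :
    ‖rBil G E α β‖ ≤ 2 * N ^ 4 * C ^ 2 * S * ‖α‖ * ‖β‖ := by
  have h1 : ‖(α ⬝ᵥ sharp G β) • (∑ i, ∑ k, pinv G i k • E i k)‖
      ≤ N ^ 2 * C * ‖α‖ * ‖β‖ * (N * (N * (C * S))) := by
    rw [norm_smul, Real.norm_eq_abs]
    refine mul_le_mul (abs_dot_sharp_le h α β) ?_ (norm_nonneg _) (by positivity)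
    refine (norm_sum_le _ _).trans ((Finset.sum_le_sum (g := fun _ => (N : ℝ) * (C * S))
      fun i _ => ?_).trans (le_of_eq (by simp)))
    refine (norm_sum_le _ _).trans ((Finset.sum_le_sum (g := fun _ => C * S)
      fun k _ => ?_).trans (le_of_eq (by simp)))
    rw [norm_smul, Real.norm_eq_abs]
    exact mul_le_mul (h i k) (hE i k) (norm_nonneg _) hC
  have h2 : ‖∑ i, ∑ k, (sharp G α i * sharp G β k) • E i k‖
      ≤ N * (N * (N * C * ‖α‖ * (N * C * ‖β‖) * S)) := by
    refine (norm_sum_le _ _).trans ((Finset.sum_le_sum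
      (g := fun _ => (N : ℝ) * (N * C * ‖α‖ * (N * C * ‖β‖) * S))
      fun i _ => ?_).trans (le_of_eq (by simp)))
    refine (norm_sum_le _ _).trans ((Finset.sum_le_sum
      (g := fun _ => N * C * ‖α‖ * (N * C * ‖β‖) * S) fun k _ => ?_).trans (le_of_eq (by simp)))
    rw [norm_smul, Real.norm_eq_abs, abs_mul]
    exact mul_le_mul (mul_le_mul (abs_sharp_le h α i) (abs_sharp_le h β k) (abs_nonneg _)
      (by positivity)) (hE i k) (norm_nonneg _) (by positivity)
  refine (norm_sub_le _ _).trans ((add_le_add h1 h2).trans (le_of_eq ?_))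
  ring

/-- Dominance for `rForm`: a lower bound at the top covector passes to the momentum. -/
theorem rForm_lower {G : Matrix (Fin N) (Fin N) ℝ} {E : Fin N → Fin N → W} {R X c C S : ℝ} {L : ℕ}
    {ξ : Fin Q → Fin N → ℝ} {m : Fin Q → ℤ} {q : Fin Q} (hm : m ∈ box Q L) (hq0 : m q ≠ 0)
    (hq : ∀ q', q < q' → m q' = 0) (hX : ∀ q', m q' ≠ 0 → ‖ξ q'‖ ≤ X) (hC : 0 ≤ C) (hS : 0 < S)
    (h : ∀ i k, |pinv G i k| ≤ C) (hE : ∀ i k, ‖E i k‖ ≤ S) (hc : c * S ≤ ‖rForm G (ξ q) E‖)
    (hc0 : 0 < c) (hR2 : 2 ≤ R) (hR : 24 * N ^ 4 * C ^ 2 * L * X ^ 2 ≤ c * R) :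
    c * S / 2 * ((m q : ℝ) * R ^ (q : ℕ)) ^ 2 ≤ ‖rForm G (mom R ξ m) E‖ := by
  have h1 := mul_le_mul_of_nonneg_right hR hS.le
  have h2 : 0 ≤ 20 * (N : ℝ) ^ 4 * C ^ 2 * L * X ^ 2 * S := by positivity
  rw [← rBil_self] at hc ⊢
  refine quad_mom_lower (rBil G E) (C := 2 * N ^ 4 * C ^ 2 * S) hm hq0 hq hX (rBil_le hC h hE)
    (by positivity) hc (by positivity) hR2 ?_ ?_ <;> linarith

/-- Dominance for `nrm2`. -/
theorem nrm2_lower {G : Matrix (Fin N) (Fin N) ℝ} {R X c C : ℝ} {L : ℕ}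
    {ξ : Fin Q → Fin N → ℝ} {m : Fin Q → ℤ} {q : Fin Q} (hm : m ∈ box Q L) (hq0 : m q ≠ 0)
    (hq : ∀ q', q < q' → m q' = 0) (hX : ∀ q', m q' ≠ 0 → ‖ξ q'‖ ≤ X) (hC : 0 ≤ C)
    (h : ∀ i k, |pinv G i k| ≤ C) (hc : c ≤ nrm2 G (ξ q))
    (hc0 : 0 < c) (hR2 : 2 ≤ R) (hR : 12 * N ^ 2 * C * L * X ^ 2 ≤ c * R) :
    c / 2 * ((m q : ℝ) * R ^ (q : ℕ)) ^ 2 ≤ |nrm2 G (mom R ξ m)| := by
  let P : (Fin N → ℝ) →ₗ[ℝ] (Fin N → ℝ) →ₗ[ℝ] ℝ :=
    LinearMap.mk₂ ℝ (fun α β => α ⬝ᵥ sharp G β)
      (fun _ _ _ => by simp [add_dotProduct]) (fun _ _ _ => by simp [smul_dotProduct])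
      (fun _ _ _ => by simp [sharp, Matrix.mulVec_add, dotProduct_add])
      (fun _ _ _ => by simp [sharp, Matrix.mulVec_smul, dotProduct_smul])
  have h2 : 0 ≤ 10 * (N : ℝ) ^ 2 * C * L * X ^ 2 := by positivity
  refine quad_mom_lower P (C := N ^ 2 * C) hm hq0 hq hX (abs_dot_sharp_le h) (by positivity)
    (hc.trans (le_abs_self _)) hc0 hR2 ?_ ?_ <;> linarith

end Forms

end Vale.Agent.P205.Full.Stage
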