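import Vale.Agent.P205.Full.Stage.Adm
import Vale.Agent.P205.Full.Stage.Trig

/-!
# P205 full, module STAGE: dominance of the top phase (helper99)

For `R` large compared with the degree, the covector of every nonzero frequency is as good as the
covector of its top phase: its length and the normal vector `qf a a sff` are bounded below.
-/

open scoped Manifold ContDiff RealInnerProductSpace
open Bundle

namespace Vale.Agent.P205.Full.Stage

open Decomp

section Forms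

variable {N : ℕ} {W : Type} [NormedAddCommGroup W] [NormedSpace ℝ W]

/-- `qf` as a bilinear map in the covectors. -/
def qfBil (T : Fin N → Fin N → W) : (Fin N → ℝ) →ₗ[ℝ] (Fin N → ℝ) →ₗ[ℝ] W :=
  LinearMap.mk₂ ℝ (fun a b => qf a b T)
    (fun a a' b => by
      simp only [qf, Pi.add_apply, add_mul, add_smul, Finset.sum_add_distrib]
      abel)
    (fun r a b => by
      simp only [qf, Pi.smul_apply, smul_eq_mul, mul_assoc, ← Finset.mul_sum, smul_sub,
        Finset.smul_sum, smul_smul])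
    (fun a b b' => by
      simp only [qf, Pi.add_apply, mul_add, add_smul, Finset.sum_add_distrib]
      abel)
    (fun r a b => by
      simp only [qf, Pi.smul_apply, smul_eq_mul, mul_left_comm _ r, ← Finset.mul_sum,
        smul_sub, Finset.smul_sum, smul_smul])

theorem qfBil_apply (T : Fin N → Fin N → W) (a b : Fin N → ℝ) : qfBil T a b = qf a b T := rfl

theorem norm_qf_le_uniform {S : ℝ} {T : Fin N → Fin N → W}
    (hT : ∀ i k, ‖T i k‖ ≤ S) (a b : Fin N → ℝ) :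
    ‖qf a b T‖ ≤ 2 * (N : ℝ) ^ 2 * S * ‖a‖ * ‖b‖ := by
  have hab : ∀ i k, |a i * b k| ≤ ‖a‖ * ‖b‖ := fun i k => by
    rw [abs_mul]
    exact mul_le_mul (norm_le_pi_norm a i) (norm_le_pi_norm b k) (abs_nonneg _) (norm_nonneg _)
  have h1 : ‖(∑ i, a i * b i) • ∑ k, T k k‖ ≤ N * (‖a‖ * ‖b‖) * (N * S) := by
    rw [norm_smul, Real.norm_eq_abs]
    refine mul_le_mul ?_ ?_ (norm_nonneg _) (by positivity)
    · refine (Finset.abs_sum_le_sum_abs _ _).trans ((Finset.sum_le_sum fun i _ => hab i i).trans ?_)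
      simp
    · refine (norm_sum_le _ _).trans ((Finset.sum_le_sum fun k _ => hT k k).trans ?_)
      simp
  have h2 : ‖∑ i, ∑ k, (a i * b k) • T i k‖ ≤ N * (N * (‖a‖ * ‖b‖ * S)) := by
    refine (norm_sum_le _ _).trans ((Finset.sum_le_sum (g := fun _ => (N : ℝ) * (‖a‖ * ‖b‖ * S))
      fun i _ => ?_).trans (le_of_eq (by simp)))
    refine (norm_sum_le _ _).trans ((Finset.sum_le_sum (g := fun _ => ‖a‖ * ‖b‖ * S)
      fun k _ => ?_).trans (le_of_eq (by simp)))
    rw [norm_smul, Real.norm_eq_abs]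
    exact mul_le_mul (hab i k) (hT i k) (norm_nonneg _) (by positivity)
  refine (norm_sub_le _ _).trans ((add_le_add h1 h2).trans (le_of_eq ?_))
  ring

/-- The Euclidean product of covectors as a bilinear map. -/
def dotBil (N : ℕ) : (Fin N → ℝ) →ₗ[ℝ] (Fin N → ℝ) →ₗ[ℝ] ℝ :=
  LinearMap.mk₂ ℝ (fun a b => ∑ i, a i * b i)
    (fun a a' b => by simp only [Pi.add_apply, add_mul, Finset.sum_add_distrib])
    (fun r a b => by simp only [Pi.smul_apply, smul_eq_mul, mul_assoc, Finset.mul_sum])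
    (fun a b b' => by simp only [Pi.add_apply, mul_add, Finset.sum_add_distrib])
    (fun r a b => by simp only [Pi.smul_apply, smul_eq_mul, mul_left_comm _ r, Finset.mul_sum])

theorem norm_dotBil_le (a b : Fin N → ℝ) : ‖dotBil N a b‖ ≤ (N : ℝ) * ‖a‖ * ‖b‖ := by
  show ‖∑ i, a i * b i‖ ≤ _
  refine (norm_sum_le _ _).trans ((Finset.sum_le_sum (g := fun _ : Fin N => ‖a‖ * ‖b‖)
    fun i _ => ?_).trans (le_of_eq ?_))
  swap
  · simp [mul_assoc]
  rw [norm_mul]
  exact mul_le_mul (norm_le_pi_norm a i) (norm_le_pi_norm b i) (norm_nonneg _) (norm_nonneg _)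

end Forms

variable {N P : ℕ}

theorem mvec_eq_mom (R : ℝ) (c : Ctx N P) (m : Fin (qn P) → ℤ) (x : c.M) :
    mvec R c m x = mom R (fun q => cov c.V (c.ph q) x) m := by
  funext i
  simp [mvec, mcov, mom, cov, Finset.sum_apply]

/-- Lower bounds at the single phases pass to all frequencies of bounded degree, for `R` large. -/
theorem dominant_of_lower {𝒞 : Set (Ctx N P)} {K : ℕ} {B c₀ : ℝ} (h : Adm 𝒞 K B c₀) {c₁ : ℝ}
    (hc₁ : 0 < c₁)
    (ha : ∀ c ∈ 𝒞, ∀ q, ∀ x ∈ c.good q,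
      c₁ ≤ ∑ i, cov c.V (c.ph q) x i * cov c.V (c.ph q) x i)
    (hP : ∀ c ∈ 𝒞, ∀ q, ∀ x ∈ c.good q,
      c₁ * (c.ℓ x * c.H x) ≤ ‖pE c.F c.V (cov c.V (c.ph q)) x‖)
    (L : ℕ) : ∃ R₀ : ℝ, ∀ R, R₀ ≤ R → Dominant 𝒞 R L := by
  set X := |B| with hX
  set T₁ := 24 * (N : ℝ) ^ 2 * X * L * X ^ 2 / c₁ with hT₁
  set T₂ := 12 * (N : ℝ) * L * X ^ 2 / c₁ with hT₂
  have hX0 : 0 ≤ X := abs_nonneg _
  have hT₁0 : 0 ≤ T₁ := by rw [hT₁]; positivity
  have hT₂0 : 0 ≤ T₂ := by rw [hT₂]; positivity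
  refine ⟨2 + T₁ + T₂, fun R hR => ⟨c₁ / 2, by positivity, fun m hm hm0 c hc x hx => ?_⟩⟩
  have hR2 : 2 ≤ R := by linarith
  have hR1 : T₁ * c₁ ≤ c₁ * R := by rw [mul_comm]; gcongr; linarith
  have hR2' : T₂ * c₁ ≤ c₁ * R := by rw [mul_comm]; gcongr; linarith
  rw [hT₁, div_mul_cancel₀ _ hc₁.ne'] at hR1
  rw [hT₂, div_mul_cancel₀ _ hc₁.ne'] at hR2'
  obtain ⟨q, hq0, hq⟩ := exists_top hm0
  set ξ : Fin (qn P) → Fin N → ℝ := fun q => cov c.V (c.ph q) x
  have hξ : ∀ q', m q' ≠ 0 → ‖ξ q'‖ ≤ X := fun q' hq' =>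
    (pi_norm_le_iff_of_nonneg hX0).2 fun i => by
      have h1 := (((h.data c hc).bd_dY (qix P q').1.phase i).mono_set (h.supp_ρ c hc _)).norm_le
        (hx q' hq')
      exact (h1.trans_eq (mul_one B)).trans (le_abs_self B)
  have hpow : 1 ≤ ((m q : ℝ) * R ^ (q : ℕ)) ^ 2 := by
    have h1 : (1 : ℝ) ≤ |((m q : ℤ) : ℝ)| := by exact_mod_cast Int.one_le_abs hq0
    have h2 : (1 : ℝ) ≤ R ^ (q : ℕ) := one_le_pow₀ (by linarith)
    rw [← sq_abs, abs_mul, abs_of_pos (show (0 : ℝ) < R ^ (q : ℕ) by positivity)]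
    exact one_le_pow₀ (one_le_mul_of_one_le_of_one_le h1 h2)
  have hNX : 0 ≤ (N : ℝ) * L * X ^ 2 := by positivity
  constructor
  · have h1 := quad_mom_lower (dotBil N) (ξ := ξ) hm hq0 hq hξ norm_dotBil_le (Nat.cast_nonneg N)
      ((ha c hc q x (hx q hq0)).trans (le_abs_self _)) hc₁ hR2
      (by linarith) (by linarith)
    have h0 : ‖dotBil N (mom R ξ m) (mom R ξ m)‖ = ∑ i, mom R ξ m i * mom R ξ m i :=
      (Real.norm_eq_abs _).trans (abs_of_nonneg (show (0 : ℝ) ≤ ∑ i, mom R ξ m i * mom R ξ m i from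
        Finset.sum_nonneg fun i _ => mul_self_nonneg _))
    rw [h0] at h1
    rw [mvec_eq_mom]
    exact (le_mul_of_one_le_right (by positivity) hpow).trans h1
  · set S := X * (c.ℓ x * c.H x)
    have hlH : 0 < c.ℓ x * c.H x := mul_pos ((h.data c hc).pos_ℓ x) ((h.data c hc).pos_H x)
    have hS : 0 ≤ S := by positivity
    have hE : ∀ i k, ‖sff c.F c.V i k x‖ ≤ S := fun i k =>
      ((((h.data c hc).bd_sff i k).bdOn Set.univ).norm_le (Set.mem_univ x)).trans
        (mul_le_mul_of_nonneg_right (le_abs_self B) hlH.le)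
    have h2 : 0 ≤ (N : ℝ) ^ 2 * X * L * X ^ 2 * (c.ℓ x * c.H x) := by positivity
    have h3 := mul_le_mul_of_nonneg_right hR1 hlH.le
    have hP' : c₁ * (c.ℓ x * c.H x) ≤
        ‖qfBil (fun i k => sff c.F c.V i k x) (ξ q) (ξ q)‖ := by
      rw [qfBil_apply]
      exact hP c hc q x (hx q hq0)
    have hC : ∀ u u', ‖qfBil (fun i k => sff c.F c.V i k x) u u'‖ ≤
        2 * (N : ℝ) ^ 2 * S * ‖u‖ * ‖u'‖ := fun u u' => by
      rw [qfBil_apply]
      exact norm_qf_le_uniform hE u u'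
    have h1 := quad_mom_lower (qfBil fun i k => sff c.F c.V i k x) (ξ := ξ)
      (C := 2 * (N : ℝ) ^ 2 * S) (c := c₁ * (c.ℓ x * c.H x)) hm hq0 hq hξ hC (by positivity) hP'
      (by positivity) hR2 (by simp only [S]; linarith) (by simp only [S]; linarith)
    show _ ≤ ‖qf (mvec R c m x) (mvec R c m x) fun i k => sff c.F c.V i k x‖
    rw [mvec_eq_mom, ← qfBil_apply]
    refine le_trans ?_ h1
    calc c₁ / 2 * (c.ℓ x * c.H x) = c₁ * (c.ℓ x * c.H x) / 2 * 1 := by ring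
      _ ≤ _ := mul_le_mul_of_nonneg_left hpow (by positivity)

end Vale.Agent.P205.Full.Stage
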