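import Vale.Agent.P205.Full.Stage.Calculus
import Vale.Agent.P205.Full.Stage.Plane

/-!
# P205 stage, selection: smoothness of the second fundamental form
-/

open scoped Manifold ContDiff RealInnerProductSpace Topology
open Bundle Filter

namespace Vale.Agent.P205.Full

variable {M : Type} [TopologicalSpace M] [ChartedSpace R2 M] [IsManifold (𝓡 2) ∞ M]
variable {N : ℕ} {V : Frame M N}

theorem contDiff_matrix_data {W : Type*} [NormedAddCommGroup W] [NormedSpace ℝ W]
    (A : W → Matrix (Fin 4) (Fin 4) ℝ) (hA : ∀ a b, ContDiff ℝ ∞ fun w => A w a b) :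
    (ContDiff ℝ ∞ fun w => (A w).trace) ∧ (∀ a b, ContDiff ℝ ∞ fun w => (A w * A w) a b) ∧
      ContDiff ℝ ∞ fun w => Plane.tr2 (A w) := by
  have h1 : ContDiff ℝ ∞ fun w => (A w).trace := ContDiff.sum fun a _ => hA a a
  have h2 : ∀ a b, ContDiff ℝ ∞ fun w => (A w * A w) a b := fun a b => by
    simp only [Matrix.mul_apply]
    exact ContDiff.sum fun c _ => (hA a c).mul (hA c b)
  have h3 : ContDiff ℝ ∞ fun w => (A w * A w).trace := ContDiff.sum fun a _ => h2 a a
  exact ⟨h1, h2, ((h1.pow 2).sub h3).div_const 2⟩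

/-- The normal projection of `z` for the plane spanned by `u`, as a rational map. -/
noncomputable def normalMap (p : (Fin N → R4) × R4) : R4 :=
  WithLp.toLp 2 (((1 : Matrix (Fin 4) (Fin 4) ℝ) - Plane.proj (Plane.outer p.1)).mulVec p.2.ofLp)

theorem contDiffAt_normalMap {p : (Fin N → R4) × R4} (h : Plane.tr2 (Plane.outer p.1) ≠ 0) :
    ContDiffAt ℝ ∞ normalMap p := by
  have hcoord : ∀ a : Fin 4, ContDiff ℝ ∞ fun y : R4 => y a := fun a => contDiff_piLp_apply 2
  have hu : ∀ i a, ContDiff ℝ ∞ fun q : (Fin N → R4) × R4 => q.1 i a := fun i a =>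
    (hcoord a).comp ((contDiff_apply ℝ R4 i).comp contDiff_fst)
  have hz : ∀ a, ContDiff ℝ ∞ fun q : (Fin N → R4) × R4 => q.2 a := fun a =>
    (hcoord a).comp contDiff_snd
  have hO : ∀ a b, ContDiff ℝ ∞ fun q : (Fin N → R4) × R4 => Plane.outer q.1 a b := fun a b => by
    simp only [Plane.outer, Matrix.of_apply]; fun_prop
  obtain ⟨htr, hO2, ht2⟩ :=
    contDiff_matrix_data (fun q : (Fin N → R4) × R4 => Plane.outer q.1) hO
  have hinv := ht2.contDiffAt.inv (x := p) h
  refine contDiffAt_piLp' 2 fun a => ?_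
  simp only [normalMap, Matrix.mulVec, dotProduct, Matrix.sub_apply,
    Plane.proj, Matrix.smul_apply, smul_eq_mul, Matrix.one_apply]
  exact ContDiffAt.sum fun b _ => (contDiffAt_const.sub (hinv.mul
    ((htr.contDiffAt.mul (hO a b).contDiffAt).sub (hO2 a b).contDiffAt))).mul (hz b).contDiffAt

/-- `sff` is smooth for an immersion. -/
theorem contMDiff_sff (hV : FrameSmooth V) (hs : FrameSpans V) {F : M → R4}
    (hF : ContMDiff (𝓡 2) 𝓘(ℝ, R4) ∞ F)
    (hinj : ∀ x, Function.Injective (mfderiv (𝓡 2) 𝓘(ℝ, R4) F x)) (i k : Fin N) :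
    ContMDiff (𝓡 2) 𝓘(ℝ, R4) ∞ (sff F V i k) := by
  have e : sff F V i k = fun x => normalMap (fun l => D V l F x, D V i (D V k F) x) := by
    funext x
    show (tanPlane F x)ᗮ.starProjection (D V i (D V k F) x) = _
    rw [normalMap, (Plane.normal_projection V hs F x (hinj x) _).2]
  rw [e]
  intro x
  have hn := (Plane.normal_projection V hs F x (hinj x) 0).1
  have h1 : ContMDiffAt (𝓡 2) 𝓘(ℝ, Fin N → R4) ∞ (fun y l => D V l F y) x :=
    contMDiffAt_pi_space.2 fun l => contMDiff_D hV l hF x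
  exact ContDiffAt.comp_contMDiffAt
    (f := fun y => ((fun l => D V l F y), D V i (D V k F) y)) (contDiffAt_normalMap hn)
    (h1.prodMk_space (contMDiff_D hV i (contMDiff_D hV k hF) x))

end Vale.Agent.P205.Full
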