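import Vale.Agent.P205.Full.Stage.Calculus

/-!
# P205 stage, selection: the second fundamental form in a frame is a symmetric tensor
-/

open scoped Manifold ContDiff RealInnerProductSpace Topology
open Bundle Filter

namespace Vale.Agent.P205.Full

variable {M : Type} [TopologicalSpace M] [ChartedSpace R2 M] [IsManifold (𝓡 2) ∞ M]
variable {N : ℕ} {V : Frame M N}

/-- There is a symmetric bilinear form behind the components of `sff`. -/
theorem exists_sff_tensor (hV : FrameSmooth V) {F : M → R4} {x : M}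
    (hF : ContMDiffAt (𝓡 2) 𝓘(ℝ, R4) ∞ F x) :
    ∃ h : TangentSpace (𝓡 2) x →ₗ[ℝ] TangentSpace (𝓡 2) x →ₗ[ℝ] R4,
      (∀ u v, h u v = h v u) ∧ ∀ i k, sff F V i k x = h (V i x) (V k x) := by
  set φ := extChartAt (𝓡 2) x with hφ
  set G : R2 → R4 := fun a => F (φ.symm a) with hG
  have hφs : ContMDiffAt (𝓡 2) 𝓘(ℝ, R2) ∞ (fun y => φ y) x := contMDiffAt_extChartAt
  have hG1 : ContDiffAt ℝ ∞ G (φ x) := by
    have h := (contMDiffAt_iff.1 hF).2
    rw [ModelWithCorners.range_eq_univ, contDiffWithinAt_univ] at h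
    exact h
  have hG2 : ContDiffAt ℝ (2 : ℕ) G (φ x) := contDiffAt_infty.1 hG1 2
  have hev : ∀ᶠ y in 𝓝 x, MDifferentiableAt (𝓡 2) 𝓘(ℝ, R2) (fun z => φ z) y ∧
      DifferentiableAt ℝ G (φ y) ∧ F =ᶠ[𝓝 y] fun z => G (φ z) := by
    have h1 : ∀ᶠ a in 𝓝 (φ x), DifferentiableAt ℝ G a := by
      filter_upwards [hG2.eventually (by simp)] with a ha
      exact ha.differentiableAt (by simp)
    have h2 : F =ᶠ[𝓝 x] fun z => G (φ z) := by
      filter_upwards [extChartAt_source_mem_nhds (I := 𝓡 2) x] with z hz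
      exact congrArg F (φ.left_inv hz).symm
    filter_upwards [eventually_mdiffAt hφs, hφs.continuousAt.eventually h1, h2.eventuallyEq_nhds]
      with y hy hy1 hy2
    exact ⟨hy, hy1, hy2⟩
  have first : ∀ j, D V j F =ᶠ[𝓝 x]
      fun y => fderiv ℝ G (φ y) (D V j (fun z => φ z) y) := by
    intro j
    filter_upwards [hev] with y hy
    rw [D_congr hy.2.2]
    exact D_comp hy.2.1 hy.1
  have hd : DifferentiableAt ℝ (fderiv ℝ G) (φ x) :=
    (hG2.fderiv_right (m := (1 : ℕ)) (by norm_num)).differentiableAt (by simp)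
  have hφ' := mdiffAt_of_smoothAt hφs
  have second : ∀ j l, D V j (D V l F) x =
      fderiv ℝ (fderiv ℝ G) (φ x) (D V j (fun z => φ z) x) (D V l (fun z => φ z) x)
        + fderiv ℝ G (φ x) (D V j (D V l (fun z => φ z)) x) := by
    intro j l
    rw [D_congr (first l)]
    have h1 : MDifferentiableAt (𝓡 2) 𝓘(ℝ, R2 →L[ℝ] R4) (fun y => fderiv ℝ G (φ y)) x :=
      hd.mdifferentiableAt.comp x hφ'
    have h2 := mdiffAt_of_smoothAt (contMDiffAt_D hV l hφs)
    refine (D_bilin (ContinuousLinearMap.id ℝ (R2 →L[ℝ] R4)) h1 h2).trans ?_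
    rw [D_comp (φ := fderiv ℝ G) hd hφ']
    rfl
  have hmf : mfderiv (𝓡 2) 𝓘(ℝ, R4) F x = fderiv ℝ G (φ x) := by
    rw [(mdiffAt_of_smoothAt hF).mfderiv, ModelWithCorners.range_eq_univ, fderivWithin_univ]
    rfl
  let dφ : TangentSpace (𝓡 2) x →ₗ[ℝ] R2 :=
    (mfderiv (𝓡 2) 𝓘(ℝ, R2) (fun z => φ z) x).toLinearMap
  let proj : R4 →ₗ[ℝ] R4 := ((tanPlane F x)ᗮ.starProjection).toLinearMap
  let G2 : R2 →ₗ[ℝ] R2 →ₗ[ℝ] R4 :=
    LinearMap.mk₂ ℝ (fun u v => fderiv ℝ (fderiv ℝ G) (φ x) u v)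
      (fun u u' v => by simp) (fun c u v => by simp) (fun u v v' => by simp) (fun c u v => by simp)
  refine ⟨(G2.compl₁₂ dφ dφ).compr₂ proj, fun u v => ?_, fun i k => ?_⟩
  · show proj (fderiv ℝ (fderiv ℝ G) (φ x) (dφ u) (dφ v)) =
      proj (fderiv ℝ (fderiv ℝ G) (φ x) (dφ v) (dφ u))
    rw [(hG2.isSymmSndFDerivAt (by simp)).eq]
  · show (tanPlane F x)ᗮ.starProjection (D V i (D V k F) x) = _
    rw [second i k, map_add]
    have h0 : (tanPlane F x)ᗮ.starProjection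
        (fderiv ℝ G (φ x) (D V i (D V k (fun z => φ z)) x)) = 0 := by
      rw [Submodule.starProjection_apply_eq_zero_iff, Submodule.orthogonal_orthogonal]
      obtain ⟨w, hw⟩ : ∃ w : R2, D V i (D V k (fun z => φ z)) x = w := ⟨_, rfl⟩
      exact ⟨w, by rw [hmf, hw]; rfl⟩
    rw [h0, add_zero]
    rfl

end Vale.Agent.P205.Full
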