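import Vale.Agent.P205.Full.Stage.DecompPoint
import Vale.Agent.P205.Full.Stage.DecompTensor
import Vale.Agent.P205.Full.Stage.DecompNormal

/-!
# P205 stage, selection: plane coordinates at a point of a surface with stage data
-/

open scoped Manifold ContDiff RealInnerProductSpace Topology
open Bundle Finset

namespace Vale.Agent.P205.Full.Decomp

open Stage

variable {M : Type} [TopologicalSpace M] [ChartedSpace R2 M] [IsManifold (𝓡 2) ∞ M]
variable {N P : ℕ}

/-- Orthonormal coordinates at `x` of the frame divided by the scale `l`. -/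
structure Coord (g : Metric M) (V : Frame M N) (l : ℝ) (x : M) where
  /-- The first axis. -/
  e₁ : TangentSpace (𝓡 2) x
  /-- The second axis. -/
  e₂ : TangentSpace (𝓡 2) x
  /-- The first coordinates. -/
  p : Fin N → ℝ
  /-- The second coordinates. -/
  q : Fin N → ℝ
  g₁₁ : g.inner x e₁ e₁ = 1
  g₁₂ : g.inner x e₁ e₂ = 0
  g₂₂ : g.inner x e₂ e₂ = 1
  expand : ∀ v, v = g.inner x v e₁ • e₁ + g.inner x v e₂ • e₂
  hp : ∀ i, l * p i = g.inner x (V i x) e₁
  hq : ∀ i, l * q i = g.inner x (V i x) e₂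

theorem exists_coord' (g : Metric M) (V : Frame M N) {l : ℝ} (hl : l ≠ 0) (x : M) :
    Nonempty (Coord g V l x) := by
  obtain ⟨b, hb, hexp⟩ := Plane.exists_orthonormal (show Module.finrank ℝ R2 = 2 by simp)
    (Plane.metricForm g x) (fun v w => g.symm x v w) (fun v hv => g.pos x v hv)
  have h11 : g.inner x (b 0) (b 0) = 1 := (hb 0 0).trans (if_pos rfl)
  have h12 : g.inner x (b 0) (b 1) = 0 := (hb 0 1).trans (if_neg (by decide))
  have h22 : g.inner x (b 1) (b 1) = 1 := (hb 1 1).trans (if_pos rfl)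
  exact ⟨⟨b 0, b 1, fun i => g.inner x (V i x) (b 0) / l, fun i => g.inner x (V i x) (b 1) / l,
    h11, h12, h22, fun v => (hexp v).trans (Fin.sum_univ_two _),
    fun i => mul_div_cancel₀ _ hl, fun i => mul_div_cancel₀ _ hl⟩⟩

namespace Coord

variable {g : Metric M} {V : Frame M N} {l : ℝ} {x : M} (c : Coord g V l x)

theorem frame_eq (i : Fin N) : V i x = (l * c.p i) • c.e₁ + (l * c.q i) • c.e₂ := by
  rw [c.hp, c.hq]; exact c.expand _

theorem apply_tensor {W : Type} [NormedAddCommGroup W] [NormedSpace ℝ W]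
    (Φ : TangentSpace (𝓡 2) x → TangentSpace (𝓡 2) x → W) (hs : ∀ u v, Φ u v = Φ v u)
    (ha : ∀ u v w, Φ (u + v) w = Φ u w + Φ v w) (hm : ∀ (a : ℝ) u v, Φ (a • u) v = a • Φ u v)
    (i k : Fin N) :
    Φ (V i x) (V k x) = tv c.p c.q ((l * l) • Φ c.e₁ c.e₁) ((l * l) • Φ c.e₁ c.e₂)
      ((l * l) • Φ c.e₂ c.e₂) i k := by
  have hm' : ∀ (a : ℝ) u v, Φ u (a • v) = a • Φ u v := fun a u v => by rw [hs, hm, hs]
  have ha' : ∀ u v w, Φ u (v + w) = Φ u v + Φ u w := fun u v w => by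
    rw [hs, ha, hs v u, hs w u]
  rw [c.frame_eq i, c.frame_eq k, ha, ha', ha', hm, hm', hm, hm', hm, hm', hm, hm', hs c.e₂ c.e₁]
  simp only [tv]
  match_scalars <;> ring

theorem gV_eq (i k : Fin N) :
    gV g V i k x = tv c.p c.q (l * l) 0 (l * l) i k := by
  have := c.apply_tensor (fun u v => g.inner x u v) (fun u v => g.symm x u v)
    (fun u v w => by exact DFunLike.congr_fun ((g.inner x).map_add u v) w)
    (fun a u v => by exact DFunLike.congr_fun ((g.inner x).map_smul a u) v) i k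
  simp only [c.g₁₁, c.g₁₂, c.g₂₂, smul_eq_mul, mul_one, mul_zero] at this
  exact this

theorem cov_eq (Y : M → ℝ) :
    cov V Y x = cv c.p c.q (l * dR Y x c.e₁, l * dR Y x c.e₂) := by
  funext i
  show dR Y x (V i x) = _
  rw [c.frame_eq i]
  show mfderiv (𝓡 2) 𝓘(ℝ, ℝ) Y x ((l * c.p i) • c.e₁ + (l * c.q i) • c.e₂) = _
  rw [map_add, map_smul, map_smul]
  simp only [cv, dR]
  show (l * c.p i) * _ + (l * c.q i) * _ = _
  generalize mfderiv (𝓡 2) 𝓘(ℝ, ℝ) Y x c.e₁ = A₁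
  generalize mfderiv (𝓡 2) 𝓘(ℝ, ℝ) Y x c.e₂ = A₂
  revert A₁ A₂
  intro (A₁ : ℝ) (A₂ : ℝ)
  ring

theorem inner_left (a b : ℝ) (v : TangentSpace (𝓡 2) x) :
    g.inner x (a • c.e₁ + b • c.e₂) v = a * g.inner x c.e₁ v + b * g.inner x c.e₂ v := by
  have h1 : g.inner x (a • c.e₁ + b • c.e₂) v =
      g.inner x (a • c.e₁) v + g.inner x (b • c.e₂) v := by
    exact DFunLike.congr_fun ((g.inner x).map_add _ _) v
  have h2 : ∀ (r : ℝ) u, g.inner x (r • u) v = r * g.inner x u v := fun r u => by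
    exact DFunLike.congr_fun ((g.inner x).map_smul r u) v
  rw [h1, h2, h2]

theorem inner_right (a b : ℝ) (v : TangentSpace (𝓡 2) x) :
    g.inner x v (a • c.e₁ + b • c.e₂) = a * g.inner x v c.e₁ + b * g.inner x v c.e₂ := by
  rw [g.symm x, c.inner_left, g.symm x c.e₁, g.symm x c.e₂]

theorem inner_self (a b : ℝ) :
    g.inner x (a • c.e₁ + b • c.e₂) (a • c.e₁ + b • c.e₂) = a ^ 2 + b ^ 2 := by
  rw [c.inner_left, c.inner_right, c.inner_right, g.symm x c.e₂ c.e₁, c.g₁₁, c.g₁₂, c.g₂₂]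
  ring

theorem bounds (hl : 0 < l) {B : ℝ}
    (hlo : ∀ v : TangentSpace (𝓡 2) x,
      l ^ 2 * g.inner x v v ≤ B * ∑ i, (g.inner x (V i x) v) ^ 2)
    (hup : ∀ v : TangentSpace (𝓡 2) x,
      ∑ i, (g.inner x (V i x) v) ^ 2 ≤ B * (l ^ 2 * g.inner x v v)) :
    0 < B ∧ ∑ i, c.p i * c.p i ≤ B ∧ ∑ i, c.q i * c.q i ≤ B ∧ (B ^ 2)⁻¹ ≤ gram c.p c.q := by
  set A := ∑ i, c.p i * c.p i
  set B' := ∑ i, c.p i * c.q i
  set C := ∑ i, c.q i * c.q i
  have hsum : ∀ a b : ℝ, ∑ i, (g.inner x (V i x) (a • c.e₁ + b • c.e₂)) ^ 2 =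
      l ^ 2 * (a ^ 2 * A + 2 * a * b * B' + b ^ 2 * C) := fun a b => by
    simp only [c.inner_right, ← c.hp, ← c.hq, A, B', C, mul_sum,
      ← sum_add_distrib]
    exact sum_congr rfl fun i _ => by ring
  have hself := c.inner_self
  have hl2 : 0 < l ^ 2 := by positivity
  have lower : ∀ a b : ℝ, a ^ 2 + b ^ 2 ≤ B * (a ^ 2 * A + 2 * a * b * B' + b ^ 2 * C) :=
    fun a b => by
      have := hlo (a • c.e₁ + b • c.e₂)
      rw [hsum, hself] at this
      exact le_of_mul_le_mul_left (by linarith) hl2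
  have upper : ∀ a b : ℝ, a ^ 2 * A + 2 * a * b * B' + b ^ 2 * C ≤ B * (a ^ 2 + b ^ 2) :=
    fun a b => by
      have := hup (a • c.e₁ + b • c.e₂)
      rw [hsum, hself] at this
      exact le_of_mul_le_mul_left (by linarith) hl2
  have h10 := lower 1 0
  have u10 := upper 1 0
  have u01 := upper 0 1
  simp only [one_pow, mul_zero, zero_mul, add_zero, zero_add, mul_one, one_mul,
    zero_pow (show (2 : ℕ) ≠ 0 by norm_num)] at h10 u10 u01
  have hA0 : 0 ≤ A := sum_nonneg fun i _ => mul_self_nonneg _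
  have hB : 0 < B := by
    by_contra hB
    nlinarith [mul_nonpos_of_nonpos_of_nonneg (not_lt.1 hB) hA0]
  refine ⟨hB, u10, u01, ?_⟩
  have hA : 0 < A := by nlinarith
  have h := lower (-B') A
  have hg : gram c.p c.q = A * C - B' ^ 2 := rfl
  have e : A * A ≤ A * (B * gram c.p c.q) := by
    rw [hg]; nlinarith [sq_nonneg B']
  have e2 := le_of_mul_le_mul_left e hA
  rw [inv_le_iff_one_le_mul₀ (by positivity)]
  nlinarith [mul_le_mul_of_nonneg_left e2 hB.le]

theorem mem_span (hl : l ≠ 0) (hw : gram c.p c.q ≠ 0) :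
    Submodule.span ℝ (Set.range fun i => V i x) = ⊤ := by
  set S := Submodule.span ℝ (Set.range fun i => V i x)
  have key : ∀ r : Fin N → ℝ,
      (l * ∑ i, r i * c.p i) • c.e₁ + (l * ∑ i, r i * c.q i) • c.e₂ ∈ S := fun r => by
    have h : ∑ i, r i • V i x ∈ S :=
      S.sum_mem fun i _ => S.smul_mem _ (Submodule.subset_span ⟨i, rfl⟩)
    convert h using 1
    simp only [mul_sum, sum_smul, ← sum_add_distrib]
    refine sum_congr rfl fun i _ => ?_
    rw [c.frame_eq i, smul_add, smul_smul, smul_smul]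
    congr 2 <;> ring
  set A := ∑ i, c.p i * c.p i
  set B' := ∑ i, c.p i * c.q i
  set C := ∑ i, c.q i * c.q i
  have hsum : ∀ (a b : ℝ) (r : Fin N → ℝ),
      ∑ i, (a * c.p i + b * c.q i) * r i = a * (∑ i, c.p i * r i) + b * ∑ i, c.q i * r i :=
    fun a b r => by
      simp only [mul_sum, ← sum_add_distrib]
      exact sum_congr rfl fun i _ => by ring
  have hcomm : ∑ i, c.q i * c.p i = B' := sum_congr rfl fun i _ => mul_comm _ _
  have hne : l * gram c.p c.q ≠ 0 := mul_ne_zero hl hw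
  have hg : gram c.p c.q = A * C - B' ^ 2 := rfl
  have h1 : c.e₁ ∈ S := by
    have := key fun i => C * c.p i + -B' * c.q i
    rw [hsum, hsum, hcomm, show C * A + -B' * B' = gram c.p c.q by rw [hg]; ring,
      show C * B' + -B' * C = (0 : ℝ) by ring, mul_zero, zero_smul, add_zero] at this
    have h' := S.smul_mem (l * gram c.p c.q)⁻¹ this
    rwa [inv_smul_smul₀ hne] at h'
  have h2 : c.e₂ ∈ S := by
    have := key fun i => -B' * c.p i + A * c.q i
    rw [hsum, hsum, hcomm, show -B' * A + A * B' = (0 : ℝ) by ring,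
      show -B' * B' + A * C = gram c.p c.q by rw [hg]; ring, mul_zero, zero_smul, zero_add] at this
    have h' := S.smul_mem (l * gram c.p c.q)⁻¹ this
    rwa [inv_smul_smul₀ hne] at h'
  refine Submodule.eq_top_iff'.2 fun v => ?_
  rw [c.expand v]
  exact S.add_mem (S.smul_mem _ h1) (S.smul_mem _ h2)

theorem near_of_rich {Y : M → ℝ} {u : ℝ × ℝ}
    (h : ∀ v : TangentSpace (𝓡 2) x,
      |l * dR Y x v - g.inner x (u.1 • c.e₁ + u.2 • c.e₂) v| ≤
        (1 / 100) * Real.sqrt (g.inner x v v)) :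
    Near (l * dR Y x c.e₁, l * dR Y x c.e₂) u := by
  have h1 := h c.e₁
  have h2 := h c.e₂
  rw [c.inner_left, g.symm x c.e₂ c.e₁, c.g₁₁, c.g₁₂, Real.sqrt_one] at h1
  rw [c.inner_left, c.g₁₂, c.g₂₂, Real.sqrt_one] at h2
  exact ⟨by simpa using h1, by simpa using h2⟩

theorem unit (u : ℝ × ℝ) (hu : u.1 ^ 2 + u.2 ^ 2 = 1) :
    g.inner x (u.1 • c.e₁ + u.2 • c.e₂) (u.1 • c.e₁ + u.2 • c.e₂) = 1 := by
  rw [c.inner_self, hu]

end Coord

end Vale.Agent.P205.Full.Decomp
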