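import Mathlib

/-!
# P205 stage, selection of directions: plane algebra

In a frame `v i = (p i, q i)` of a plane, with `a i = α (v i)` and `T i k = τ (v i, v k)`, the
expression `qf a b T` is the determinant of `∑ v i ⊗ v i` times `τ (J α, J β)`; so it needs no
pseudo-inverse.  Nine fixed directions in three triples give, for every quadratic form, a triple of
directions on which it does not degenerate.
-/

namespace Vale.Agent.P205.Full.Decomp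

open Finset

variable {N : ℕ} {E : Type*} [NormedAddCommGroup E] [NormedSpace ℝ E]

/-- `(a · b) tr T - T (a, b)` in frame components. -/
def qf (a b : Fin N → ℝ) (T : Fin N → Fin N → E) : E :=
  (∑ i, a i * b i) • (∑ k, T k k) - ∑ i, ∑ k, (a i * b k) • T i k

/-- `τ (J α, J β)` for the symmetric form with entries `t₁₁, t₁₂, t₂₂`. -/
def co (α β : ℝ × ℝ) (t₁₁ t₁₂ t₂₂ : E) : E :=
  (α.2 * β.2) • t₁₁ - (α.1 * β.2 + α.2 * β.1) • t₁₂ + (α.1 * β.1) • t₂₂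

/-- Frame components of a covector. -/
def cv (p q : Fin N → ℝ) (α : ℝ × ℝ) : Fin N → ℝ := fun i => α.1 * p i + α.2 * q i

/-- Frame components of a symmetric form. -/
def tv (p q : Fin N → ℝ) (t₁₁ t₁₂ t₂₂ : E) : Fin N → Fin N → E := fun i k =>
  (p i * p k) • t₁₁ + (p i * q k + q i * p k) • t₁₂ + (q i * q k) • t₂₂

/-- The Gram determinant of the frame. -/
def gram (p q : Fin N → ℝ) : ℝ := (∑ i, p i * p i) * (∑ i, q i * q i) - (∑ i, p i * q i) ^ 2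

/-- The determinant of two covectors. -/
def det₂ (α β : ℝ × ℝ) : ℝ := α.1 * β.2 - α.2 * β.1

theorem qf_cv (p q : Fin N → ℝ) (α β : ℝ × ℝ) (t₁₁ t₁₂ t₂₂ : E) :
    qf (cv p q α) (cv p q β) (tv p q t₁₁ t₁₂ t₂₂) = gram p q • co α β t₁₁ t₁₂ t₂₂ := by
  set a := cv p q α with ha
  set b := cv p q β with hb
  have hd : ∑ i, ∑ k, (a i * b k) • tv p q t₁₁ t₁₂ t₂₂ i k =
      ((∑ i, a i * p i) * ∑ k, b k * p k) • t₁₁ +
      ((∑ i, a i * p i) * (∑ k, b k * q k) + (∑ i, a i * q i) * ∑ k, b k * p k) • t₁₂ +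
      ((∑ i, a i * q i) * ∑ k, b k * q k) • t₂₂ := by
    simp only [tv, sum_mul_sum, add_smul, sum_smul, smul_add, smul_smul, ← sum_add_distrib]
    refine sum_congr rfl fun i _ => sum_congr rfl fun k _ => ?_
    match_scalars <;> ring
  have ht : ∑ k, tv p q t₁₁ t₁₂ t₂₂ k k = (∑ k, p k * p k) • t₁₁ +
      (2 * ∑ k, p k * q k) • t₁₂ + (∑ k, q k * q k) • t₂₂ := by
    simp only [tv, mul_sum, sum_smul, ← sum_add_distrib]
    refine sum_congr rfl fun k _ => ?_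
    match_scalars <;> ring
  have lin : ∀ (c : ℝ × ℝ) (r : Fin N → ℝ),
      ∑ i, cv p q c i * r i = c.1 * (∑ i, p i * r i) + c.2 * ∑ i, q i * r i := fun c r => by
    simp only [cv, mul_sum, ← sum_add_distrib]
    exact sum_congr rfl fun i _ => by ring
  have hab : ∑ i, a i * b i = α.1 * (β.1 * (∑ i, p i * p i) + β.2 * ∑ i, p i * q i) +
      α.2 * (β.1 * (∑ i, p i * q i) + β.2 * ∑ i, q i * q i) := by
    rw [ha, hb, lin]
    simp only [cv, mul_sum, ← sum_add_distrib]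
    exact sum_congr rfl fun i _ => by ring
  have hcomm : ∑ i, q i * p i = ∑ i, p i * q i := sum_congr rfl fun i _ => mul_comm _ _
  simp only [qf, hd, ht, hab]
  rw [ha, hb]
  simp only [lin, hcomm, gram, co]
  match_scalars <;> ring

theorem co_sq (α β γ : ℝ × ℝ) :
    co α β (γ.1 * γ.1) (γ.1 * γ.2) (γ.2 * γ.2) = det₂ α γ * det₂ β γ := by
  simp only [co, det₂, smul_eq_mul]; ring

theorem cv_mul (p q : Fin N → ℝ) (γ : ℝ × ℝ) :
    (fun i k => cv p q γ i * cv p q γ k) = tv p q (γ.1 * γ.1) (γ.1 * γ.2) (γ.2 * γ.2) := by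
  funext i k; simp only [cv, tv, smul_eq_mul]; ring

/-- A symmetric form is a combination of the squares of three covectors. -/
theorem tv_eq (p q : Fin N → ℝ) {α β γ : ℝ × ℝ} (hw : gram p q ≠ 0) (h₁ : det₂ α β ≠ 0)
    (h₂ : det₂ β γ ≠ 0) (h₃ : det₂ γ α ≠ 0) (t₁₁ t₁₂ t₂₂ : ℝ) (i k : Fin N) :
    let T := tv p q t₁₁ t₁₂ t₂₂
    let a := cv p q α
    let b := cv p q β
    let c := cv p q γ
    T i k = qf b c T / qf b c (fun i k => a i * a k) * (a i * a k) +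
      qf c a T / qf c a (fun i k => b i * b k) * (b i * b k) +
      qf a b T / qf a b (fun i k => c i * c k) * (c i * c k) := by
  simp only [cv_mul, qf_cv, co_sq, smul_eq_mul]
  rw [mul_div_mul_left _ _ hw, mul_div_mul_left _ _ hw, mul_div_mul_left _ _ hw]
  have e₁ : det₂ β α = -det₂ α β := by simp only [det₂]; ring
  have e₂ : det₂ γ β = -det₂ β γ := by simp only [det₂]; ring
  have e₃ : det₂ α γ = -det₂ γ α := by simp only [det₂]; ring
  rw [e₁, e₂, e₃]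
  simp only [cv, tv, co, smul_eq_mul]
  field_simp
  simp only [det₂]
  ring

/-- A quadratic form from its values in three directions. -/
theorem interpolate {α β γ : ℝ × ℝ} (h₁ : det₂ α β ≠ 0) (h₂ : det₂ β γ ≠ 0) (h₃ : det₂ γ α ≠ 0)
    (t₁₁ t₁₂ t₂₂ : E) :
    let A := co α α t₁₁ t₁₂ t₂₂
    let B := co β β t₁₁ t₁₂ t₂₂
    let C := co γ γ t₁₁ t₁₂ t₂₂
    let da := det₂ α β * det₂ α γ
    let db := det₂ β γ * det₂ β α
    let dc := det₂ γ α * det₂ γ β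
    t₁₁ = (β.1 * γ.1 / da) • A + (γ.1 * α.1 / db) • B + (α.1 * β.1 / dc) • C ∧
    t₁₂ = ((β.1 * γ.2 + β.2 * γ.1) / 2 / da) • A + ((γ.1 * α.2 + γ.2 * α.1) / 2 / db) • B +
      ((α.1 * β.2 + α.2 * β.1) / 2 / dc) • C ∧
    t₂₂ = (β.2 * γ.2 / da) • A + (γ.2 * α.2 / db) • B + (α.2 * β.2 / dc) • C := by
  have e₁ : det₂ β α = -det₂ α β := by simp only [det₂]; ring
  have e₂ : det₂ γ β = -det₂ β γ := by simp only [det₂]; ring
  have e₃ : det₂ α γ = -det₂ γ α := by simp only [det₂]; ring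
  simp only [e₁, e₂, e₃, co]
  refine ⟨?_, ?_, ?_⟩ <;>
    (match_scalars <;> field_simp <;> simp only [det₂] <;> ring)

/-- Three triples of unit covectors, each positively spanning, with nine distinct lines. -/
noncomputable def dirs : Fin 3 → Fin 3 → ℝ × ℝ :=
  ![![(1, 0), (-3 / 5, 4 / 5), (-3 / 5, -4 / 5)],
    ![(24 / 25, 7 / 25), (-4 / 5, 3 / 5), (-44 / 125, -117 / 125)],
    ![(527 / 625, 336 / 625), (-117 / 125, 44 / 125), (-237 / 3125, -3116 / 3125)]]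

theorem dirs_abs (t s : Fin 3) : |(dirs t s).1| + |(dirs t s).2| ≤ 3 / 2 := by
  fin_cases t <;> fin_cases s <;> norm_num [dirs, abs_of_nonneg, abs_of_nonpos]

theorem dirs_unit (t s : Fin 3) : (dirs t s).1 ^ 2 + (dirs t s).2 ^ 2 = 1 := by
  fin_cases t <;> fin_cases s <;> norm_num [dirs]

theorem dirs_det (t s t' s' : Fin 3) (h : (t, s) ≠ (t', s')) :
    1 / 4 ≤ |det₂ (dirs t s) (dirs t' s')| := by
  fin_cases t <;> fin_cases s <;> fin_cases t' <;> fin_cases s' <;>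
    first
      | exact absurd rfl h
      | norm_num [dirs, det₂, abs_of_nonneg, abs_of_nonpos]

theorem dirs_dot (t s s' : Fin 3) (h : s ≠ s') :
    (dirs t s).1 * (dirs t s').1 + (dirs t s).2 * (dirs t s').2 ≤ -(1 / 4) := by
  fin_cases t <;> fin_cases s <;> fin_cases s' <;>
    first
      | exact absurd rfl h
      | norm_num [dirs]

theorem dirs_turn (t : Fin 3) : 0 < det₂ (dirs t 0) (dirs t 1) ∧
    0 < det₂ (dirs t 1) (dirs t 2) ∧ 0 < det₂ (dirs t 2) (dirs t 0) := by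
  fin_cases t <;> norm_num [dirs, det₂, Matrix.cons_val_two, Matrix.cons_val, Matrix.vecHead, Matrix.vecTail]

/-- Closeness of covectors. -/
def Near (α u : ℝ × ℝ) : Prop := |α.1 - u.1| ≤ 1 / 100 ∧ |α.2 - u.2| ≤ 1 / 100

theorem near_bilin {α β u w : ℝ × ℝ} (hα : Near α u) (hβ : Near β w)
    (hu : |u.1| + |u.2| ≤ 3 / 2) (hw : |w.1| + |w.2| ≤ 3 / 2) :
    |det₂ α β - det₂ u w| ≤ 1 / 25 ∧
      |(α.1 * β.1 + α.2 * β.2) - (u.1 * w.1 + u.2 * w.2)| ≤ 1 / 25 := by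
  obtain ⟨a₁, a₂⟩ := hα
  obtain ⟨b₁, b₂⟩ := hβ
  have key : ∀ d e x y : ℝ, |d| ≤ 1 / 100 → |e| ≤ 1 / 100 →
      |d * y + x * e + d * e| ≤ 1 / 100 * |y| + 1 / 100 * |x| + 1 / 10000 := fun d e x y hd he => by
    have h₁ : |d * y| ≤ 1 / 100 * |y| := by rw [abs_mul]; gcongr
    have h₂ : |x * e| ≤ 1 / 100 * |x| := by rw [abs_mul, mul_comm]; gcongr
    have h₃ : |d * e| ≤ 1 / 100 * (1 / 100) := by rw [abs_mul]; gcongr
    linarith [abs_add_le (d * y + x * e) (d * e), abs_add_le (d * y) (x * e)]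
  constructor
  · have := key _ _ u.1 w.2 a₁ b₂
    have := key _ _ u.2 w.1 a₂ b₁
    rw [show det₂ α β - det₂ u w = ((α.1 - u.1) * w.2 + u.1 * (β.2 - w.2) + (α.1 - u.1) * (β.2 - w.2)) -
      ((α.2 - u.2) * w.1 + u.2 * (β.1 - w.1) + (α.2 - u.2) * (β.1 - w.1)) by
        simp only [det₂]; ring]
    refine (abs_sub _ _).trans ?_
    linarith
  · have := key _ _ u.1 w.1 a₁ b₁
    have := key _ _ u.2 w.2 a₂ b₂
    rw [show (α.1 * β.1 + α.2 * β.2) - (u.1 * w.1 + u.2 * w.2) =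
      ((α.1 - u.1) * w.1 + u.1 * (β.1 - w.1) + (α.1 - u.1) * (β.1 - w.1)) +
      ((α.2 - u.2) * w.2 + u.2 * (β.2 - w.2) + (α.2 - u.2) * (β.2 - w.2)) by ring]
    refine (abs_add_le _ _).trans ?_
    linarith

/-- Perturbations of the nine directions keep their margins. -/
theorem margins {α : Fin 3 → Fin 3 → ℝ × ℝ} (hα : ∀ t s, Near (α t s) (dirs t s)) :
    (∀ t s t' s', (t, s) ≠ (t', s') → 1 / 5 ≤ |det₂ (α t s) (α t' s')|) ∧
    (∀ t s s', s ≠ s' →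
      (α t s).1 * (α t s').1 + (α t s).2 * (α t s').2 ≤ -(1 / 5)) ∧
    ∀ t, 1 / 5 ≤ det₂ (α t 0) (α t 1) ∧ 1 / 5 ≤ det₂ (α t 1) (α t 2) ∧
      1 / 5 ≤ det₂ (α t 2) (α t 0) := by
  refine ⟨fun t s t' s' h => ?_, fun t s s' h => ?_, fun t => ?_⟩
  · have h₁ := (near_bilin (hα t s) (hα t' s') (dirs_abs _ _) (dirs_abs _ _)).1
    have h₂ := dirs_det t s t' s' h
    have h₃ := abs_sub_abs_le_abs_sub (det₂ (dirs t s) (dirs t' s')) (det₂ (α t s) (α t' s'))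
    rw [abs_sub_comm (det₂ (dirs t s) (dirs t' s'))] at h₃
    linarith
  · have h₁ := (near_bilin (hα t s) (hα t s') (dirs_abs _ _) (dirs_abs _ _)).2
    have := dirs_dot t s s' h
    linarith [(abs_le.1 h₁).2]
  · obtain ⟨d₁, d₂, d₃⟩ := dirs_turn t
    have key : ∀ s s' : Fin 3, s ≠ s' → 0 < det₂ (dirs t s) (dirs t s') →
        1 / 5 ≤ det₂ (α t s) (α t s') := fun s s' h hp => by
      have h₁ := (near_bilin (hα t s) (hα t s') (dirs_abs _ _) (dirs_abs _ _)).1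
      have h₂ := dirs_det t s t s' (by simp [h])
      rw [abs_of_pos hp] at h₂
      linarith [(abs_le.1 h₁).1]
    exact ⟨key 0 1 (by decide) d₁, key 1 2 (by decide) d₂, key 2 0 (by decide) d₃⟩

theorem coord_le {α u : ℝ × ℝ} (h : Near α u) (hu : u.1 ^ 2 + u.2 ^ 2 = 1) :
    |α.1| ≤ 2 ∧ |α.2| ≤ 2 := by
  obtain ⟨h₁, h₂⟩ := h
  rw [abs_le] at h₁ h₂ ⊢
  rw [abs_le]
  refine ⟨⟨?_, ?_⟩, ?_, ?_⟩ <;> nlinarith [sq_nonneg u.1, sq_nonneg u.2]

/-- Some triple of directions is not degenerate for a given quadratic form. -/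
theorem exists_good_triple {α : Fin 3 → Fin 3 → ℝ × ℝ} (hα : ∀ t s, Near (α t s) (dirs t s))
    (t₁₁ t₁₂ t₂₂ : E) {m : ℝ}
    (h : 300 * m < max ‖t₁₁‖ (max ‖t₁₂‖ ‖t₂₂‖)) :
    ∃ t, ∀ s, m ≤ ‖co (α t s) (α t s) t₁₁ t₁₂ t₂₂‖ := by
  by_contra hne
  push Not at hne
  choose s hs using hne
  obtain ⟨hdet, -, -⟩ := margins hα
  set a := α 0 (s 0)
  set b := α 1 (s 1)
  set c := α 2 (s 2)
  have d₁ : 1 / 5 ≤ |det₂ a b| := hdet _ _ _ _ (by simp)
  have d₁' : 1 / 5 ≤ |det₂ b a| := hdet _ _ _ _ (by simp)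
  have d₂ : 1 / 5 ≤ |det₂ b c| := hdet _ _ _ _ (by simp)
  have d₂' : 1 / 5 ≤ |det₂ c b| := hdet _ _ _ _ (by simp)
  have d₃ : 1 / 5 ≤ |det₂ c a| := hdet _ _ _ _ (by simp)
  have d₃' : 1 / 5 ≤ |det₂ a c| := hdet _ _ _ _ (by simp)
  have ne : ∀ {x : ℝ}, 1 / 5 ≤ |x| → x ≠ 0 := fun hx h0 => by rw [h0, abs_zero] at hx; linarith
  obtain ⟨e₁, e₂, e₃⟩ := interpolate (ne d₁) (ne d₂) (ne d₃) t₁₁ t₁₂ t₂₂
  have hb : ∀ t, |(α t (s t)).1| ≤ 2 ∧ |(α t (s t)).2| ≤ 2 := fun t =>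
    coord_le (hα _ _) (dirs_unit _ _)
  have pm : ∀ {x y : ℝ}, |x| ≤ 2 → |y| ≤ 2 → |x * y| ≤ 4 := fun {x y} hx hy => by
    rw [abs_mul]; nlinarith [abs_nonneg x, abs_nonneg y]
  have pm' : ∀ {x y x' y' : ℝ}, |x| ≤ 2 → |y| ≤ 2 → |x'| ≤ 2 → |y'| ≤ 2 →
      |(x * y + x' * y') / 2| ≤ 4 := fun {x y x' y'} hx hy hx' hy' => by
    rw [abs_div, abs_two]
    linarith [abs_add_le (x * y) (x' * y'), pm hx hy, pm hx' hy']
  have bound : ∀ {x d e : ℝ} {P : E}, |x| ≤ 4 → 1 / 5 ≤ |d| → 1 / 5 ≤ |e| → ‖P‖ ≤ m →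
      ‖(x / (d * e)) • P‖ ≤ 100 * m := fun {x d e P} hx hd he hP => by
    rw [norm_smul, Real.norm_eq_abs, abs_div, abs_mul]
    refine mul_le_mul ?_ hP (norm_nonneg _) (by norm_num)
    rw [div_le_iff₀ (by positivity)]
    nlinarith
  have three : ∀ {u v w : E}, ‖u‖ ≤ 100 * m → ‖v‖ ≤ 100 * m → ‖w‖ ≤ 100 * m →
      ‖u + v + w‖ ≤ 300 * m := fun {u v w} hu hv hw => by
    linarith [norm_add_le (u + v) w, norm_add_le u v]
  refine (lt_irrefl (300 * m)) (h.trans_le (max_le ?_ (max_le ?_ ?_)))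
  · rw [e₁]
    exact three (bound (pm (hb 1).1 (hb 2).1) d₁ d₃' (hs 0).le)
      (bound (pm (hb 2).1 (hb 0).1) d₂ d₁' (hs 1).le)
      (bound (pm (hb 0).1 (hb 1).1) d₃ d₂' (hs 2).le)
  · rw [e₂]
    exact three (bound (pm' (hb 1).1 (hb 2).2 (hb 1).2 (hb 2).1) d₁ d₃' (hs 0).le)
      (bound (pm' (hb 2).1 (hb 0).2 (hb 2).2 (hb 0).1) d₂ d₁' (hs 1).le)
      (bound (pm' (hb 0).1 (hb 1).2 (hb 0).2 (hb 1).1) d₃ d₂' (hs 2).le)
  · rw [e₃]
    exact three (bound (pm (hb 1).2 (hb 2).2) d₁ d₃' (hs 0).le)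
      (bound (pm (hb 2).2 (hb 0).2) d₂ d₁' (hs 1).le)
      (bound (pm (hb 0).2 (hb 1).2) d₃ d₂' (hs 2).le)

end Vale.Agent.P205.Full.Decomp
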