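import Vale.Agent.P205.Full.Stage.Interface
import Vale.Agent.P205.Full.Stage.DecompAlg

/-!
# P205 stage, selection: the interface forms in plane coordinates
-/

open scoped Matrix

namespace Vale.Agent.P205.Full.Decomp

open Finset Stage

variable {N : ℕ} {E : Type} [NormedAddCommGroup E] [NormedSpace ℝ E]

/-- Scalar symmetric forms as matrices. -/
noncomputable def tm (p q : Fin N → ℝ) (m₁₁ m₁₂ m₂₂ : ℝ) : Matrix (Fin N) (Fin N) ℝ :=
  Matrix.of (tv p q m₁₁ m₁₂ m₂₂)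

theorem tm_apply (p q : Fin N → ℝ) (m₁₁ m₁₂ m₂₂ : ℝ) (i k : Fin N) :
    tm p q m₁₁ m₁₂ m₂₂ i k = p i * p k * m₁₁ + (p i * q k + q i * p k) * m₁₂ +
      q i * q k * m₂₂ := rfl

theorem trace_tm (p q : Fin N → ℝ) (m₁₁ m₁₂ m₂₂ : ℝ) :
    (tm p q m₁₁ m₁₂ m₂₂).trace =
      m₁₁ * (∑ i, p i * p i) + 2 * m₁₂ * (∑ i, p i * q i) + m₂₂ * ∑ i, q i * q i := by
  simp only [Matrix.trace, Matrix.diag, tm_apply, mul_sum, ← sum_add_distrib]
  exact sum_congr rfl fun i _ => by ring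

theorem smul_tm (p q : Fin N → ℝ) (c m₁₁ m₁₂ m₂₂ : ℝ) :
    c • tm p q m₁₁ m₁₂ m₂₂ = tm p q (c * m₁₁) (c * m₁₂) (c * m₂₂) := by
  ext i k; simp only [Matrix.smul_apply, tm_apply, smul_eq_mul]; ring

theorem tm_sub (p q : Fin N → ℝ) (a b c a' b' c' : ℝ) :
    tm p q a b c - tm p q a' b' c' = tm p q (a - a') (b - b') (c - c') := by
  ext i k; simp only [Matrix.sub_apply, tm_apply]; ring

theorem tm_mul_self (p q : Fin N → ℝ) (a b c : ℝ) :
    tm p q a b c * tm p q a b c =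
      tm p q (a ^ 2 * (∑ i, p i * p i) + 2 * a * b * (∑ i, p i * q i) + b ^ 2 * ∑ i, q i * q i)
        (a * b * (∑ i, p i * p i) + (a * c + b ^ 2) * (∑ i, p i * q i) + b * c * ∑ i, q i * q i)
        (b ^ 2 * (∑ i, p i * p i) + 2 * b * c * (∑ i, p i * q i) + c ^ 2 * ∑ i, q i * q i) := by
  ext i k
  simp only [Matrix.mul_apply, tm_apply, add_mul, mul_add, mul_sum, ← sum_add_distrib]
  exact sum_congr rfl fun l _ => by ring

theorem e2_tm (p q : Fin N → ℝ) (a b c : ℝ) :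
    e2 (tm p q a b c) = (a * c - b ^ 2) * gram p q := by
  simp only [e2, tm_mul_self, trace_tm, gram]; ring

theorem imgProj_tm (p q : Fin N → ℝ) {a b c : ℝ} (hm : a * c - b ^ 2 ≠ 0) (hw : gram p q ≠ 0) :
    imgProj (tm p q a b c) = tm p q ((∑ i, q i * q i) / gram p q) (-(∑ i, p i * q i) / gram p q)
      ((∑ i, p i * p i) / gram p q) := by
  simp only [imgProj, e2_tm, tm_mul_self, trace_tm, smul_tm, tm_sub]
  congr 1 <;> field_simp <;> ring

theorem pinv_tm (p q : Fin N → ℝ) {a b c : ℝ} (hm : a * c - b ^ 2 ≠ 0) (hw : gram p q ≠ 0) :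
    let A := ∑ i, p i * p i
    let B := ∑ i, p i * q i
    let C := ∑ i, q i * q i
    let T := a * A + 2 * b * B + c * C
    let D := (a * c - b ^ 2) * gram p q
    pinv (tm p q a b c) = tm p q ((T * (C / gram p q) - a) / D) ((T * (-B / gram p q) - b) / D)
      ((T * (A / gram p q) - c) / D) := by
  simp only [pinv, e2_tm, imgProj_tm p q hm hw, trace_tm, smul_tm, tm_sub]
  congr 1 <;> ring

theorem tm_mulVec_cv (p q : Fin N → ℝ) (a b c : ℝ) (α : ℝ × ℝ) :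
    tm p q a b c *ᵥ cv p q α = cv p q
      (a * (α.1 * (∑ i, p i * p i) + α.2 * ∑ i, p i * q i) +
          b * (α.1 * (∑ i, p i * q i) + α.2 * ∑ i, q i * q i),
        b * (α.1 * (∑ i, p i * p i) + α.2 * ∑ i, p i * q i) +
          c * (α.1 * (∑ i, p i * q i) + α.2 * ∑ i, q i * q i)) := by
  funext i
  simp only [Matrix.mulVec, dotProduct, tm_apply, cv, add_mul, mul_add, mul_sum, sum_mul,
    ← sum_add_distrib]
  exact sum_congr rfl fun l _ => by ring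

theorem sharp_tm (p q : Fin N → ℝ) {a b c : ℝ} (hm : a * c - b ^ 2 ≠ 0) (hw : gram p q ≠ 0)
    (α : ℝ × ℝ) :
    let m := a * c - b ^ 2
    let u := (c * α.1 - b * α.2) / m
    let v := (a * α.2 - b * α.1) / m
    sharp (tm p q a b c) (cv p q α) = cv p q
      (((∑ i, q i * q i) * u - (∑ i, p i * q i) * v) / gram p q,
        (-(∑ i, p i * q i) * u + (∑ i, p i * p i) * v) / gram p q) := by
  simp only [sharp, pinv_tm p q hm hw, tm_mulVec_cv]
  congr 1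
  refine Prod.ext ?_ ?_ <;> field_simp <;> (try simp only [gram]) <;> ring_nf

theorem dot_cv (p q : Fin N → ℝ) (α β : ℝ × ℝ) :
    cv p q α ⬝ᵥ cv p q β = α.1 * β.1 * (∑ i, p i * p i) +
      (α.1 * β.2 + α.2 * β.1) * (∑ i, p i * q i) + α.2 * β.2 * ∑ i, q i * q i := by
  simp only [dotProduct, cv, mul_sum, ← sum_add_distrib]
  exact sum_congr rfl fun i _ => by ring

/-- The dual norm of a covector. -/
theorem nrm2_tm (p q : Fin N → ℝ) {a b c : ℝ} (hm : a * c - b ^ 2 ≠ 0) (hw : gram p q ≠ 0)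
    (α : ℝ × ℝ) :
    nrm2 (tm p q a b c) (cv p q α) =
      (c * α.1 ^ 2 - 2 * b * (α.1 * α.2) + a * α.2 ^ 2) / (a * c - b ^ 2) := by
  simp only [nrm2, sharp_tm p q hm hw, dot_cv]
  field_simp
  simp only [gram]
  ring_nf

/-- `rForm` is `qf` divided by `e2`, so it needs no pseudo-inverse. -/
theorem rForm_tm (p q : Fin N → ℝ) {a b c : ℝ} (hm : a * c - b ^ 2 ≠ 0) (hw : gram p q ≠ 0)
    (α : ℝ × ℝ) (t₁₁ t₁₂ t₂₂ : E) :
    rForm (tm p q a b c) (cv p q α) (tv p q t₁₁ t₁₂ t₂₂) =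
      (e2 (tm p q a b c))⁻¹ • qf (cv p q α) (cv p q α) (tv p q t₁₁ t₁₂ t₂₂) := by
  have hs : ∀ (m₁₁ m₁₂ m₂₂ : ℝ), ∑ i, ∑ k, tm p q m₁₁ m₁₂ m₂₂ i k • tv p q t₁₁ t₁₂ t₂₂ i k =
      (m₁₁ * (∑ i, p i * p i) ^ 2 + 2 * m₁₂ * ((∑ i, p i * p i) * ∑ i, p i * q i) +
          m₂₂ * (∑ i, p i * q i) ^ 2) • t₁₁ +
        (2 * (m₁₁ * ((∑ i, p i * p i) * ∑ i, p i * q i) +
          m₁₂ * ((∑ i, p i * q i) ^ 2 + (∑ i, p i * p i) * ∑ i, q i * q i) +
          m₂₂ * ((∑ i, p i * q i) * ∑ i, q i * q i))) • t₁₂ +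
        (m₁₁ * (∑ i, p i * q i) ^ 2 + 2 * m₁₂ * ((∑ i, p i * q i) * ∑ i, q i * q i) +
          m₂₂ * (∑ i, q i * q i) ^ 2) • t₂₂ := by
    intro m₁₁ m₁₂ m₂₂
    have e : ∀ i k, tm p q m₁₁ m₁₂ m₂₂ i k • tv p q t₁₁ t₁₂ t₂₂ i k =
        (m₁₁ * ((p i * p i) * (p k * p k)) + m₁₂ * ((p i * p i) * (p k * q k)) +
          m₁₂ * ((p i * q i) * (p k * p k)) + m₂₂ * ((p i * q i) * (p k * q k))) • t₁₁ +
        (m₁₁ * ((p i * p i) * (p k * q k)) + m₁₁ * ((p i * q i) * (p k * p k)) +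
          m₁₂ * ((p i * p i) * (q k * q k)) + 2 * m₁₂ * ((p i * q i) * (p k * q k)) +
          m₁₂ * ((q i * q i) * (p k * p k)) + m₂₂ * ((p i * q i) * (q k * q k)) +
          m₂₂ * ((q i * q i) * (p k * q k))) • t₁₂ +
        (m₁₁ * ((p i * q i) * (p k * q k)) + m₁₂ * ((p i * q i) * (q k * q k)) +
          m₁₂ * ((q i * q i) * (p k * q k)) + m₂₂ * ((q i * q i) * (q k * q k))) • t₂₂ := by
      intro i k
      simp only [tm_apply, tv]
      match_scalars <;> ring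
    simp only [e, sum_add_distrib, ← sum_smul, ← mul_sum, ← sum_mul]
    match_scalars <;> ring
  have ho : ∀ γ : ℝ × ℝ, ∑ i, ∑ k, (cv p q γ i * cv p q γ k) • tv p q t₁₁ t₁₂ t₂₂ i k =
      ((γ.1 * (∑ i, p i * p i) + γ.2 * ∑ i, p i * q i) ^ 2) • t₁₁ +
      (2 * ((γ.1 * (∑ i, p i * p i) + γ.2 * ∑ i, p i * q i) *
        (γ.1 * (∑ i, p i * q i) + γ.2 * ∑ i, q i * q i))) • t₁₂ +
      ((γ.1 * (∑ i, p i * q i) + γ.2 * ∑ i, q i * q i) ^ 2) • t₂₂ := by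
    intro γ
    have lin : ∀ r : Fin N → ℝ,
        ∑ i, cv p q γ i * r i = γ.1 * (∑ i, p i * r i) + γ.2 * ∑ i, q i * r i := fun r => by
      simp only [cv, mul_sum, ← sum_add_distrib]
      exact sum_congr rfl fun i _ => by ring
    have e : ∀ i k, (cv p q γ i * cv p q γ k) • tv p q t₁₁ t₁₂ t₂₂ i k =
        ((cv p q γ i * p i) * (cv p q γ k * p k)) • t₁₁ +
        ((cv p q γ i * p i) * (cv p q γ k * q k) + (cv p q γ i * q i) * (cv p q γ k * p k)) • t₁₂ +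
        ((cv p q γ i * q i) * (cv p q γ k * q k)) • t₂₂ := by
      intro i k
      simp only [tv]
      match_scalars <;> ring
    have hcomm : ∑ i, q i * p i = ∑ i, p i * q i := sum_congr rfl fun i _ => mul_comm _ _
    simp only [e, sum_add_distrib, ← sum_smul, ← mul_sum, ← sum_mul, lin, hcomm]
    match_scalars <;> ring
  simp only [rForm, nrm2_tm p q hm hw, sharp_tm p q hm hw, pinv_tm p q hm hw, hs, ho, qf_cv, co,
    e2_tm]
  have hm' : c * a - b ^ 2 ≠ 0 := by rwa [mul_comm c a]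
  match_scalars <;> field_simp [hm, hm', hw] <;> simp only [gram] <;> ring_nf

end Vale.Agent.P205.Full.Decomp
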