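import Vale.Agent.P205.Full.Stage.Calculus
import Vale.Agent.P205.Full.Stage.DecompRForm

/-!
# P205 stage, one mode: tensors in frame components

A tensor in frame components is `tv (vx V x) (vy V x) t₁₁ t₁₂ t₂₂`, with `vx`, `vy` the standard
coordinates of the frame vectors. If `qf a a E = 0` then `E = sym (a ⊗ zSol a E)`, all Euclidean
in the frame index.
-/

open scoped Manifold ContDiff RealInnerProductSpace Matrix
open Bundle

set_option linter.unusedSectionVars false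

namespace Vale.Agent.P205.Full.Stage

open Finset Decomp

noncomputable section

variable {M : Type} [TopologicalSpace M] [ChartedSpace R2 M] [IsManifold (𝓡 2) ∞ M]
variable {N : ℕ} {V : Frame M N} {x : M}

/-- A frame vector as an element of `ℝ²`. -/
def vec2 (V : Frame M N) (x : M) (i : Fin N) : R2 := V i x

/-- First standard coordinate of the frame vectors. -/
def vx (V : Frame M N) (x : M) : Fin N → ℝ := fun i => vec2 V x i 0

/-- Second standard coordinate of the frame vectors. -/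
def vy (V : Frame M N) (x : M) : Fin N → ℝ := fun i => vec2 V x i 1

/-- `E` is, at `x`, a symmetric form on the tangent plane in frame components. -/
def TensAt {W : Type*} [NormedAddCommGroup W] [NormedSpace ℝ W] (V : Frame M N) (x : M)
    (E : Fin N → Fin N → W) : Prop :=
  ∃ t₁₁ t₁₂ t₂₂ : W, E = tv (vx V x) (vy V x) t₁₁ t₁₂ t₂₂

theorem R2_eq_sum (v : R2) :
    v = v 0 • EuclideanSpace.single (0 : Fin 2) (1 : ℝ) +
      v 1 • EuclideanSpace.single (1 : Fin 2) (1 : ℝ) := by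
  ext j
  fin_cases j <;> simp

theorem gram_vxy_ne_zero (hs : Submodule.span ℝ (Set.range fun i => V i x) = ⊤) :
    gram (vx V x) (vy V x) ≠ 0 := by
  intro h0
  set p := vx V x with hp
  set q := vy V x with hq
  have key : ∀ i j, p i * q j = p j * q i := by
    have h2 : ∑ i, ∑ j, (p i * q j - p j * q i) ^ 2 = 2 * gram p q := by
      have e : ∀ i j : Fin N, (p i * q j - p j * q i) ^ 2 =
          p i * p i * (q j * q j) + q i * q i * (p j * p j) -
            2 * (p i * q i * (p j * q j)) := fun i j => by ring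
      simp only [e, sum_sub_distrib, sum_add_distrib, ← mul_sum, ← sum_mul, gram]
      ring
    rw [h0, mul_zero] at h2
    intro i j
    have h3 := (sum_eq_zero_iff_of_nonneg fun i _ => sum_nonneg fun j _ => sq_nonneg _).1 h2 i
      (mem_univ i)
    have h4 := (sum_eq_zero_iff_of_nonneg fun j _ => sq_nonneg _).1 h3 j (mem_univ j)
    exact sub_eq_zero.1 (pow_eq_zero_iff two_ne_zero |>.1 h4)
  have hall : ∀ (φ : R2 →ₗ[ℝ] ℝ), (∀ i, φ (vec2 V x i) = 0) → ∀ w : R2, φ w = 0 := by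
    intro φ hφ w
    have hs' : Submodule.span ℝ (Set.range fun i => vec2 V x i) = (⊤ : Submodule ℝ R2) := hs
    have hw : w ∈ Submodule.span ℝ (Set.range fun i => vec2 V x i) := by rw [hs']; trivial
    induction hw using Submodule.span_induction with
    | mem v hv => obtain ⟨i, rfl⟩ := hv; exact hφ i
    | zero => simp
    | add a b _ _ ha hb => simp [ha, hb]
    | smul c a _ ha => simp [ha]
  let c0 : R2 →ₗ[ℝ] ℝ := (EuclideanSpace.proj (𝕜 := ℝ) (0 : Fin 2)).toLinearMap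
  let c1 : R2 →ₗ[ℝ] ℝ := (EuclideanSpace.proj (𝕜 := ℝ) (1 : Fin 2)).toLinearMap
  have hz : ∀ j, p j = 0 ∧ q j = 0 := by
    intro j
    have h := hall (p j • c1 - q j • c0) fun i => by
      simp only [LinearMap.sub_apply, LinearMap.smul_apply, smul_eq_mul]
      show p j * vec2 V x i 1 - q j * vec2 V x i 0 = 0
      have := key i j
      simp only [hp, hq, vx, vy] at this ⊢
      linarith
    have h1 := h (EuclideanSpace.single 1 1)
    have h2 := h (EuclideanSpace.single 0 1)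
    simp [c0, c1] at h1 h2
    exact ⟨h1, h2⟩
  have := hall c0 (fun i => (hz i).1) (EuclideanSpace.single 0 1)
  simp [c0] at this

/-- A bilinear form gives a tensor. -/
theorem tensAt_of_form {W : Type*} [NormedAddCommGroup W] [NormedSpace ℝ W]
    (B : R2 →ₗ[ℝ] R2 →ₗ[ℝ] W) (hB : ∀ u v, B u v = B v u) :
    TensAt V x (fun i k => B (vec2 V x i) (vec2 V x k)) := by
  refine ⟨B (EuclideanSpace.single 0 1) (EuclideanSpace.single 0 1),
    B (EuclideanSpace.single 0 1) (EuclideanSpace.single 1 1),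
    B (EuclideanSpace.single 1 1) (EuclideanSpace.single 1 1), funext fun i => funext fun k => ?_⟩
  conv_lhs => rw [R2_eq_sum (vec2 V x i), R2_eq_sum (vec2 V x k)]
  simp only [map_add, map_smul, LinearMap.add_apply, LinearMap.smul_apply, tv, vx, vy,
    hB (EuclideanSpace.single 1 1) (EuclideanSpace.single 0 1)]
  module

/-- A linear functional gives a covector in frame components. -/
theorem cv_of_linear (φ : R2 →ₗ[ℝ] ℝ) :
    (fun i => φ (vec2 V x i)) = cv (vx V x) (vy V x)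
      (φ (EuclideanSpace.single 0 1), φ (EuclideanSpace.single 1 1)) := by
  funext i
  conv_lhs => rw [R2_eq_sum (vec2 V x i)]
  simp [cv, vx, vy, mul_comm]

theorem exists_cov_eq_cv (Y : M → ℝ) :
    ∃ α : ℝ × ℝ, cov V Y x = cv (vx V x) (vy V x) α := by
  let φ : R2 →ₗ[ℝ] ℝ := (mfderiv (𝓡 2) 𝓘(ℝ, ℝ) Y x).toLinearMap
  exact ⟨_, cv_of_linear (V := V) (x := x) φ⟩

/-! ### The Euclidean solution of `E = sym (a ⊗ Z)` -/

/-- `Z` with `E i k = a i * Z k + a k * Z i` whenever `qf a a E = 0`. -/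
def zSol (a : Fin N → ℝ) (E : Fin N → Fin N → ℝ) : Fin N → ℝ := fun i =>
  (∑ k, E i k * a k) / (a ⬝ᵥ a) - a i * (∑ j, ∑ l, a j * E j l * a l) / (2 * (a ⬝ᵥ a) ^ 2)

theorem zSol_zero (a : Fin N → ℝ) : zSol a (fun _ _ => 0) = 0 := by
  funext i; simp [zSol]

theorem exists_sym_of_qf_zero {p q : Fin N → ℝ} (hw : gram p q ≠ 0) {α : ℝ × ℝ}
    (hα : cv p q α ≠ 0) {t₁₁ t₁₂ t₂₂ : ℝ}
    (h : qf (cv p q α) (cv p q α) (tv p q t₁₁ t₁₂ t₂₂) = 0) :
    ∃ ζ : ℝ × ℝ, ∀ i k, tv p q t₁₁ t₁₂ t₂₂ i k =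
      cv p q α i * cv p q ζ k + cv p q α k * cv p q ζ i := by
  rw [qf_cv, smul_eq_mul, mul_eq_zero] at h
  have h' : co α α t₁₁ t₁₂ t₂₂ = 0 := h.resolve_left hw
  simp only [co, smul_eq_mul] at h'
  by_cases h1 : α.1 = 0
  · have h2 : α.2 ≠ 0 := fun h2 => hα <| funext fun i => by simp [cv, h1, h2]
    have h11 : t₁₁ = 0 := by
      have : α.2 * α.2 * t₁₁ = 0 := by rw [h1] at h'; linear_combination h'
      simpa [h2] using this
    refine ⟨(t₁₂ / α.2, t₂₂ / (2 * α.2)), fun i k => ?_⟩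
    simp only [tv, cv, smul_eq_mul, h1, h11]
    field_simp
    ring
  · refine ⟨(t₁₁ / (2 * α.1), (t₁₂ - α.2 * (t₁₁ / (2 * α.1))) / α.1), fun i k => ?_⟩
    simp only [tv, cv, smul_eq_mul]
    field_simp
    linear_combination 2 * (q i * q k) * h'

theorem eq_zSol {a : Fin N → ℝ} {E : Fin N → Fin N → ℝ} {Z : Fin N → ℝ} (ha : a ≠ 0)
    (hE : ∀ i k, E i k = a i * Z k + a k * Z i) : zSol a E = Z := by
  have hA : a ⬝ᵥ a ≠ 0 := fun h => ha (dotProduct_self_eq_zero.1 h)
  funext i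
  have h1 : ∀ i, ∑ k, E i k * a k = a i * (a ⬝ᵥ Z) + (a ⬝ᵥ a) * Z i := fun i => by
    simp only [hE, dotProduct, mul_sum, sum_mul, ← sum_add_distrib]
    exact sum_congr rfl fun k _ => by ring
  have h2 : ∑ j, ∑ l, a j * E j l * a l = 2 * ((a ⬝ᵥ a) * (a ⬝ᵥ Z)) := by
    have : ∀ j, ∑ l, a j * E j l * a l = a j * ∑ l, E j l * a l := fun j => by
      rw [mul_sum]; exact sum_congr rfl fun l _ => by ring
    simp only [this, h1]
    have e1 : ∀ j, a j * (a j * (a ⬝ᵥ Z) + (a ⬝ᵥ a) * Z j) =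
        a j * a j * (a ⬝ᵥ Z) + (a ⬝ᵥ a) * (a j * Z j) := fun j => by ring
    simp only [e1, sum_add_distrib, ← sum_mul, ← mul_sum]
    simp only [dotProduct]
    ring
  simp only [zSol, h1, h2]
  field_simp
  ring

theorem qf_zero_solve (hs : Submodule.span ℝ (Set.range fun i => V i x) = ⊤) {Y : M → ℝ}
    (ha : cov V Y x ≠ 0) {E : Fin N → Fin N → ℝ} (hE : TensAt V x E)
    (h : qf (cov V Y x) (cov V Y x) E = 0) :
    (∀ i k, E i k = cov V Y x i * zSol (cov V Y x) E k + cov V Y x k * zSol (cov V Y x) E i) ∧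
      ∃ ζ, zSol (cov V Y x) E = cv (vx V x) (vy V x) ζ := by
  obtain ⟨α, hα⟩ := exists_cov_eq_cv (V := V) (x := x) Y
  obtain ⟨t₁₁, t₁₂, t₂₂, rfl⟩ := hE
  rw [hα] at ha h ⊢
  obtain ⟨ζ, hζ⟩ := exists_sym_of_qf_zero (gram_vxy_ne_zero hs) ha h
  have hz := eq_zSol ha hζ
  exact ⟨fun i k => by rw [hz]; exact hζ i k, ζ, hz⟩

end

end Vale.Agent.P205.Full.Stage
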