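import Vale.Agent.P205.Full.Stage.Setup
import Vale.Agent.P205.Full.Stage.SolveTensor
import Vale.Agent.P205.Full.Stage.DecompCoord

/-!
# P205 stage: the projection of a matrix on the tensors, with uniform bounds

`projTens g V ℓ x E = Π sym(E) Π`, `Π` the image projector of `gV / ℓ²`. Its value is always a
tensor (`tensAt_projTens`) and it fixes tensors (`projTens_eq_self`).
-/

open scoped Manifold ContDiff RealInnerProductSpace Matrix Topology
open Bundle Filter

set_option linter.unusedSectionVars false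

namespace Vale.Agent.P205.Full.Stage

open Finset Decomp

noncomputable section

variable {M : Type} [TopologicalSpace M] [ChartedSpace R2 M] [IsManifold (𝓡 2) ∞ M]
variable {N P : ℕ} {V : Frame M N} {x : M}

/-- The metric in frame components, divided by `ℓ²`. -/
def gNorm (g : Metric M) (V : Frame M N) (ℓ : M → ℝ) (x : M) : Matrix (Fin N) (Fin N) ℝ :=
  Matrix.of fun i k => gV g V i k x / ℓ x ^ 2

/-- `Π sym(E) Π`. -/
def projTens (g : Metric M) (V : Frame M N) (ℓ : M → ℝ) (x : M) (E : Fin N → Fin N → ℝ) :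
    Fin N → Fin N → ℝ :=
  fun i k => ∑ j, ∑ l, imgProj (gNorm g V ℓ x) i j * imgProj (gNorm g V ℓ x) k l *
    ((E j l + E l j) / 2)

theorem exists_gNorm_eq_tm (g : Metric M) (ℓ : M → ℝ) (hℓ : ℓ x ≠ 0) :
    ∃ A B C : ℝ, A * C - B ^ 2 ≠ 0 ∧ gNorm g V ℓ x = tm (vx V x) (vy V x) A B C := by
  set e0 : R2 := EuclideanSpace.single 0 1
  set e1 : R2 := EuclideanSpace.single 1 1
  let b := Plane.metricForm g x
  have hb : ∀ u v : R2, b u v = b v u := fun u v => g.symm x u v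
  refine ⟨b e0 e0 / ℓ x ^ 2, b e0 e1 / ℓ x ^ 2, b e1 e1 / ℓ x ^ 2, ?_, ?_⟩
  · have hne : ∀ r : ℝ, e1 - r • e0 ≠ 0 := fun r h => by
      have := congrArg (fun z : R2 => z 1) h
      simp [e0, e1] at this
    have h0 : 0 < b e0 e0 := g.pos x e0 fun h => by
      have := congrArg (fun z : R2 => z 0) (show e0 = 0 from h)
      simp [e0] at this
    have h1 : 0 < b (e1 - (b e0 e1 / b e0 e0) • e0) (e1 - (b e0 e1 / b e0 e0) • e0) :=
      g.pos x _ (hne _)
    simp only [map_sub, map_smul, LinearMap.sub_apply, LinearMap.smul_apply, smul_eq_mul,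
      hb e1 e0] at h1
    field_simp at h1
    intro h
    field_simp at h
    nlinarith
  · ext i k
    have hv : ∀ j, (V j x : R2) = vx V x j • e0 + vy V x j • e1 := fun j => R2_eq_sum (vec2 V x j)
    show b (V i x : R2) (V k x : R2) / ℓ x ^ 2 = _
    rw [hv i, hv k]
    simp only [map_add, map_smul, LinearMap.add_apply, LinearMap.smul_apply, smul_eq_mul,
      hb e1 e0, tm_apply]
    field_simp
    ring

theorem exists_imgProj_eq (g : Metric M) (ℓ : M → ℝ) (hℓ : ℓ x ≠ 0)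
    (hs : Submodule.span ℝ (Set.range fun i => V i x) = ⊤) :
    let p := vx V x
    let q := vy V x
    imgProj (gNorm g V ℓ x) = tm p q ((∑ i, q i * q i) / gram p q)
      (-(∑ i, p i * q i) / gram p q) ((∑ i, p i * p i) / gram p q) := by
  obtain ⟨A, B, C, hm, hG⟩ := exists_gNorm_eq_tm (V := V) g ℓ hℓ
  simp only [hG]
  exact imgProj_tm _ _ hm (gram_vxy_ne_zero hs)

theorem tensAt_projTens (g : Metric M) (ℓ : M → ℝ) (hℓ : ℓ x ≠ 0)
    (hs : Submodule.span ℝ (Set.range fun i => V i x) = ⊤) (E : Fin N → Fin N → ℝ) :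
    TensAt V x (projTens g V ℓ x E) := by
  set p := vx V x with hp
  set q := vy V x with hq
  set S : Fin N → Fin N → ℝ := fun j l => (E j l + E l j) / 2 with hS
  have hS' : ∀ j l, S j l = S l j := fun j l => by simp only [hS]; ring
  have h := exists_imgProj_eq (V := V) g ℓ hℓ hs
  simp only [← hp, ← hq] at h
  set a := (∑ i, q i * q i) / gram p q
  set b := -(∑ i, p i * q i) / gram p q
  set c := (∑ i, p i * p i) / gram p q
  set u : Fin N → ℝ := fun j => p j * a + q j * b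
  set w : Fin N → ℝ := fun j => p j * b + q j * c
  refine ⟨∑ j, ∑ l, u j * u l * S j l, ∑ j, ∑ l, u j * w l * S j l, ∑ j, ∑ l, w j * w l * S j l,
    funext fun i => funext fun k => ?_⟩
  have hsym : ∑ j, ∑ l, w j * u l * S j l = ∑ j, ∑ l, u j * w l * S j l := by
    rw [sum_comm]
    exact sum_congr rfl fun j _ => sum_congr rfl fun l _ => by rw [hS' l j]; ring
  simp only [projTens, h, tm_apply, tv, smul_eq_mul, ← hp, ← hq]
  have e : ∀ j l, (p i * p j * a + (p i * q j + q i * p j) * b + q i * q j * c) *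
      (p k * p l * a + (p k * q l + q k * p l) * b + q k * q l * c) * ((E j l + E l j) / 2) =
      p i * p k * (u j * u l * S j l) + p i * q k * (u j * w l * S j l) +
        q i * p k * (w j * u l * S j l) + q i * q k * (w j * w l * S j l) := fun j l => by
    simp only [u, w, hS]; ring
  simp only [e, sum_add_distrib, ← mul_sum, hsym]
  ring

theorem projTens_eq_self (g : Metric M) (ℓ : M → ℝ) (hℓ : ℓ x ≠ 0)
    (hs : Submodule.span ℝ (Set.range fun i => V i x) = ⊤) {E : Fin N → Fin N → ℝ}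
    (hE : TensAt V x E) : projTens g V ℓ x E = E := by
  obtain ⟨t₁₁, t₁₂, t₂₂, rfl⟩ := hE
  have hw := gram_vxy_ne_zero hs
  have h := exists_imgProj_eq (V := V) g ℓ hℓ hs
  simp only at h
  set p := vx V x
  set q := vy V x
  have hp : ∀ i, ∑ j, imgProj (gNorm g V ℓ x) i j * p j = p i := fun i => by
    have h1 : ∀ j, imgProj (gNorm g V ℓ x) i j * p j =
        (p i * ((∑ i, q i * q i) / gram p q) + q i * (-(∑ i, p i * q i) / gram p q)) * (p j * p j) +
        (p i * (-(∑ i, p i * q i) / gram p q) + q i * ((∑ i, p i * p i) / gram p q)) *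
          (p j * q j) := fun j => by rw [h, tm_apply]; ring
    simp only [h1, sum_add_distrib, ← mul_sum]
    field_simp
    simp only [gram]
    ring_nf
  have hq : ∀ i, ∑ j, imgProj (gNorm g V ℓ x) i j * q j = q i := fun i => by
    have h1 : ∀ j, imgProj (gNorm g V ℓ x) i j * q j =
        (p i * ((∑ i, q i * q i) / gram p q) + q i * (-(∑ i, p i * q i) / gram p q)) * (p j * q j) +
        (p i * (-(∑ i, p i * q i) / gram p q) + q i * ((∑ i, p i * p i) / gram p q)) *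
          (q j * q j) := fun j => by rw [h, tm_apply]; ring
    simp only [h1, sum_add_distrib, ← mul_sum]
    field_simp
    simp only [gram]
    ring_nf
  funext i k
  have e : ∀ j l, imgProj (gNorm g V ℓ x) i j * imgProj (gNorm g V ℓ x) k l *
      ((tv p q t₁₁ t₁₂ t₂₂ j l + tv p q t₁₁ t₁₂ t₂₂ l j) / 2) =
      (imgProj (gNorm g V ℓ x) i j * p j) * (imgProj (gNorm g V ℓ x) k l * p l) * t₁₁ +
      ((imgProj (gNorm g V ℓ x) i j * p j) * (imgProj (gNorm g V ℓ x) k l * q l) +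
        (imgProj (gNorm g V ℓ x) i j * q j) * (imgProj (gNorm g V ℓ x) k l * p l)) * t₁₂ +
      (imgProj (gNorm g V ℓ x) i j * q j) * (imgProj (gNorm g V ℓ x) k l * q l) * t₂₂ :=
    fun j l => by simp only [tv, smul_eq_mul]; ring
  simp only [projTens, e, sum_add_distrib, ← sum_mul, ← mul_sum, hp, hq]
  simp only [tv, smul_eq_mul]

theorem TensAt.symm {W : Type*} [NormedAddCommGroup W] [NormedSpace ℝ W]
    {E : Fin N → Fin N → W} (h : TensAt V x E) (i k : Fin N) : E i k = E k i := by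
  obtain ⟨a, b, c, rfl⟩ := h
  simp only [tv]
  rw [mul_comm (vx V x i), mul_comm (vy V x i) (vy V x k)]
  congr 2
  congr 1
  ring

theorem tensAt_sff' (hV : FrameSmooth V) {F : M → R4}
    (hF : ContMDiffAt (𝓡 2) 𝓘(ℝ, R4) ∞ F x) : TensAt V x (fun i k => sff F V i k x) := by
  obtain ⟨h, hs, he⟩ := exists_sff_tensor hV hF
  simp only [he]
  exact tensAt_of_form (V := V) (x := x) h hs

theorem tensAt_gV (g : Metric M) : TensAt V x (fun i k => gV g V i k x) :=
  tensAt_of_form (V := V) (x := x) (Plane.metricForm g x) fun u v => g.symm x u v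

theorem tensAt_inner_D {F G : M → R4} :
    TensAt V x (fun i k => ⟪D V i F x, D V k G x⟫ + ⟪D V k F x, D V i G x⟫) := by
  let A : R2 →ₗ[ℝ] R4 := (mfderiv (𝓡 2) 𝓘(ℝ, R4) F x).toLinearMap
  let B : R2 →ₗ[ℝ] R4 := (mfderiv (𝓡 2) 𝓘(ℝ, R4) G x).toLinearMap
  let Φ : R2 →ₗ[ℝ] R2 →ₗ[ℝ] ℝ := (innerₗ R4).compl₁₂ A B + ((innerₗ R4).compl₁₂ A B).flip
  exact tensAt_of_form (V := V) (x := x) Φ fun u v => add_comm _ _

theorem tensAt_pullV {F : M → R4} : TensAt V x (fun i k => pullV F V i k x) := by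
  let A : R2 →ₗ[ℝ] R4 := (mfderiv (𝓡 2) 𝓘(ℝ, R4) F x).toLinearMap
  exact tensAt_of_form (V := V) (x := x) ((innerₗ R4).compl₁₂ A A) fun u v =>
    (real_inner_comm (A v) (A u) :)

/-- The lower bound of the second invariant of the normalised metric. -/
theorem e2_gNorm_lower (g : Metric M) {ℓ : M → ℝ} (hℓ : 0 < ℓ x) {B : ℝ}
    (hlo : ∀ v : TangentSpace (𝓡 2) x,
      ℓ x ^ 2 * g.inner x v v ≤ B * ∑ i, (g.inner x (V i x) v) ^ 2)
    (hup : ∀ v : TangentSpace (𝓡 2) x,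
      ∑ i, (g.inner x (V i x) v) ^ 2 ≤ B * (ℓ x ^ 2 * g.inner x v v)) :
    0 < B ∧ (B ^ 2)⁻¹ ≤ e2 (gNorm g V ℓ x) := by
  obtain ⟨c⟩ := exists_coord' g V hℓ.ne' x
  obtain ⟨hB, -, -, hg⟩ := c.bounds hℓ hlo hup
  refine ⟨hB, ?_⟩
  have h : gNorm g V ℓ x = tm c.p c.q 1 0 1 := by
    ext i k
    simp only [gNorm, Matrix.of_apply, c.gV_eq, tm_apply, tv, smul_eq_mul]
    field_simp [hℓ.ne']
    ring
  rw [h, e2_tm]
  simpa using hg

/-! ### Uniform bounds -/

variable {𝒞 : Set (Ctx N P)} {S : SetF N P} {k : ℕ} {μ : Fld N P ℝ}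

theorem UBOn.trace {G : ∀ c : Ctx N P, c.M → Matrix (Fin N) (Fin N) ℝ}
    (hG : ∀ i j, UBOn 𝒞 S k one (fun c x => G c x i j)) :
    UBOn 𝒞 S k one (fun c x => (G c x).trace) :=
  UBOn.sum _ fun j _ => hG j j

theorem UBOn.mat_mul {G : ∀ c : Ctx N P, c.M → Matrix (Fin N) (Fin N) ℝ}
    (hG : ∀ i j, UBOn 𝒞 S k one (fun c x => G c x i j)) (i j : Fin N) :
    UBOn 𝒞 S k one (fun c x => (G c x * G c x) i j) := by
  simp only [Matrix.mul_apply]
  exact UBOn.sum _ fun l _ => (hG i l).mul_one (hG l j)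

theorem UBOn.inv_e2 {G : ∀ c : Ctx N P, c.M → Matrix (Fin N) (Fin N) ℝ}
    (hG : ∀ i j, UBOn 𝒞 S k one (fun c x => G c x i j)) {δ : ℝ} (hδ : 0 < δ)
    (hl : ∀ c ∈ 𝒞, ∀ x ∈ S c, δ ≤ e2 (G c x)) :
    UBOn 𝒞 S k one (fun c x => (e2 (G c x))⁻¹) := by
  refine UBOn.inv_of_lower ?_ hδ fun c hc x hx => (hl c hc x hx).trans (le_abs_self _)
  have h := (((UBOn.trace hG).mul_one (UBOn.trace hG)).sub
    (UBOn.trace (G := fun c x => G c x * G c x) (UBOn.mat_mul hG))).const_mul (1 / 2)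
  exact h.congr_eq fun c _ => funext fun x => by simp only [e2]; ring

theorem UBOn.imgProj_apply {G : ∀ c : Ctx N P, c.M → Matrix (Fin N) (Fin N) ℝ}
    (hG : ∀ i j, UBOn 𝒞 S k one (fun c x => G c x i j)) {δ : ℝ} (hδ : 0 < δ)
    (hl : ∀ c ∈ 𝒞, ∀ x ∈ S c, δ ≤ e2 (G c x)) (i j : Fin N) :
    UBOn 𝒞 S k one (fun c x => imgProj (G c x) i j) :=
  ((UBOn.inv_e2 hG hδ hl).mul_one
    (((UBOn.trace hG).mul_one (hG i j)).sub (UBOn.mat_mul hG i j))).congr_eq fun c _ =>
      funext fun x => by simp [imgProj, Matrix.smul_apply, Matrix.sub_apply]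

theorem UBOn.pinv_apply {G : ∀ c : Ctx N P, c.M → Matrix (Fin N) (Fin N) ℝ}
    (hG : ∀ i j, UBOn 𝒞 S k one (fun c x => G c x i j)) {δ : ℝ} (hδ : 0 < δ)
    (hl : ∀ c ∈ 𝒞, ∀ x ∈ S c, δ ≤ e2 (G c x)) (i j : Fin N) :
    UBOn 𝒞 S k one (fun c x => pinv (G c x) i j) :=
  ((UBOn.inv_e2 hG hδ hl).mul_one
    (((UBOn.trace hG).mul_one (UBOn.imgProj_apply hG hδ hl i j)).sub (hG i j))).congr_eq fun c _ =>
      funext fun x => by simp [pinv, Matrix.smul_apply, Matrix.sub_apply]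

/-- The projection keeps every weight. -/
theorem UBOn.projTens {E : Fin N → Fin N → Fld N P ℝ}
    (hg : ∀ i j, UBOn 𝒞 S k one (fun c x => gNorm c.g c.V c.ℓ x i j)) {δ : ℝ} (hδ : 0 < δ)
    (hl : ∀ c ∈ 𝒞, ∀ x ∈ S c, δ ≤ e2 (gNorm c.g c.V c.ℓ x))
    (hE : ∀ i j, UBOn 𝒞 S k μ (E i j)) (i j : Fin N) :
    UBOn 𝒞 S k μ (fun c x => projTens c.g c.V c.ℓ x (fun a b => E a b c x) i j) := by
  have hp := UBOn.imgProj_apply hg hδ hl
  refine UBOn.sum _ fun a _ => UBOn.sum _ fun b _ =>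
    ((hp i a).mul_one (hp j b)).one_mul ?_
  exact (((hE a b).add (hE b a)).const_mul (1 / 2)).congr_eq fun c _ => funext fun x => by ring

end

end Vale.Agent.P205.Full.Stage
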