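import Vale.Agent.P205.Full.Stage.Solve
import Vale.Agent.P205.Full.Stage.TensorBd

/-!
# P205 stage: uniform bounds on the solution of one mode

`E` has weight `μ` (not normalised). Then `vSol` has weight `μ / (ℓ H)` where `‖pE‖ ≥ c ℓ H`, and
`xSol` has weight `ε μ / ℓ` where `a · a ≥ c`; if `qf a a E = 0` no bound on `pE` is needed.
-/

open scoped Manifold ContDiff RealInnerProductSpace Matrix Topology
open Bundle Filter

set_option linter.unusedSectionVars false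

namespace Vale.Agent.P205.Full.Stage

open Finset Decomp

noncomputable section

variable {N P : ℕ} {𝒞 : Set (Ctx N P)} {S : SetF N P} {k : ℕ} {μ : Fld N P ℝ}
variable {a : ∀ c : Ctx N P, c.M → Fin N → ℝ} {E : Fin N → Fin N → Fld N P ℝ}

/-- The weight of the second fundamental form. -/
def hWt : Fld N P ℝ := fun c x => c.ℓ x * c.H x

/-- The geometric bounds used by the solve. -/
structure SolveGeom (𝒞 : Set (Ctx N P)) (S : SetF N P) (k : ℕ) : Prop where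
  ℓ_pos : ∀ c ∈ 𝒞, ∀ x, 0 < c.ℓ x
  H_pos : ∀ c ∈ 𝒞, ∀ x, 0 < c.H x
  ε_nonneg : ∀ c ∈ 𝒞, 0 ≤ c.ε
  ub_ℓ : UBOn 𝒞 S k (fun c => c.ℓ) (fun c => c.ℓ)
  ub_H : UBOn 𝒞 S k (fun c => c.H) (fun c => c.H)
  ub_dF : ∀ i, UBOn 𝒞 S k (fun c => c.ℓ) (fun c => D c.V i c.F)
  ub_sff : ∀ i j, UBOn 𝒞 S k hWt (fun c => sff c.F c.V i j)

/-- `pE` as a family. -/
def pEF (a : ∀ c : Ctx N P, c.M → Fin N → ℝ) : Fld N P R4 := fun c => pE c.F c.V (a c)

/-- `vSol` as a family. -/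
def vF (a : ∀ c : Ctx N P, c.M → Fin N → ℝ) (E : Fin N → Fin N → Fld N P ℝ) : Fld N P R4 :=
  fun c => vSol c.F c.V (a c) (fun i j => E i j c)

/-- `eRest` as a family. -/
def eF (a : ∀ c : Ctx N P, c.M → Fin N → ℝ) (E : Fin N → Fin N → Fld N P ℝ) (i j : Fin N) :
    Fld N P ℝ :=
  fun c => eRest c.F c.V (a c) (fun i j => E i j c) i j

/-- `xSol` as a family. -/
def xF (a : ∀ c : Ctx N P, c.M → Fin N → ℝ) (E : Fin N → Fin N → Fld N P ℝ) : Fld N P R4 :=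
  fun c => xSol c.F c.V c.ℓ c.ε (a c) (fun i j => E i j c)

variable (hG : SolveGeom 𝒞 S k) (ha : ∀ i, UBOn 𝒞 S k one (fun c x => a c x i))

theorem UBOn.qf {W : Type} [NormedAddCommGroup W] [NormedSpace ℝ W]
    (ha : ∀ i, UBOn 𝒞 S k one (fun c x => a c x i)) {T : Fin N → Fin N → Fld N P W}
    (hT : ∀ i j, UBOn 𝒞 S k μ (T i j)) :
    UBOn 𝒞 S k μ (fun c x => qf (a c x) (a c x) (fun i j => T i j c x)) :=
  ((UBOn.sum _ fun i _ => (ha i).mul_one (ha i)).smul_one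
    (UBOn.sum _ fun l _ => hT l l)).sub
    (UBOn.sum _ fun i _ => UBOn.sum _ fun j _ => ((ha i).mul_one (ha j)).smul_one (hT i j))

include hG

theorem SolveGeom.hWt_pos : ∀ c ∈ 𝒞, ∀ x, 0 < hWt c x :=
  fun c hc x => mul_pos (hG.ℓ_pos c hc x) (hG.H_pos c hc x)

theorem SolveGeom.ub_hWt : UBOn 𝒞 S k hWt hWt := hG.ub_ℓ.mul hG.ub_H

theorem SolveGeom.ub_ε : UBOn 𝒞 S k (fun c _ => c.ε) (fun c _ => c.ε) :=
  ⟨fun _ _ _ _ => contMDiffAt_const, 1, zero_le_one, fun c hc =>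
    bdOn_const c.ε fun x _ => by rw [one_mul, Real.norm_eq_abs, abs_of_nonneg (hG.ε_nonneg c hc)]⟩

theorem SolveGeom.ub_gmat (i j : Fin N) :
    UBOn 𝒞 S k one (fun c x => gmat c.F c.V c.ℓ x i j) := by
  have hl := hG.ub_ℓ.inv_weight fun c hc x _ => hG.ℓ_pos c hc x
  refine ((((hG.ub_dF i).inner (hG.ub_dF j)).mul (hl.mul hl)).mono_weight zero_le_one
    fun c hc x _ => le_of_eq ?_).congr_eq fun c _ => funext fun x => ?_
  · have := (hG.ℓ_pos c hc x).ne'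
    simp only [one]
    field_simp
  · simp only [gmat, Matrix.of_apply, pullV]
    ring

include ha

theorem SolveGeom.ub_pE : UBOn 𝒞 S k hWt (pEF a) :=
  UBOn.qf (T := fun i j c => sff c.F c.V i j) ha hG.ub_sff

/-- The normal part. -/
theorem SolveGeom.ub_v (hE : ∀ i j, UBOn 𝒞 S k μ (E i j)) {c₀ : ℝ} (hc₀ : 0 < c₀)
    (hP : ∀ c ∈ 𝒞, ∀ x ∈ S c, c₀ * hWt c x ≤ ‖pEF a c x‖) :
    UBOn 𝒞 S k (fun c x => μ c x * (hWt c x)⁻¹) (vF a E) := by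
  have hw := hG.ub_hWt.inv_weight fun c hc x _ => hG.hWt_pos c hc x
  have hp : UBOn 𝒞 S k one (fun c x => (hWt c x)⁻¹ • pEF a c x) :=
    (hw.smul (hG.ub_pE ha)).mono_weight zero_le_one fun c hc x _ => by
      simp [one, (hG.hWt_pos c hc x).ne']
  have hinv := UBOn.inv_of_lower (hp.inner hp |>.mono_weight (ν := one) zero_le_one
    fun c _ x _ => by simp [one]) (δ := c₀ ^ 2) (by positivity) fun c hc x hx => by
      have h := hG.hWt_pos c hc x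
      rw [real_inner_self_eq_norm_sq, norm_smul, Real.norm_eq_abs, abs_inv, abs_of_pos h,
        abs_of_nonneg (by positivity)]
      gcongr
      rw [le_inv_mul_iff₀ h, mul_comm]
      exact hP c hc x hx
  refine ((((UBOn.qf ha hE).const_mul (-(1 / 2))).mul_one hinv).smul
    ((hw.smul hp).mono_weight zero_le_one fun c _ x _ => le_rfl.trans (by simp [one]))).congr_eq fun c hc => funext fun x => ?_
  have h := (hG.hWt_pos c hc x).ne'
  simp only [vF, vSol, pEF, real_inner_smul_left, real_inner_smul_right, smul_smul]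
  congr 1
  generalize ⟪pE c.F c.V (a c) x, pE c.F c.V (a c) x⟫ = t
  rcases eq_or_ne t 0 with rfl | h0
  · simp
  · field_simp

/-- The tangential part, given the normal part. -/
theorem SolveGeom.ub_x (he : ∀ i j, UBOn 𝒞 S k μ (eF a E i j)) {c₁ δ : ℝ} (hc₁ : 0 < c₁)
    (hδ : 0 < δ) (hA : ∀ c ∈ 𝒞, ∀ x ∈ S c, c₁ ≤ a c x ⬝ᵥ a c x)
    (hl : ∀ c ∈ 𝒞, ∀ x ∈ S c, δ ≤ e2 (gmat c.F c.V c.ℓ x)) :
    UBOn 𝒞 S k (fun c x => c.ε * μ c x * (c.ℓ x)⁻¹) (xF a E) := by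
  have hA' := (UBOn.sum univ fun i _ => (ha i).mul_one (ha i)).inv_of_lower hc₁
    fun c hc x hx => (hA c hc x hx).trans (le_abs_self _)
  have hZ : ∀ i, UBOn 𝒞 S k μ (fun c x => zSol (a c x) (fun p q => eF a E p q c x) i) := fun i =>
    (((UBOn.sum univ fun j _ => (he i j).mul_one (ha j)).mul_one hA').sub
      (((ha i).one_mul (UBOn.sum univ fun p _ => UBOn.sum univ fun q _ =>
        ((ha p).one_mul (he p q)).mul_one (ha q))).mul_one ((hA'.mul_one hA').const_mul (1 / 2)))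
      ).congr_eq fun c _ => funext fun x => by
        simp only [zSol, dotProduct]
        ring
  have hp := UBOn.pinv_apply hG.ub_gmat hδ hl
  have hl' := hG.ub_ℓ.inv_weight fun c hc x _ => hG.ℓ_pos c hc x
  have hc : ∀ j, UBOn 𝒞 S k (fun c x => μ c x * ((c.ℓ x)⁻¹ * (c.ℓ x)⁻¹))
      (fun c x => (∑ i, pinv (gmat c.F c.V c.ℓ x) j i * zSol (a c x)
        (fun p q => eF a E p q c x) i) * ((c.ℓ x)⁻¹ * (c.ℓ x)⁻¹)) := fun j =>
    (UBOn.sum univ fun i _ => (hp j i).one_mul (hZ i)).mul (hl'.mul hl')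
  refine ((hG.ub_ε.smul (UBOn.sum univ fun j _ => (hc j).smul (hG.ub_dF j))).mono_weight
    zero_le_one fun c hc x _ => le_of_eq ?_).congr_eq fun c _ => funext fun x => ?_
  · have := (hG.ℓ_pos c hc x).ne'
    field_simp
  · simp only [xF, xSol, eF, Matrix.mulVec, dotProduct]
    congr 1
    refine Finset.sum_congr rfl fun j _ => ?_
    congr 1
    ring

/-- Both parts of the solution of a general mode. -/
theorem SolveGeom.ub_solve (hE : ∀ i j, UBOn 𝒞 S k μ (E i j)) {c₀ c₁ δ : ℝ} (hc₀ : 0 < c₀)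
    (hc₁ : 0 < c₁) (hδ : 0 < δ)
    (hP : ∀ c ∈ 𝒞, ∀ x ∈ S c, c₀ * hWt c x ≤ ‖pEF a c x‖)
    (hA : ∀ c ∈ 𝒞, ∀ x ∈ S c, c₁ ≤ a c x ⬝ᵥ a c x)
    (hl : ∀ c ∈ 𝒞, ∀ x ∈ S c, δ ≤ e2 (gmat c.F c.V c.ℓ x)) :
    UBOn 𝒞 S k (fun c x => μ c x * (hWt c x)⁻¹) (vF a E) ∧
      UBOn 𝒞 S k (fun c x => c.ε * μ c x * (c.ℓ x)⁻¹) (xF a E) := by
  refine ⟨hG.ub_v ha hE hc₀ hP, hG.ub_x ha (fun i j => ?_) hc₁ hδ hA hl⟩
  exact (hE i j).add (((hG.ub_sff i j).inner (hG.ub_v ha hE hc₀ hP)).const_mul 2 |>.mono_weight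
    zero_le_one fun c hc x _ => le_of_eq (by
      have := (hG.hWt_pos c hc x).ne'
      field_simp))

/-- The tangential solve alone. -/
theorem SolveGeom.ub_tangential (hE : ∀ i j, UBOn 𝒞 S k μ (E i j))
    (hq : ∀ c ∈ 𝒞, ∀ x, qf (a c x) (a c x) (fun i j => E i j c x) = 0) {c₁ δ : ℝ}
    (hc₁ : 0 < c₁) (hδ : 0 < δ) (hA : ∀ c ∈ 𝒞, ∀ x ∈ S c, c₁ ≤ a c x ⬝ᵥ a c x)
    (hl : ∀ c ∈ 𝒞, ∀ x ∈ S c, δ ≤ e2 (gmat c.F c.V c.ℓ x)) :
    (∀ c ∈ 𝒞, vF a E c = 0) ∧ UBOn 𝒞 S k (fun c x => c.ε * μ c x * (c.ℓ x)⁻¹) (xF a E) := by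
  have h0 : ∀ c ∈ 𝒞, vF a E c = 0 := fun c hc => funext fun x =>
    vSol_eq_zero _ _ x (hq c hc x)
  refine ⟨h0, hG.ub_x ha (fun i j => (hE i j).congr_eq fun c hc => funext fun x => ?_) hc₁ hδ hA hl⟩
  have := congrFun (h0 c hc) x
  simp only [vF, Pi.zero_apply] at this
  simp [eF, eRest, this]

end

end Vale.Agent.P205.Full.Stage
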