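import Vale.Agent.P205.Full.Stage.Solve

/-!
# P205 stage: smoothness of the solution of one mode

`vSol` and `xSol` are smooth where `P` and `a` do not vanish, and vanish with `E`; so they are
smooth everywhere as soon as this holds on the support of `E` (`contMDiff_vSol`, `contMDiff_xSol`).
-/

open scoped Manifold ContDiff RealInnerProductSpace Matrix Topology
open Bundle Filter

set_option linter.unusedSectionVars false

namespace Vale.Agent.P205.Full.Stage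

open Finset Decomp

noncomputable section

variable {M : Type} [TopologicalSpace M] [ChartedSpace R2 M] [IsManifold (𝓡 2) ∞ M]
variable {N : ℕ} {V : Frame M N} {x : M} {F : M → R4}

section Basic

variable {f g : M → ℝ} {E : Type} [NormedAddCommGroup E] [NormedSpace ℝ E]

theorem smoothAt_mul (hf : ContMDiffAt (𝓡 2) 𝓘(ℝ, ℝ) ∞ f x)
    (hg : ContMDiffAt (𝓡 2) 𝓘(ℝ, ℝ) ∞ g x) :
    ContMDiffAt (𝓡 2) 𝓘(ℝ, ℝ) ∞ (fun y => f y * g y) x :=
  contMDiffAt_bilin (ContinuousLinearMap.mul ℝ ℝ) hf hg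

theorem smoothAt_smul (hf : ContMDiffAt (𝓡 2) 𝓘(ℝ, ℝ) ∞ f x) {u : M → E}
    (hu : ContMDiffAt (𝓡 2) 𝓘(ℝ, E) ∞ u x) :
    ContMDiffAt (𝓡 2) 𝓘(ℝ, E) ∞ (fun y => f y • u y) x :=
  contMDiffAt_bilin (ContinuousLinearMap.lsmul ℝ ℝ) hf hu

theorem smoothAt_div (hf : ContMDiffAt (𝓡 2) 𝓘(ℝ, ℝ) ∞ f x)
    (hg : ContMDiffAt (𝓡 2) 𝓘(ℝ, ℝ) ∞ g x) (h : g x ≠ 0) :
    ContMDiffAt (𝓡 2) 𝓘(ℝ, ℝ) ∞ (fun y => f y / g y) x := by
  simp only [div_eq_mul_inv]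
  exact smoothAt_mul hf (((contDiffAt_inv ℝ h).comp_contMDiffAt hg))

theorem smoothAt_sum {ι : Type*} (t : Finset ι) {u : ι → M → E}
    (hu : ∀ k ∈ t, ContMDiffAt (𝓡 2) 𝓘(ℝ, E) ∞ (u k) x) :
    ContMDiffAt (𝓡 2) 𝓘(ℝ, E) ∞ (fun y => ∑ k ∈ t, u k y) x := by
  classical
  induction t using Finset.induction_on with
  | empty => simpa using contMDiffAt_const
  | insert a t hat ih =>
    simp only [Finset.sum_insert hat]
    exact (hu a (Finset.mem_insert_self a t)).add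
      (ih fun k hk => hu k (Finset.mem_insert_of_mem hk))

theorem smoothAt_qf {a b : M → Fin N → ℝ} {T : Fin N → Fin N → M → E}
    (ha : ∀ i, ContMDiffAt (𝓡 2) 𝓘(ℝ, ℝ) ∞ (fun y => a y i) x)
    (hb : ∀ i, ContMDiffAt (𝓡 2) 𝓘(ℝ, ℝ) ∞ (fun y => b y i) x)
    (hT : ∀ i k, ContMDiffAt (𝓡 2) 𝓘(ℝ, E) ∞ (T i k) x) :
    ContMDiffAt (𝓡 2) 𝓘(ℝ, E) ∞ (fun y => qf (a y) (b y) (fun i k => T i k y)) x :=
  (smoothAt_smul (smoothAt_sum _ fun i _ => smoothAt_mul (ha i) (hb i))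
    (smoothAt_sum _ fun k _ => hT k k)).sub
    (smoothAt_sum _ fun i _ => smoothAt_sum _ fun k _ =>
      smoothAt_smul (smoothAt_mul (ha i) (hb k)) (hT i k))

theorem smoothAt_zSol {a : M → Fin N → ℝ} {T : Fin N → Fin N → M → ℝ}
    (ha : ∀ i, ContMDiffAt (𝓡 2) 𝓘(ℝ, ℝ) ∞ (fun y => a y i) x)
    (hT : ∀ i k, ContMDiffAt (𝓡 2) 𝓘(ℝ, ℝ) ∞ (T i k) x) (h : a x ≠ 0) (i : Fin N) :
    ContMDiffAt (𝓡 2) 𝓘(ℝ, ℝ) ∞ (fun y => zSol (a y) (fun j l => T j l y) i) x := by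
  have hA : a x ⬝ᵥ a x ≠ 0 := fun h0 => h (dotProduct_self_eq_zero.1 h0)
  have hd : ContMDiffAt (𝓡 2) 𝓘(ℝ, ℝ) ∞ (fun y => a y ⬝ᵥ a y) x :=
    smoothAt_sum _ fun j _ => smoothAt_mul (ha j) (ha j)
  refine (smoothAt_div (smoothAt_sum _ fun k _ => smoothAt_mul (hT i k) (ha k)) hd hA).sub
    (smoothAt_div (smoothAt_mul (ha i) (smoothAt_sum _ fun j _ => smoothAt_sum _ fun l _ =>
      smoothAt_mul (smoothAt_mul (ha j) (hT j l)) (ha l))) ?_ (by positivity))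
  simp only [sq]
  exact smoothAt_mul contMDiffAt_const (smoothAt_mul hd hd)

theorem smoothAt_pinv {G : M → Matrix (Fin N) (Fin N) ℝ}
    (hG : ∀ i k, ContMDiffAt (𝓡 2) 𝓘(ℝ, ℝ) ∞ (fun y => G y i k) x) (h : e2 (G x) ≠ 0)
    (i k : Fin N) : ContMDiffAt (𝓡 2) 𝓘(ℝ, ℝ) ∞ (fun y => pinv (G y) i k) x := by
  have htr : ∀ {H : M → Matrix (Fin N) (Fin N) ℝ},
      (∀ i k, ContMDiffAt (𝓡 2) 𝓘(ℝ, ℝ) ∞ (fun y => H y i k) x) →
      ContMDiffAt (𝓡 2) 𝓘(ℝ, ℝ) ∞ (fun y => (H y).trace) x :=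
    fun hH => smoothAt_sum _ fun j _ => hH j j
  have hGG : ∀ i k, ContMDiffAt (𝓡 2) 𝓘(ℝ, ℝ) ∞ (fun y => (G y * G y) i k) x := fun i k => by
    simp only [Matrix.mul_apply]
    exact smoothAt_sum _ fun j _ => smoothAt_mul (hG i j) (hG j k)
  have he : ContMDiffAt (𝓡 2) 𝓘(ℝ, ℝ) ∞ (fun y => e2 (G y)) x := by
    simp only [e2, sq]
    exact smoothAt_div ((smoothAt_mul (htr hG) (htr hG)).sub (htr hGG)) contMDiffAt_const
      two_ne_zero
  have hi : ContMDiffAt (𝓡 2) 𝓘(ℝ, ℝ) ∞ (fun y => (e2 (G y))⁻¹) x :=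
    ContDiffAt.comp_contMDiffAt (f := fun y => e2 (G y)) (contDiffAt_inv ℝ h) he
  simp only [pinv, imgProj, Matrix.smul_apply, Matrix.sub_apply, smul_eq_mul]
  exact smoothAt_mul hi ((smoothAt_mul (htr hG) (smoothAt_mul hi
    ((smoothAt_mul (htr hG) (hG i k)).sub (hGG i k)))).sub (hG i k))

end Basic

theorem e2_gmat_ne_zero (hs : Submodule.span ℝ (Set.range fun i => V i x) = ⊤)
    (hinj : Function.Injective (mfderiv (𝓡 2) 𝓘(ℝ, R4) F x)) {ℓ : M → ℝ} (hℓ : ℓ x ≠ 0) :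
    e2 (gmat F V ℓ x) ≠ 0 := by
  obtain ⟨A, B, C, hm, hG⟩ := exists_gmat_eq_tm (V := V) hinj ℓ hℓ
  rw [hG, e2_tm]
  exact mul_ne_zero hm (gram_vxy_ne_zero hs)

/-- The hypotheses on the geometry and on the mode, near every point. -/
structure ModeData (F : M → R4) (V : Frame M N) (ℓ : M → ℝ) (Y : M → ℝ)
    (E : Fin N → Fin N → M → ℝ) : Prop where
  smooth_V : FrameSmooth V
  spans : FrameSpans V
  smooth_Y : ContMDiff (𝓡 2) 𝓘(ℝ, ℝ) ∞ Y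
  smooth_ℓ : ContMDiff (𝓡 2) 𝓘(ℝ, ℝ) ∞ ℓ
  ℓ_ne : ∀ x, ℓ x ≠ 0
  inj : ∀ x, Function.Injective (mfderiv (𝓡 2) 𝓘(ℝ, R4) F x)
  smooth_sff : ∀ i k, ContMDiff (𝓡 2) 𝓘(ℝ, R4) ∞ (sff F V i k)
  smooth_F : ContMDiff (𝓡 2) 𝓘(ℝ, R4) ∞ F
  smooth_E : ∀ i k, ContMDiff (𝓡 2) 𝓘(ℝ, ℝ) ∞ (E i k)
  good : ∀ i k, ∀ x ∈ tsupport (E i k), cov V Y x ≠ 0 ∧
    ((∀ᶠ y in 𝓝 x, qf (cov V Y y) (cov V Y y) (fun a b => E a b y) = 0) ∨
      pE F V (cov V Y) x ≠ 0)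

variable {ℓ Y : M → ℝ} {E : Fin N → Fin N → M → ℝ}

theorem ModeData.smoothAt_cov (h : ModeData F V ℓ Y E) (i : Fin N) :
    ContMDiffAt (𝓡 2) 𝓘(ℝ, ℝ) ∞ (fun y => cov V Y y i) x :=
  contMDiff_D h.smooth_V i h.smooth_Y x

theorem ModeData.eventually_zero_or_good (h : ModeData F V ℓ Y E) (x : M) :
    (∀ᶠ y in 𝓝 x, ∀ i k, E i k y = 0) ∨ (cov V Y x ≠ 0 ∧
      ((∀ᶠ y in 𝓝 x, qf (cov V Y y) (cov V Y y) (fun a b => E a b y) = 0) ∨
        pE F V (cov V Y) x ≠ 0)) := by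
  by_cases hx : ∃ i k, x ∈ tsupport (E i k)
  · obtain ⟨i, k, hik⟩ := hx
    exact Or.inr (h.good i k x hik)
  · push Not at hx
    exact Or.inl (eventually_all.2 fun i => eventually_all.2 fun k =>
      notMem_tsupport_iff_eventuallyEq.1 (hx i k))

theorem ModeData.zero_or_good (h : ModeData F V ℓ Y E) (x : M) :
    (fun i k => E i k x) = 0 ∨ (cov V Y x ≠ 0 ∧
      (qf (cov V Y x) (cov V Y x) (fun i k => E i k x) = 0 ∨ pE F V (cov V Y) x ≠ 0)) :=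
  (h.eventually_zero_or_good x).imp
    (fun h0 => funext fun i => funext fun k => h0.self_of_nhds i k)
    (fun h0 => ⟨h0.1, h0.2.imp_left fun h1 => h1.self_of_nhds⟩)

theorem ModeData.contMDiff_vSol (h : ModeData F V ℓ Y E) :
    ContMDiff (𝓡 2) 𝓘(ℝ, R4) ∞ (vSol F V (cov V Y) E) := by
  intro x
  rcases h.eventually_zero_or_good x with h0 | ⟨-, h0 | hP⟩
  · refine (contMDiffAt_const (c := (0 : R4))).congr_of_eventuallyEq ?_
    filter_upwards [h0] with y hy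
    simp [vSol, qf, hy]
  · refine (contMDiffAt_const (c := (0 : R4))).congr_of_eventuallyEq ?_
    filter_upwards [h0] with y hy
    exact vSol_eq_zero _ E y hy
  · have hp : ContMDiffAt (𝓡 2) 𝓘(ℝ, R4) ∞ (pE F V (cov V Y)) x :=
      smoothAt_qf h.smoothAt_cov h.smoothAt_cov fun i k => h.smooth_sff i k x
    exact smoothAt_smul (smoothAt_div
      (smoothAt_qf h.smoothAt_cov h.smoothAt_cov fun i k => h.smooth_E i k x).neg
      (smoothAt_mul contMDiffAt_const (contMDiffAt_inner_fun hp hp))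
      (mul_ne_zero two_ne_zero fun h1 => hP (inner_self_eq_zero.1 h1))) hp

theorem ModeData.contMDiff_xSol (h : ModeData F V ℓ Y E) (ε : ℝ) :
    ContMDiff (𝓡 2) 𝓘(ℝ, R4) ∞ (xSol F V ℓ ε (cov V Y) E) := by
  intro x
  rcases h.eventually_zero_or_good x with h0 | ⟨ha, -⟩
  · refine (contMDiffAt_const (c := (0 : R4))).congr_of_eventuallyEq ?_
    filter_upwards [h0] with y hy
    simp [xSol, eRest, vSol, qf, hy, zSol_zero]
  · have he : ∀ i k, ContMDiffAt (𝓡 2) 𝓘(ℝ, ℝ) ∞ (eRest F V (cov V Y) E i k) x := fun i k =>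
      (h.smooth_E i k x).add (smoothAt_mul contMDiffAt_const
        (contMDiffAt_inner_fun (h.smooth_sff i k x) (h.contMDiff_vSol x)))
    have hG : ∀ i k, ContMDiffAt (𝓡 2) 𝓘(ℝ, ℝ) ∞ (fun y => gmat F V ℓ y i k) x := fun i k => by
      simp only [gmat, Matrix.of_apply, sq]
      exact smoothAt_div (contMDiff_pullV h.smooth_V h.smooth_F i k x)
        (smoothAt_mul (h.smooth_ℓ x) (h.smooth_ℓ x)) (mul_ne_zero (h.ℓ_ne x) (h.ℓ_ne x))
    refine smoothAt_smul (f := fun _ => ε) contMDiffAt_const (smoothAt_sum _ fun k _ =>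
      smoothAt_smul (smoothAt_div (g := fun y => ℓ y ^ 2) ?_ ?_ (pow_ne_zero 2 (h.ℓ_ne x)))
        (contMDiff_D h.smooth_V k h.smooth_F x))
    · simp only [Matrix.mulVec, dotProduct]
      exact smoothAt_sum _ fun j _ => smoothAt_mul
        (smoothAt_pinv hG (e2_gmat_ne_zero (h.spans x) (h.inj x) (h.ℓ_ne x)) k j)
        (smoothAt_zSol h.smoothAt_cov he ha j)
    · simp only [sq]
      exact smoothAt_mul (h.smooth_ℓ x) (h.smooth_ℓ x)

/-- **One mode, cosine.** -/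
theorem ModeData.lin_eq (h : ModeData F V ℓ Y E) {ε : ℝ} (hε : ε ≠ 0)
    (hE : TensAt V x (fun i k => E i k x)) (hsff : TensAt V x (fun i k => sff F V i k x))
    (i k : Fin N) :
    lin F V (fun y => Real.cos (Y y / ε) • vSol F V (cov V Y) E y
        + Real.sin (Y y / ε) • xSol F V ℓ ε (cov V Y) E y) i k x =
      Real.cos (Y x / ε) * E i k x
        + Real.sin (Y x / ε) * lin F V (xSol F V ℓ ε (cov V Y) E) i k x :=
  lin_mode h.smooth_V (h.smooth_F x) (mdiffAt_of_smoothAt (h.smooth_Y x)) (h.contMDiff_vSol x)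
    (mdiffAt_of_smoothAt (h.contMDiff_xSol ε x)) (Eventually.of_forall (vSol_mem_orth F _ E))
    (mode_eq (h.spans x) (h.inj x) (h.ℓ_ne x) hε hE hsff (h.zero_or_good x) i k)

/-- **One mode, sine.** -/
theorem ModeData.lin_eq_sin (h : ModeData F V ℓ Y E) {ε : ℝ} (hε : ε ≠ 0)
    (hE : TensAt V x (fun i k => E i k x)) (hsff : TensAt V x (fun i k => sff F V i k x))
    (i k : Fin N) :
    lin F V (fun y => Real.sin (Y y / ε) • vSol F V (cov V Y) E y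
        + (-Real.cos (Y y / ε)) • xSol F V ℓ ε (cov V Y) E y) i k x =
      Real.sin (Y x / ε) * E i k x
        - Real.cos (Y x / ε) * lin F V (xSol F V ℓ ε (cov V Y) E) i k x :=
  lin_mode_sin h.smooth_V (h.smooth_F x) (mdiffAt_of_smoothAt (h.smooth_Y x)) (h.contMDiff_vSol x)
    (mdiffAt_of_smoothAt (h.contMDiff_xSol ε x)) (Eventually.of_forall (vSol_mem_orth F _ E))
    (mode_eq (h.spans x) (h.inj x) (h.ℓ_ne x) hε hE hsff (h.zero_or_good x) i k)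

end

end Vale.Agent.P205.Full.Stage
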