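import Vale.Agent.P205.Full.Stage.StepWeights
import Vale.Agent.P205.Full.Stage.TensorBd
import Vale.Agent.P205.Full.Stage.SolveSmooth

/-!
# P205 full, module S5 (part): algebra of the residual

`resW c W = gV - pullV (F + W)`; the exact update, the use of the decomposition on a tensor, and
the lower bound of the decomposition coefficients of the slack.
-/

open scoped Manifold ContDiff RealInnerProductSpace Topology
open Bundle Finset

noncomputable section

namespace Vale.Agent.P205.Full.Stage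

open Decomp

variable {N P : ℕ}

/-- The residual of a perturbation. -/
def resW (c : Ctx N P) (W : c.M → R4) (x : c.M) : Fin N → Fin N → ℝ :=
  fun i k => gV c.g c.V i k x - pullV (fun y => c.F y + W y) c.V i k x

theorem resW_eq (c : Ctx N P) {W : c.M → R4} {x : c.M}
    (hF : MDifferentiableAt (𝓡 2) 𝓘(ℝ, R4) c.F x) (hW : MDifferentiableAt (𝓡 2) 𝓘(ℝ, R4) W x)
    (i k : Fin N) :
    resW c W x i k = gV c.g c.V i k x - pullV c.F c.V i k x - lin c.F c.V W i k x
      - pullV W c.V i k x := by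
  rw [resW, pullV_add hF hW]
  ring

/-- The exact update of the residual. -/
theorem resW_add (c : Ctx N P) {W δ : c.M → R4} {x : c.M}
    (hF : MDifferentiableAt (𝓡 2) 𝓘(ℝ, R4) c.F x) (hW : MDifferentiableAt (𝓡 2) 𝓘(ℝ, R4) W x)
    (hδ : MDifferentiableAt (𝓡 2) 𝓘(ℝ, R4) δ x) (i k : Fin N) :
    resW c (fun y => W y + δ y) x i k = resW c W x i k - lin c.F c.V δ i k x
      - lin W c.V δ i k x - pullV δ c.V i k x := by
  have hs : MDifferentiableAt (𝓡 2) 𝓘(ℝ, R4) (fun y => W y + δ y) x := hW.add hδ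
  rw [resW_eq c hF hs, resW_eq c hF hW, lin_add hW hδ, pullV_add hW hδ]
  ring

theorem resW_zero (c : Ctx N P) (x : c.M) (i k : Fin N) :
    resW c (fun _ => 0) x i k = gV c.g c.V i k x - pullV c.F c.V i k x := by
  simp [resW]

/-- The identity of the decomposition at a point. -/
def DecAt (c : Ctx N P) (x : c.M) : Prop :=
  ∀ Φ : TangentSpace (𝓡 2) x → TangentSpace (𝓡 2) x → ℝ,
    (∀ u v, Φ u v = Φ v u) → (∀ u v w, Φ (u + v) w = Φ u w + Φ v w) →
    (∀ (a : ℝ) u v, Φ (a • u) v = a * Φ u v) →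
    ∀ i k, ∑ q, c.ρ q x ^ 2 * (∑ j, ∑ l, c.L q j l x * Φ (c.V j x) (c.V l x)) *
        (cov c.V (c.Y q.phase) x i * cov c.V (c.Y q.phase) x k) / 2 = Φ (c.V i x) (c.V k x)

/-- The decomposition applies to every tensor. -/
theorem DecAt.sum_eq {c : Ctx N P} {x : c.M} (h : DecAt c x) {E : Fin N → Fin N → ℝ}
    (hE : TensAt c.V x E) (i k : Fin N) :
    ∑ q, c.ρ q x ^ 2 * (∑ j, ∑ l, c.L q j l x * E j l) *
        (cov c.V (c.Y q.phase) x i * cov c.V (c.Y q.phase) x k) / 2 = E i k := by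
  obtain ⟨t₁₁, t₁₂, t₂₂, rfl⟩ := hE
  let Φ : R2 → R2 → ℝ := fun u v =>
    u 0 * v 0 * t₁₁ + (u 0 * v 1 + u 1 * v 0) * t₁₂ + u 1 * v 1 * t₂₂
  have e : ∀ j l, tv (vx c.V x) (vy c.V x) t₁₁ t₁₂ t₂₂ j l =
      Φ (vec2 c.V x j) (vec2 c.V x l) := fun j l => by
    simp only [Φ, tv, vx, vy, smul_eq_mul]
  simp only [e]
  exact h Φ (fun u v => by simp only [Φ]; ring)
    (fun (u v w : R2) => by
      show Φ (u + v) w = Φ u w + Φ v w
      simp only [Φ, PiLp.add_apply]; ring)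
    (fun a (u v : R2) => by
      show Φ (a • u) v = a * Φ u v
      simp only [Φ, PiLp.smul_apply, smul_eq_mul]; ring) i k

/-- The decomposition coefficient of the slack tensor. -/
def slackCoef (c : Ctx N P) (q : DIdx P) (x : c.M) : ℝ :=
  ∑ j, ∑ l, c.L q j l x * (resW c (fun _ => 0) x j l / c.ℓ x ^ 2)

/-- The slack has coefficients of size `σ`. -/
theorem slackCoef_lower {c : Ctx N P} {x : c.M} {q : DIdx P} {C δ lo : ℝ} (hℓ : 0 < c.ℓ x)
    (hσ : 0 ≤ c.σ x) (hL : ∀ j l, |c.L q j l x| ≤ C)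
    (hres : ∀ j l, |gV c.g c.V j l x - pullV c.F c.V j l x - c.σ x * gV c.g c.V j l x| ≤
      δ * (c.σ x * c.ℓ x ^ 2))
    (hlo : lo ≤ ∑ j, ∑ l, c.L q j l x * (gV c.g c.V j l x / c.ℓ x ^ 2)) :
    (lo - (N : ℝ) ^ 2 * C * δ) * c.σ x ≤ slackCoef c q x := by
  set err : Fin N → Fin N → ℝ := fun j l =>
    (gV c.g c.V j l x - pullV c.F c.V j l x - c.σ x * gV c.g c.V j l x) / c.ℓ x ^ 2 with herr
  have hsplit : slackCoef c q x =
      c.σ x * (∑ j, ∑ l, c.L q j l x * (gV c.g c.V j l x / c.ℓ x ^ 2))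
        + ∑ j, ∑ l, c.L q j l x * err j l := by
    simp only [slackCoef, resW_zero, herr, mul_sum, ← sum_add_distrib]
    exact sum_congr rfl fun j _ => sum_congr rfl fun l _ => by ring
  have h2 : |∑ j, ∑ l, c.L q j l x * err j l| ≤ (N : ℝ) * ((N : ℝ) * (C * (δ * c.σ x))) := by
    refine (abs_sum_le_sum_abs _ _).trans ((sum_le_sum (g := fun _ => (N : ℝ) * (C * (δ * c.σ x)))
      fun j _ => ?_).trans (le_of_eq (by simp)))
    refine (abs_sum_le_sum_abs _ _).trans ((sum_le_sum (g := fun _ => C * (δ * c.σ x))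
      fun l _ => ?_).trans (le_of_eq (by simp)))
    rw [abs_mul]
    refine mul_le_mul (hL j l) ?_ (abs_nonneg _) ((abs_nonneg _).trans (hL j l))
    rw [herr, abs_div, abs_of_pos (pow_pos hℓ 2), div_le_iff₀ (pow_pos hℓ 2), mul_assoc]
    exact hres j l
  rw [hsplit]
  have h3 := mul_le_mul_of_nonneg_left hlo hσ
  have h4 := neg_abs_le (∑ j, ∑ l, c.L q j l x * err j l)
  linarith

end Vale.Agent.P205.Full.Stage
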