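import Vale.Agent.P205.Full.Stage.Wave
import Vale.Agent.P205.Full.Stage.SolveBd
import Vale.Agent.P205.Full.Stage.StepAlg

/-!
# P205 full, module S5 (part): what one step needs from an admissible class

`StepHyp 𝒞 R L K B u`: `u q` are the normal directions of the amplitude waves, `L` bounds the
degrees for which the dominance holds.
-/

open scoped Manifold ContDiff RealInnerProductSpace Matrix
open Bundle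

noncomputable section

namespace Vale.Agent.P205.Full.Stage

variable {N P : ℕ}

/-- The phase function of a multi-index, before division by `ε`. -/
def mY (R : ℝ) (c : Ctx N P) (m : Fin (qn P) → ℤ) : c.M → ℝ :=
  fun x => ∑ q, (m q : ℝ) * R ^ (q : ℕ) * c.ph q x

/-- The covector of a multi-index. -/
def mVecF (R : ℝ) (m : Fin (qn P) → ℤ) : ∀ c : Ctx N P, c.M → Fin N → ℝ :=
  fun c x i => mcov R c m i x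

/-- The hypotheses of one step. -/
structure StepHyp (𝒞 : Set (Ctx N P)) (R : ℝ) (L K : ℕ) (B : ℝ)
    (u : Fin (qn P) → Fld N P R4) : Prop where
  R_pos : 0 < R
  L_pos : 1 ≤ L
  B_nonneg : 0 ≤ B
  nice : Nice 𝒞 K
  geom : SolveGeom 𝒞 allM K
  small : ∀ c ∈ 𝒞, ∀ x, SmallAt B c x
  smooth_F : ∀ c ∈ 𝒞, ContMDiff (𝓡 2) 𝓘(ℝ, R4) ∞ c.F
  spans : ∀ c ∈ 𝒞, FrameSpans c.V
  inj : ∀ c ∈ 𝒞, ∀ x, Function.Injective (mfderiv (𝓡 2) 𝓘(ℝ, R4) c.F x)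
  ub_gNorm : ∀ i j, UB 𝒞 K one (fun c x => gNorm c.g c.V c.ℓ x i j)
  e2_lower : ∃ δ : ℝ, 0 < δ ∧ ∀ c ∈ 𝒞, ∀ x,
    δ ≤ e2 (gNorm c.g c.V c.ℓ x) ∧ δ ≤ e2 (gmat c.F c.V c.ℓ x)
  ub_ρ : ∀ q, UB 𝒞 K one (fun c => c.ρ q)
  ub_L : ∀ q i j, UB 𝒞 K one (fun c => c.L q i j)
  ub_slack : ∀ i j, UB 𝒞 K (fun c x => c.σ x * c.ℓ x ^ 2)
    (fun c x => resW c (fun _ => 0) x i j)
  slack_lower : ∃ δ : ℝ, 0 < δ ∧ ∀ c ∈ 𝒞, ∀ q, ∀ x ∈ tsupport (c.ρ q),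
    δ * c.σ x ≤ slackCoef c q x
  dec : ∀ c ∈ 𝒞, ∀ x, DecAt c x
  dominance : ∃ δ : ℝ, 0 < δ ∧ ∀ m ∈ box (qn P) L, m ≠ 0 → ∀ c ∈ 𝒞, ∀ x ∈ goodM m c,
    δ ≤ mVecF R m c x ⬝ᵥ mVecF R m c x ∧ δ * hWt c x ≤ ‖pEF (mVecF R m) c x‖
  ub_u : ∀ q, UBOn 𝒞 (fun c => c.good q) K one (u q)
  u_normal : ∀ c ∈ 𝒞, ∀ q, ∀ x ∈ c.good q, u q c x ∈ (tanPlane c.F x)ᗮ
  u_perp : ∀ c ∈ 𝒞, ∀ q, ∀ x ∈ c.good q,
    ⟪pE c.F c.V (cov c.V (c.ph q)) x, u q c x⟫ = 0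
  u_sum : ∀ c ∈ 𝒞, ∀ p : DIdx P, ∀ x ∈ tsupport (c.ρ p),
    ∑ a : Fin 4, ⟪u ((qix P).symm (p, a)) c x, u ((qix P).symm (p, a)) c x⟫ = 1

end Vale.Agent.P205.Full.Stage
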