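import Vale.Agent.P205.Full.Stage.Frame
import Vale.Agent.P205.Full.Stage.Dominance
import Vale.Agent.P205.Full.Stage.StepHyp

/-!
# P205 full, module STAGE: from an admissible class to the hypotheses of a step

`Adm.stepHyp`: `Adm` and `Dominant` give `StepHyp` with the normal directions `uFld`;
`Adm.exists_stepHyp`: for `R` large there is nothing else to assume.
-/

open scoped Manifold ContDiff RealInnerProductSpace Matrix Topology
open Bundle Filter

set_option linter.unusedSectionVars false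

noncomputable section

namespace Vale.Agent.P205.Full.Stage

open Finset Decomp

/-- The four projected axes removed by a normal vector `p` have total length one. -/
theorem sum_sq_proj_sub (N : Submodule ℝ R4) (hN : Module.finrank ℝ N = 2) {p : R4} (hp : p ∈ N)
    (hp0 : p ≠ 0) :
    ∑ a : Fin 4, ⟪N.starProjection (axis a) - (⟪p, axis a⟫ / ⟪p, p⟫) • p,
      N.starProjection (axis a) - (⟪p, axis a⟫ / ⟪p, p⟫) • p⟫ = 1 := by
  have hpp : ⟪p, p⟫ ≠ 0 := fun h => hp0 (inner_self_eq_zero.1 h)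
  have hpr : ∀ e, ⟪p, N.starProjection e⟫ = ⟪p, e⟫ := fun e => by
    rw [← Submodule.inner_starProjection_left_eq_right, Submodule.starProjection_eq_self_iff.2 hp]
  have e1 : ∀ a, ⟪N.starProjection (axis a) - (⟪p, axis a⟫ / ⟪p, p⟫) • p,
      N.starProjection (axis a) - (⟪p, axis a⟫ / ⟪p, p⟫) • p⟫ =
      ⟪N.starProjection (axis a), N.starProjection (axis a)⟫ - ⟪p, axis a⟫ ^ 2 / ⟪p, p⟫ := by
    intro a
    simp only [inner_sub_left, inner_sub_right, real_inner_smul_left, real_inner_smul_right, hpr,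
      real_inner_comm p (N.starProjection (axis a))]
    field_simp
    ring
  have hcoord : ∀ (z : R4), ∑ a : Fin 4, ⟪z, axis a⟫ ^ 2 = ⟪z, z⟫ := fun z => by
    have := (EuclideanSpace.basisFun (Fin 4) ℝ).sum_sq_inner_right z
    simp only [EuclideanSpace.basisFun_apply] at this
    rw [real_inner_self_eq_norm_sq]
    simpa [axis, real_inner_comm] using this
  let b := (stdOrthonormalBasis ℝ N).reindex (finCongr hN)
  have e2 : ∀ a, ⟪N.starProjection (axis a), N.starProjection (axis a)⟫ =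
      ∑ j, ⟪(b j : R4), axis a⟫ ^ 2 := by
    intro a
    have h1 := b.sum_sq_inner_right (N.orthogonalProjectionOnto (axis a))
    rw [real_inner_self_eq_norm_sq]
    refine Eq.trans ?_ (h1.symm.trans (sum_congr rfl fun j _ => ?_))
    · rw [Submodule.starProjection_apply, Submodule.coe_norm]
    · congr 1
      show ⟪((b j : N) : R4), (N.orthogonalProjectionOnto (axis a) : R4)⟫ = _
      rw [← Submodule.starProjection_apply, ← Submodule.inner_starProjection_left_eq_right,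
        Submodule.starProjection_eq_self_iff.2 (b j).2]
  simp only [e1, e2, sum_sub_distrib]
  rw [sum_comm, ← sum_div, hcoord p, div_self hpp]
  have hb : ∀ j, ∑ a : Fin 4, ⟪(b j : R4), axis a⟫ ^ 2 = 1 := fun j => by
    rw [hcoord, real_inner_self_eq_norm_sq, ← Submodule.coe_norm, b.orthonormal.1 j, one_pow]
  simp only [hb, sum_const, Finset.card_univ, Fintype.card_fin]
  norm_num

variable {N P : ℕ} {𝒞 : Set (Ctx N P)} {K : ℕ} {B c₀ : ℝ}

theorem Adm.finrank_normal (h : Adm 𝒞 K B c₀) {c : Ctx N P} (hc : c ∈ 𝒞) (x : c.M) :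
    Module.finrank ℝ ((tanPlane c.F x)ᗮ : Submodule ℝ R4) = 2 := by
  let L : R2 →ₗ[ℝ] R4 := (mfderiv (𝓡 2) 𝓘(ℝ, R4) c.F x).toLinearMap
  have hr : Module.finrank ℝ (tanPlane c.F x) = 2 := by
    show Module.finrank ℝ (LinearMap.range L) = 2
    rw [LinearMap.finrank_range_of_inj (show Function.Injective L from h.inj c hc x)]
    simp
  have := (tanPlane c.F x).finrank_add_finrank_orthogonal
  rw [hr, finrank_euclideanSpace_fin] at this
  omega

theorem pE_inner_uFld (c : Ctx N P) (q : Fin (qn P)) (x : c.M)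
    (hP : pE c.F c.V (cov c.V (c.ph q)) x ≠ 0) :
    ⟪pE c.F c.V (cov c.V (c.ph q)) x, uFld q c x⟫ = 0 := by
  have hpp : ⟪pE c.F c.V (cov c.V (c.ph q)) x, pE c.F c.V (cov c.V (c.ph q)) x⟫ ≠ 0 :=
    fun h => hP (inner_self_eq_zero.1 h)
  rw [uFld, inner_sub_right, real_inner_smul_right, ← Submodule.inner_starProjection_left_eq_right,
    Submodule.starProjection_eq_self_iff.2 (pE_mem_orth c.F _ x), div_mul_cancel₀ _ hpp, sub_self]

/-- The bound of the normal directions. -/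
theorem Adm.ub_uFld (h : Adm 𝒞 K B c₀) (q : Fin (qn P)) :
    UBOn 𝒞 (fun c => c.good q) K one (uFld q) := by
  have hw := (UB.ubOn h.ub_inv_hWt (fun c => c.good q))
  have hp : UBOn 𝒞 (fun c => c.good q) K one
      (fun c x => (hWt c x)⁻¹ • pE c.F c.V (cov c.V (c.ph q)) x) :=
    (hw.smul (h.ub_pE q)).mono_weight zero_le_one fun c hc x _ => by
      simp [one, (h.hWt_pos c hc x).ne']
  have hinv := (hp.inner hp |>.mono_weight (ν := one) zero_le_one fun c _ x _ => by
    simp [one]).inv_of_lower (δ := (c₀ ^ 2) ^ 2) (by have := h.c₀_pos; positivity)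
    fun c hc x hx => by
      have h0 := h.hWt_pos c hc x
      rw [real_inner_self_eq_norm_sq, norm_smul, Real.norm_eq_abs, abs_inv, abs_of_pos h0,
        abs_of_nonneg (by positivity)]
      gcongr
      rw [le_inv_mul_iff₀ h0, mul_comm]
      exact h.pE_lower c hc q x hx
  have hax : UBOn 𝒞 (fun c => c.good q) K one (fun _ _ => axis (qix P q).2) := ubOn_const _
  refine ((h.ub_normal le_rfl hax).sub (((hp.inner hax).mono_weight (ν := one) zero_le_one
    fun c _ x _ => by simp [one]).mul_one hinv |>.smul_one hp)).congr_eq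
      fun c hc => funext fun x => ?_
  have h0 := (h.hWt_pos c hc x).ne'
  simp only [uFld, real_inner_smul_left, real_inner_smul_right, smul_smul]
  congr 2
  generalize ⟪pE c.F c.V (cov c.V (c.ph q)) x, pE c.F c.V (cov c.V (c.ph q)) x⟫ = t
  rcases eq_or_ne t 0 with rfl | h1
  · simp
  · field_simp

theorem Adm.sum_uFld (h : Adm 𝒞 K B c₀) {c : Ctx N P} (hc : c ∈ 𝒞) (p : DIdx P) {x : c.M}
    (hx : x ∈ tsupport (c.ρ p)) :
    ∑ a : Fin 4, ⟪uFld ((qix P).symm (p, a)) c x, uFld ((qix P).symm (p, a)) c x⟫ = 1 := by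
  have hq : ∀ a, (qix P ((qix P).symm (p, a))) = (p, a) := fun a => Equiv.apply_symm_apply _ _
  have hgood : x ∈ c.good ((qix P).symm (p, 0)) := by simpa [Ctx.good, hq] using hx
  have hP := h.pE_ne_zero c hc _ x hgood
  simp only [Ctx.ph, hq] at hP
  refine Eq.trans (sum_congr rfl fun a _ => ?_)
    (sum_sq_proj_sub _ (h.finrank_normal hc x) (pE_mem_orth c.F (cov c.V (c.Y p.phase)) x) hP)
  simp only [uFld, Ctx.ph, hq]

theorem Adm.decAt (h : Adm 𝒞 K B c₀) {c : Ctx N P} (hc : c ∈ 𝒞) (x : c.M) : DecAt c x := by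
  intro Φ hs ha hm i k
  let Φ' : R2 → R2 → ℝ := Φ
  have ha₂ : ∀ u v w : TangentSpace (𝓡 2) x, Φ u (v + w) = Φ u v + Φ u w := fun u v w => by
    rw [hs, ha, hs v u, hs w u]
  have hm₂ : ∀ (r : ℝ) (u v : TangentSpace (𝓡 2) x), Φ u (r • v) = r * Φ u v := fun r u v => by
    rw [hs, hm, hs]
  let Bf : R2 →ₗ[ℝ] R2 →ₗ[ℝ] ℝ := LinearMap.mk₂ ℝ Φ'
    (fun u v w => ha u v w) (fun r u v => hm r u v) (fun u v w => ha₂ u v w)
    (fun r u v => hm₂ r u v)
  exact h.decomp c hc x (fun j l _ => Φ (c.V j x) (c.V l x))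
    (tensAt_of_form (V := c.V) (x := x) Bf hs) i k

theorem Adm.slack_lower (h : Adm 𝒞 K B c₀) : ∃ δ : ℝ, 0 < δ ∧ ∀ c ∈ 𝒞, ∀ q,
    ∀ x ∈ tsupport (c.ρ q), δ * c.σ x ≤ slackCoef c q x := by
  refine ⟨c₀, h.c₀_pos, fun c hc q x hx => ?_⟩
  have hl := h.ℓ_pos c hc x
  have h2 : slackCoef c q x = lPair c q (resid c) x / c.ℓ x ^ 2 := by
    simp only [slackCoef, lPair, resid, sum_div, mul_div_assoc, resW]
    simp
  rw [h2, le_div_iff₀ (pow_pos hl 2)]
  linarith [h.lower_T c hc q x hx]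

theorem Adm.exists_e2_both (h : Adm 𝒞 K B c₀) : ∃ δ : ℝ, 0 < δ ∧ ∀ c ∈ 𝒞, ∀ x,
    δ ≤ e2 (gNorm c.g c.V c.ℓ x) ∧ δ ≤ e2 (gmat c.F c.V c.ℓ x) := by
  obtain ⟨δ, hδ, hl⟩ := h.exists_e2_gNorm
  exact ⟨min δ c₀, lt_min hδ h.c₀_pos, fun c hc x =>
    ⟨(min_le_left _ _).trans (hl c hc x), (min_le_right _ _).trans (h.e2_lower c hc x)⟩⟩

/-- **The bridge.** -/
theorem Adm.stepHyp (h : Adm 𝒞 K B c₀) {R : ℝ} (hR : 0 < R) {L : ℕ} (hL : 1 ≤ L)
    (hdom : Dominant 𝒞 R L) : StepHyp 𝒞 R L K (max B 0) uFld where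
  R_pos := hR
  L_pos := hL
  B_nonneg := le_max_right _ _
  nice := h.nice
  geom := h.geom
  small c hc x := ⟨h.eps_pos c hc, h.eps_le c hc, h.ℓ_pos c hc x, h.H_pos c hc x,
    ((h.data c hc).le_H x).trans (le_max_left _ _), h.σ_pos c hc x, h.ratio c hc x⟩
  smooth_F := h.smooth_F
  spans := h.spans
  inj := h.inj
  ub_gNorm := h.ub_gNorm
  e2_lower := h.exists_e2_both
  ub_ρ := h.ub_ρ
  ub_L := h.ub_L
  ub_slack i k := (h.ub_resid i k).congr_eq fun c _ => funext fun x => by simp [resW, resid]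
  slack_lower := h.slack_lower
  dec c hc := h.decAt hc
  dominance := hdom
  ub_u := h.ub_uFld
  u_normal c _ q x _ := Submodule.sub_mem _ (Submodule.starProjection_apply_mem _ _)
    (Submodule.smul_mem _ _ (pE_mem_orth c.F _ x))
  u_perp c hc q x hx := pE_inner_uFld c q x (h.pE_ne_zero c hc q x hx)
  u_sum c hc p x hx := h.sum_uFld hc p hx

/-- All phases dominate for `R` large. -/
theorem Adm.exists_stepHyp (h : Adm 𝒞 K B c₀) {L : ℕ} (hL : 1 ≤ L) :
    ∃ R₀ : ℝ, ∀ R, R₀ ≤ R → StepHyp 𝒞 R L K (max B 0) uFld := by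
  obtain ⟨c₁, hc₁, hA⟩ := h.exists_cov_lower
  have hc : 0 < min c₁ (c₀ ^ 2) := lt_min hc₁ (pow_pos h.c₀_pos 2)
  obtain ⟨R₀, hR₀⟩ := dominant_of_lower h hc
    (fun c hc q x hx => (min_le_left _ _).trans (hA c hc q x hx))
    (fun c hc q x hx => (mul_le_mul_of_nonneg_right (min_le_right _ _)
      (h.hWt_pos c hc x).le).trans (h.pE_lower c hc q x hx)) L
  exact ⟨max R₀ 1, fun R hR => h.stepHyp (zero_lt_one.trans_le ((le_max_right _ _).trans hR)) hL
    (hR₀ R ((le_max_left _ _).trans hR))⟩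

end Vale.Agent.P205.Full.Stage
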