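import Vale.Agent.P205.Full.Stage.DecompCoord

/-!
# P205 stage, selection: the decomposition statement
-/

open scoped Manifold ContDiff RealInnerProductSpace Topology
open Bundle Finset

namespace Vale.Agent.P205.Full.Decomp

open Stage

/-- The constants of the selection: cutoff level, determinant bound, threshold of `P`, slack. -/
structure Consts (N : ℕ) (B κ m δ : ℝ) : Prop where
  κ_pos : 0 < κ
  m_pos : 0 < m
  δ_pos : 0 < δ
  κ_gram : 50 * κ ≤ (B ^ 2)⁻¹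
  κ_psq : 2 * κ ≤ ((B ^ 2)⁻¹ * m) ^ 2
  m_small : 300 * m * (4 * B ^ 2 * ((N : ℝ) ^ 2 + 1)) < 1
  δ_small : δ ≤ 1 / 8
  δ_res : ((N : ℝ) * (2 * B * (B + 1) / (B ^ 2)⁻¹)) ^ 2 * δ ≤ 1 / 8

theorem exists_consts (N : ℕ) {B : ℝ} (hB : 1 ≤ B) : ∃ κ m δ, Consts N B κ m δ := by
  have hw : 0 < (B ^ 2)⁻¹ := by positivity
  set m : ℝ := 1 / (1500 * B ^ 2 * ((N : ℝ) ^ 2 + 1)) with hm
  have hm0 : 0 < m := by positivity
  set Λ : ℝ := ((N : ℝ) * (2 * B * (B + 1) / (B ^ 2)⁻¹)) ^ 2 with hΛ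
  have hΛ0 : 0 ≤ Λ := sq_nonneg _
  refine ⟨min ((B ^ 2)⁻¹ / 50) (((B ^ 2)⁻¹ * m) ^ 2 / 2), m, 1 / (8 * (Λ + 1)),
    ⟨lt_min (by positivity) (by positivity), hm0, by positivity, ?_, ?_, ?_, ?_, ?_⟩⟩
  · linarith [min_le_left ((B ^ 2)⁻¹ / 50) (((B ^ 2)⁻¹ * m) ^ 2 / 2)]
  · linarith [min_le_right ((B ^ 2)⁻¹ / 50) (((B ^ 2)⁻¹ * m) ^ 2 / 2)]
  · rw [hm, show 300 * (1 / (1500 * B ^ 2 * ((N : ℝ) ^ 2 + 1))) * (4 * B ^ 2 * ((N : ℝ) ^ 2 + 1)) =
      4 / 5 by field_simp; ring]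
    norm_num
  · rw [div_le_div_iff₀ (by positivity) (by norm_num)]; linarith
  · rw [mul_one_div, div_le_div_iff₀ (by positivity) (by norm_num)]; linarith

section

variable {M : Type} [TopologicalSpace M] [ChartedSpace R2 M] [IsManifold (𝓡 2) ∞ M]
variable {N P : ℕ}

/-- Normalised data along the surface. -/
noncomputable def data (g : Metric M) (V : Frame M N) (F : M → R4) (ℓ H : M → ℝ)
    (Y χ : Fin P → M → ℝ) (y : M) : Dat N P :=
  (fun p i => χ p y * D V i (Y p) y, fun i k => (ℓ y)⁻¹ * (ℓ y)⁻¹ * gV g V i k y,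
    fun i k => ((ℓ y)⁻¹ * (H y)⁻¹) • sff F V i k y)

variable {g : Metric M} {V : Frame M N} {F : M → R4} {ℓ H σ : M → ℝ}
  {Y χ : Fin P → M → ℝ} {K : ℕ} {B κ m δ : ℝ}

/-- Everything known at one point. -/
structure Facts (g : Metric M) (V : Frame M N) (F : M → R4) (ℓ H : M → ℝ)
    (Y χ : Fin P → M → ℝ) (B κ : ℝ) (x : M) where
  /-- The coordinates. -/
  c : Coord g V (ℓ x) x
  /-- The first entry of the pull-back metric. -/
  a : ℝ
  /-- The second entry. -/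
  b : ℝ
  /-- The third entry. -/
  d : ℝ
  /-- The entries of the second fundamental form. -/
  t : R4 × R4 × R4
  pp : ∑ i, c.p i * c.p i ≤ B
  qq : ∑ i, c.q i * c.q i ≤ B
  w : 0 < gram c.p c.q
  metric : (data g V F ℓ H Y χ x).2.1 = tv c.p c.q 1 0 1
  second : (data g V F ℓ H Y χ x).2.2 = tv c.p c.q t.1 t.2.1 t.2.2
  pull : gmat F V ℓ x = tm c.p c.q a b d
  ha : 1 / 2 ≤ a
  ha' : a ≤ 3 / 2
  hb : |b| ≤ 1 / 4
  hd : 1 / 2 ≤ d
  hd' : d ≤ 3 / 2
  good : ∃ s, gate κ s (data g V F ℓ H Y χ x) = 1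

theorem exists_facts (hB : 1 ≤ B) (hc : Consts N B κ m δ)
    (h : StageData g V F ℓ H σ Y χ K B δ) (hσ : ∀ x, σ x ≤ δ) (x : M) :
    Nonempty (Facts g V F ℓ H Y χ B κ x) := by
  have hl := h.pos_ℓ x
  have hH := h.pos_H x
  obtain ⟨c⟩ := exists_coord' g V hl.ne' x
  obtain ⟨-, hpp, hqq, hw⟩ := c.bounds hl (h.frame_lower x) (h.frame_upper x)
  have hw0 : (0 : ℝ) < (B ^ 2)⁻¹ := by positivity
  have hl2 : ℓ x * ℓ x ≠ 0 := by positivity
  have hmetric : (data g V F ℓ H Y χ x).2.1 = tv c.p c.q 1 0 1 := by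
    funext i k
    show (ℓ x)⁻¹ * (ℓ x)⁻¹ * gV g V i k x = _
    rw [c.gV_eq]
    simp only [tv, smul_eq_mul]
    field_simp
    ring
  obtain ⟨II, hIIs, hII⟩ := exists_sff_tensor (x := x) h.smooth_V (h.smooth_F x)
  set t : R4 × R4 × R4 := ((ℓ x / H x) • II c.e₁ c.e₁, (ℓ x / H x) • II c.e₁ c.e₂,
    (ℓ x / H x) • II c.e₂ c.e₂) with ht
  have hsecond : (data g V F ℓ H Y χ x).2.2 = tv c.p c.q t.1 t.2.1 t.2.2 := by
    funext i k
    show ((ℓ x)⁻¹ * (H x)⁻¹) • sff F V i k x = _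
    rw [hII, c.apply_tensor (fun u v => II u v) hIIs (fun u v w => by simp) (fun r u v => by simp)]
    simp only [tv, ht]
    match_scalars <;> field_simp
  let L : TangentSpace (𝓡 2) x →L[ℝ] R4 := mfderiv (𝓡 2) 𝓘(ℝ, R4) F x
  have hpull : ∀ i k, pullV F V i k x = tv c.p c.q ((ℓ x * ℓ x) * ⟪L c.e₁, L c.e₁⟫)
      ((ℓ x * ℓ x) * ⟪L c.e₁, L c.e₂⟫) ((ℓ x * ℓ x) * ⟪L c.e₂, L c.e₂⟫) i k := fun i k =>
    c.apply_tensor (fun u v => ⟪L u, L v⟫) (fun u v => real_inner_comm _ _)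
      (fun u v w => by rw [map_add, inner_add_left])
      (fun r u v => by rw [map_smul, real_inner_smul_left, smul_eq_mul]) i k
  set a := ⟪L c.e₁, L c.e₁⟫
  set b := ⟪L c.e₁, L c.e₂⟫
  set d := ⟪L c.e₂, L c.e₂⟫
  have hgmat : gmat F V ℓ x = tm c.p c.q a b d := by
    ext i k
    show pullV F V i k x / ℓ x ^ 2 = _
    rw [hpull, tm_apply]
    simp only [tv, smul_eq_mul]
    field_simp
  have hσ0 := h.pos_σ x
  have hres : ∀ i k, |tv c.p c.q (1 - σ x - a) (-b) (1 - σ x - d) i k| ≤ δ := fun i k => by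
    have h0 := h.bd_res i k [] (Nat.zero_le _) x (Set.mem_univ x)
    simp only [DW_nil, c.gV_eq, hpull, Real.norm_eq_abs] at h0
    have e : ∀ r : ℝ, tv c.p c.q (ℓ x * ℓ x) 0 (ℓ x * ℓ x) i k -
        tv c.p c.q ((ℓ x * ℓ x) * a) ((ℓ x * ℓ x) * b) ((ℓ x * ℓ x) * d) i k -
        r * tv c.p c.q (ℓ x * ℓ x) 0 (ℓ x * ℓ x) i k =
        (ℓ x * ℓ x) * tv c.p c.q (1 - r - a) (-b) (1 - r - d) i k := fun r => by
      simp only [tv, smul_eq_mul]; ring
    rw [e, abs_mul, abs_of_pos (mul_pos hl hl)] at h0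
    have h1 : δ * (σ x * ℓ x ^ 2) ≤ δ * (ℓ x * ℓ x) := by
      have := mul_le_mul_of_nonneg_right ((hσ x).trans hc.δ_small) (sq_nonneg (ℓ x))
      have := hc.δ_pos
      nlinarith
    exact le_of_mul_le_mul_left ((h0.trans h1).trans_eq (mul_comm _ _)) (mul_pos hl hl)
  obtain ⟨r₁, r₂, r₃⟩ := entries_le hpp hqq hw0 hw _ _ _ hres
  have hsmall := hc.δ_res
  have hs8 := (hσ x).trans hc.δ_small
  rw [abs_le] at r₁ r₃
  rw [abs_neg] at r₂
  have hsize : 300 * m < max ‖t.1‖ (max ‖t.2.1‖ ‖t.2.2‖) := by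
    set T := max ‖t.1‖ (max ‖t.2.1‖ ‖t.2.2‖)
    have h1 : sffSize F V x / (ℓ x * H x) ≤ (N : ℝ) * ((N : ℝ) * (4 * B * T)) := by
      rw [sffSize, sum_div]
      refine (sum_le_sum (g := fun _ => (N : ℝ) * (4 * B * T)) fun i _ => ?_).trans_eq (by simp)
      rw [sum_div]
      refine (sum_le_sum (g := fun _ => 4 * B * T) fun k _ => ?_).trans_eq (by simp)
      refine le_trans (le_of_eq ?_) (tv_entries_bound hpp hqq t.1 t.2.1 t.2.2 i k)
      rw [← hsecond]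
      show _ = ‖((ℓ x)⁻¹ * (H x)⁻¹) • sff F V i k x‖
      rw [norm_smul, Real.norm_eq_abs, abs_of_pos (by positivity)]
      field_simp
    have h2 : 1 ≤ B * (sffSize F V x / (ℓ x * H x)) := by
      rw [mul_div_assoc', le_div_iff₀ (mul_pos hl hH), one_mul]
      exact h.sff_lower x
    have hT : 0 ≤ T := (norm_nonneg _).trans (le_max_left _ _)
    by_contra hle
    have h3 := mul_le_mul_of_nonneg_left h1 (zero_le_one.trans hB)
    have h4 : T * (4 * B ^ 2 * ((N : ℝ) ^ 2 + 1)) ≤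
        300 * m * (4 * B ^ 2 * ((N : ℝ) ^ 2 + 1)) :=
      mul_le_mul_of_nonneg_right (not_lt.1 hle) (by positivity)
    have := hc.m_small
    nlinarith [mul_nonneg hT (sq_nonneg B)]
  have hpi : ∀ s s' : Fin 3, ∃ p, χ p x = 1 ∧
      Near (ℓ x * dR (Y p) x c.e₁, ℓ x * dR (Y p) x c.e₂) (dirs s s') := fun s s' => by
    obtain ⟨p, hp1, hp2⟩ := h.rich x _ (c.unit (dirs s s') (dirs_unit s s'))
    exact ⟨p, hp1, c.near_of_rich hp2⟩
  choose ph hπ hnear using hpi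
  refine ⟨⟨c, a, b, d, t, hpp, hqq, hw0.trans_le hw, hmetric, hsecond, hgmat, by linarith,
    by linarith, by linarith, by linarith, by linarith, ?_⟩⟩
  refine exists_gate_eq_one hc.κ_pos hw0 hw hc.m_pos.le hc.κ_gram hc.κ_psq ph hnear
    (fun s s' => ?_) hmetric hsecond hsize
  rw [← c.cov_eq]
  funext i
  show χ (ph s s') x * D V i (Y (ph s s')) x = _
  rw [hπ, one_mul]
  rfl

theorem Facts.gmat_det {x : M} (f : Facts g V F ℓ H Y χ B κ x) :
    0 < f.a * f.d - f.b ^ 2 ∧ f.a * f.d - f.b ^ 2 ≤ 9 / 4 := by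
  obtain ⟨h1, h2⟩ := abs_le.1 f.hb
  have := f.ha; have := f.ha'; have := f.hd; have := f.hd'
  constructor <;> nlinarith

theorem Facts.spans {x : M} (f : Facts g V F ℓ H Y χ B κ x) (hl : ℓ x ≠ 0) :
    Submodule.span ℝ (Set.range fun i => V i x) = ⊤ :=
  f.c.mem_span hl f.w.ne'

theorem Facts.injective {x : M} (f : Facts g V F ℓ H Y χ B κ x) (hl : ℓ x ≠ 0) :
    Function.Injective (mfderiv (𝓡 2) 𝓘(ℝ, R4) F x) := by
  let L : TangentSpace (𝓡 2) x →L[ℝ] R4 := mfderiv (𝓡 2) 𝓘(ℝ, R4) F x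
  have hzero : ∀ v, L v = 0 → v = 0 := fun v hv => by
    have hin : ∀ i, ⟪L (V i x), L v⟫ = (0 : ℝ) := fun i => by rw [hv, inner_zero_right]
    set u₁ := g.inner x v f.c.e₁
    set u₂ := g.inner x v f.c.e₂
    have hpull : ∀ i k, pullV F V i k x = ℓ x ^ 2 * tm f.c.p f.c.q f.a f.b f.d i k := fun i k => by
      rw [← f.pull]
      show _ = ℓ x ^ 2 * (pullV F V i k x / ℓ x ^ 2)
      field_simp
    have hLe : ∀ i, ⟪L (V i x), L v⟫ = ℓ x * (f.c.p i * (f.a * u₁ + f.b * u₂) +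
        f.c.q i * (f.b * u₁ + f.d * u₂)) := fun i => by
      have hT := f.c.apply_tensor (fun u w => ⟪L u, L w⟫) (fun u w => real_inner_comm _ _)
        (fun u w z => by rw [map_add, inner_add_left])
        (fun r u w => by rw [map_smul, real_inner_smul_left, smul_eq_mul])
      obtain ⟨ea, eb, ed⟩ : ⟪L f.c.e₁, L f.c.e₁⟫ = f.a ∧ ⟪L f.c.e₁, L f.c.e₂⟫ = f.b ∧
          ⟪L f.c.e₂, L f.c.e₂⟫ = f.d := by
        have key : ∀ i k, tv f.c.p f.c.q (⟪L f.c.e₁, L f.c.e₁⟫ - f.a)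
            (⟪L f.c.e₁, L f.c.e₂⟫ - f.b) (⟪L f.c.e₂, L f.c.e₂⟫ - f.d) i k = 0 := fun i k => by
          have h1 := (hT i k).symm.trans (hpull i k)
          rw [tm_apply] at h1
          simp only [tv, smul_eq_mul] at h1 ⊢
          refine mul_left_cancel₀ (pow_ne_zero 2 hl) ?_
          linear_combination h1
        obtain ⟨z₁, z₂, z₃⟩ := entries_le f.pp f.qq f.w le_rfl _ _ _
          (fun i k => (le_of_eq (by rw [key i k, abs_zero]) : |_| ≤ (0 : ℝ)))
        rw [mul_zero, abs_nonpos_iff, sub_eq_zero] at z₁ z₂ z₃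
        exact ⟨z₁, z₂, z₃⟩
      conv_lhs => rw [f.c.frame_eq i, f.c.expand v]
      simp only [map_add, map_smul, inner_add_left, inner_add_right, real_inner_smul_left,
        real_inner_smul_right]
      rw [real_inner_comm (L f.c.e₁) (L f.c.e₂), ea, eb, ed]
      ring
    have hcv : cv f.c.p f.c.q (f.a * u₁ + f.b * u₂, f.b * u₁ + f.d * u₂) = 0 := by
      funext i
      have := (hLe i).symm.trans (hin i)
      rcases mul_eq_zero.1 this with h0 | h0
      · exact absurd h0 hl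
      · simp only [cv, Pi.zero_apply]; linarith
    have hz : ∀ α : ℝ × ℝ, cv f.c.p f.c.q α = 0 → α.1 = 0 ∧ α.2 = 0 := fun α hα => by
      have e1 := congrArg (fun r => r ⬝ᵥ cv f.c.p f.c.q (1, 0)) hα
      have e2 := congrArg (fun r => r ⬝ᵥ cv f.c.p f.c.q (0, 1)) hα
      simp only [dot_cv, zero_dotProduct] at e1 e2
      have hg := f.w.ne'
      constructor <;> refine (mul_eq_zero.1 (?_ : _ * gram f.c.p f.c.q = 0)).resolve_right hg
      · simp only [gram]; linear_combination (∑ i, f.c.q i * f.c.q i) * e1 -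
          (∑ i, f.c.p i * f.c.q i) * e2
      · simp only [gram]; linear_combination (∑ i, f.c.p i * f.c.p i) * e2 -
          (∑ i, f.c.p i * f.c.q i) * e1
    obtain ⟨e1, e2⟩ := hz _ hcv
    have hdet := f.gmat_det.1.ne'
    have hu₁ : u₁ = 0 := (mul_eq_zero.1
      (show u₁ * (f.a * f.d - f.b ^ 2) = 0 by linear_combination f.d * e1 - f.b * e2)).resolve_right hdet
    have hu₂ : u₂ = 0 := (mul_eq_zero.1
      (show u₂ * (f.a * f.d - f.b ^ 2) = 0 by linear_combination f.a * e2 - f.b * e1)).resolve_right hdet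
    rw [f.c.expand v]
    show u₁ • f.c.e₁ + u₂ • f.c.e₂ = 0
    rw [hu₁, hu₂, zero_smul, zero_smul, add_zero]
  intro v w hvw
  refine sub_eq_zero.1 (hzero _ ?_)
  rw [map_sub]
  exact sub_eq_zero.2 hvw

end

theorem stageData_mono {M : Type} [TopologicalSpace M] [ChartedSpace R2 M]
    [IsManifold (𝓡 2) ∞ M] {g : Metric M} {N P : ℕ} {V : Frame M N} {F : M → R4}
    {ℓ H σ : M → ℝ} {Y χ : Fin P → M → ℝ} {K : ℕ} {B B' δ : ℝ}
    (h : StageData g V F ℓ H σ Y χ K B δ) (hB : B ≤ B') :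
    StageData g V F ℓ H σ Y χ K B' δ :=
  { h with
    le_H := fun x => (h.le_H x).trans hB
    bd_ℓ := h.bd_ℓ.mono_const hB fun x _ => (h.pos_ℓ x).le
    bd_H := h.bd_H.mono_const hB fun x _ => (h.pos_H x).le
    bd_σ := h.bd_σ.mono_const hB fun x _ => (h.pos_σ x).le
    frame_lower := fun x v => (h.frame_lower x v).trans
      (mul_le_mul_of_nonneg_right hB (Finset.sum_nonneg fun i _ => sq_nonneg _))
    frame_upper := fun x v => (h.frame_upper x v).trans (mul_le_mul_of_nonneg_right hB (by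
      refine mul_nonneg (sq_nonneg _) ?_
      rcases eq_or_ne v 0 with rfl | hv
      · simp
      · exact (g.pos x v hv).le))
    bd_g := fun i k => (h.bd_g i k).mono_const hB fun x _ => sq_nonneg _
    bd_dF := fun i => (h.bd_dF i).mono_const hB fun x _ => (h.pos_ℓ x).le
    bd_sff := fun i k => (h.bd_sff i k).mono_const hB fun x _ =>
      (mul_pos (h.pos_ℓ x) (h.pos_H x)).le
    sff_lower := fun x => (h.sff_lower x).trans (mul_le_mul_of_nonneg_right hB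
      (Finset.sum_nonneg fun i _ => Finset.sum_nonneg fun k _ => norm_nonneg _))
    bd_χ := fun p => (h.bd_χ p).mono_const hB fun _ _ => zero_le_one
    bd_dY := fun p i => (h.bd_dY p i).mono_const hB fun _ _ => zero_le_one }

/-- **S3.** -/
theorem decomp_stmt : DecompProp := by
  intro N P K
  refine ⟨K, fun B₀ => ?_⟩
  set B := max B₀ 1
  have hB : 1 ≤ B := le_max_right _ _
  have hB0 : 0 < B := zero_lt_one.trans_le hB
  obtain ⟨κ, m, δ, hc⟩ := exists_consts N hB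
  obtain ⟨Ci, hCi, hinv⟩ := exists_bdOn_inv N K B
  set R : ℝ := 2 ^ K * B * B + 2 ^ K * (2 ^ K * Ci * Ci) * B + 1
  have hR : 1 ≤ R := by
    have : 0 ≤ 2 ^ K * B * B + 2 ^ K * (2 ^ K * Ci * Ci) * B := by
      have : 0 ≤ Ci := zero_le_one.trans hCi
      positivity
    linarith
  choose Cρ hCρ0 hCρ using fun t : Fin P × Fin P × Fin P =>
    exists_bdOn_comp_contDiff N K R (contDiff_rhoFun (N := N) (κ := κ) (t := t))
  choose CL hCL0 hCL using fun (q : DIdx P) (i k : Fin N) =>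
    exists_bdOn_comp_contDiff N K R (contDiff_lFun (t := q.1) hc.κ_pos q.2 i k)
  set C := 2 ^ K * (∑ t, Cρ t) * B + (∑ q, ∑ i, ∑ k, CL q i k) + 1
  set D₀ := 2 * (N : ℝ) ^ 2 * R ^ 4 + 1
  have hD₀ : 0 < D₀ := by positivity
  have hC1 : 0 ≤ ∑ q, ∑ i, ∑ k, CL q i k :=
    sum_nonneg fun q _ => sum_nonneg fun i _ => sum_nonneg fun k _ => hCL0 q i k
  have hC2 : 0 ≤ 2 ^ K * (∑ t, Cρ t) * B := by
    have := sum_nonneg (s := univ) fun t _ => hCρ0 t
    positivity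
  have hκ := hc.κ_pos
  set c₀ := min (κ / (D₀ * B ^ 2 * (18 * B))) (min (Real.sqrt κ / (3 * B ^ 4)) (2 * κ / D₀))
  refine ⟨C, c₀, δ, by linarith, lt_min (by positivity) (lt_min (by positivity) (by positivity)),
    hc.δ_pos, fun M _ _ _ _ _ g V F ℓ H σ Y χ h₀ hσ => ?_⟩
  have h := stageData_mono h₀ (le_max_left B₀ 1)
  have hfacts := fun x => Classical.choice (exists_facts hB hc h hσ x)
  have hV := h.smooth_V
  have hsff : ∀ i k, ContMDiff (𝓡 2) 𝓘(ℝ, R4) ∞ (sff F V i k) :=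
    contMDiff_sff hV (fun x => (hfacts x).spans (h.pos_ℓ x).ne') h.smooth_F
      fun x => (hfacts x).injective (h.pos_ℓ x).ne'
  have hil : ContMDiff (𝓡 2) 𝓘(ℝ, ℝ) ∞ fun y => (ℓ y)⁻¹ := fun x =>
    ContDiffAt.comp_contMDiffAt (contDiffAt_inv ℝ (h.pos_ℓ x).ne') (h.smooth_ℓ x)
  have hiH : ContMDiff (𝓡 2) 𝓘(ℝ, ℝ) ∞ fun y => (H y)⁻¹ := fun x =>
    ContDiffAt.comp_contMDiffAt (contDiffAt_inv ℝ (h.pos_H x).ne') (h.smooth_H x)
  have bil := hinv M V Set.univ ℓ hV (fun x _ => h.smooth_ℓ x) (fun x _ => h.pos_ℓ x) h.bd_ℓ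
  have biH := hinv M V Set.univ H hV (fun x _ => h.smooth_H x) (fun x _ => h.pos_H x) h.bd_H
  have mulS : ∀ {a b : M → ℝ}, ContMDiff (𝓡 2) 𝓘(ℝ, ℝ) ∞ a → ContMDiff (𝓡 2) 𝓘(ℝ, ℝ) ∞ b →
      ContMDiff (𝓡 2) 𝓘(ℝ, ℝ) ∞ fun y => a y * b y := fun {a b} ha hb x =>
    contMDiffAt_bilin (ContinuousLinearMap.mul ℝ ℝ) (ha x) (hb x)
  set Z := data g V F ℓ H Y χ
  have sA : ∀ p i, ContMDiff (𝓡 2) 𝓘(ℝ, ℝ) ∞ fun y => χ p y * D V i (Y p) y := fun p i =>
    mulS (h.smooth_χ p) (contMDiff_D hV i (h.smooth_Y p))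
  have bA : ∀ p i, Bd V K R (fun _ => 1) fun y => χ p y * D V i (Y p) y := fun p i => by
    have h1 := BdOn.mul hV (fun x _ => h.smooth_χ p x)
      (fun x _ => contMDiff_D hV i (h.smooth_Y p) x) ((h.bd_χ p).bdOn _) (h.bd_dY p i)
    have h2 := h1.bd_of_tsupport_subset (tsupport_mul_subset_left)
      (fun _ => by positivity)
    refine BdOn.mono_bound h2 fun x _ => ?_
    have : 0 ≤ 2 ^ K * (2 ^ K * Ci * Ci) * B := by
      have : 0 ≤ Ci := zero_le_one.trans hCi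
      positivity
    simp only [mul_one]
    linarith
  have sG : ∀ i k, ContMDiff (𝓡 2) 𝓘(ℝ, ℝ) ∞ fun y => (ℓ y)⁻¹ * (ℓ y)⁻¹ * gV g V i k y :=
    fun i k => mulS (mulS hil hil) (contMDiff_gV g hV i k)
  have bG : ∀ i k, Bd V K R (fun _ => 1) fun y => (ℓ y)⁻¹ * (ℓ y)⁻¹ * gV g V i k y := fun i k => by
    refine BdOn.mono_bound (BdOn.mul hV (fun x _ => mulS hil hil x)
      (fun x _ => contMDiff_gV g hV i k x)
      (BdOn.mul hV (fun x _ => hil x) (fun x _ => hil x) bil bil) (h.bd_g i k)) fun x _ => ?_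
    have e : (ℓ x)⁻¹ * (ℓ x)⁻¹ * ℓ x ^ 2 = 1 := by have := (h.pos_ℓ x).ne'; field_simp
    rw [e]
    have : 0 ≤ 2 ^ K * B * B := by positivity
    linarith
  have sH : ∀ i k, ContMDiff (𝓡 2) 𝓘(ℝ, R4) ∞
      fun y => ((ℓ y)⁻¹ * (H y)⁻¹) • sff F V i k y := fun i k x =>
    (mulS hil hiH x).smul (hsff i k x)
  have bH : ∀ i k, Bd V K R (fun _ => 1) fun y => ((ℓ y)⁻¹ * (H y)⁻¹) • sff F V i k y :=
    fun i k => by
      refine BdOn.mono_bound (BdOn.smul hV (fun x _ => mulS hil hiH x) (fun x _ => hsff i k x)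
        (BdOn.mul hV (fun x _ => hil x) (fun x _ => hiH x) bil biH) (h.bd_sff i k)) fun x _ => ?_
      have e : (ℓ x)⁻¹ * (H x)⁻¹ * (ℓ x * H x) = 1 := by
        have := (h.pos_ℓ x).ne'; have := (h.pos_H x).ne'; field_simp
      rw [e]
      have : 0 ≤ 2 ^ K * B * B := by positivity
      linarith
  have s₁ : ∀ x, ContMDiffAt (𝓡 2) 𝓘(ℝ, Fin P → Fin N → ℝ) ∞ (fun y => (Z y).1) x := fun x =>
    contMDiffAt_pi_space.2 fun p => contMDiffAt_pi_space.2 fun i => sA p i x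
  have s₂ : ∀ x, ContMDiffAt (𝓡 2) 𝓘(ℝ, Fin N → Fin N → ℝ) ∞ (fun y => (Z y).2.1) x := fun x =>
    contMDiffAt_pi_space.2 fun i => contMDiffAt_pi_space.2 fun k => sG i k x
  have s₃ : ∀ x, ContMDiffAt (𝓡 2) 𝓘(ℝ, Fin N → Fin N → R4) ∞ (fun y => (Z y).2.2) x := fun x =>
    contMDiffAt_pi_space.2 fun i => contMDiffAt_pi_space.2 fun k => sH i k x
  have hR0 : ∀ x ∈ (Set.univ : Set M), 0 ≤ R * (fun _ => (1 : ℝ)) x := fun x _ => by
    simp only [mul_one]; linarith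
  have b₁ : Bd V K R (fun _ => 1) fun y => (Z y).1 :=
    bdOn_pi hV (fun p x _ => contMDiffAt_pi_space.2 fun i => sA p i x) hR0 fun p =>
      bdOn_pi hV (fun i x _ => sA p i x) hR0 fun i => bA p i
  have b₂ : Bd V K R (fun _ => 1) fun y => (Z y).2.1 :=
    bdOn_pi hV (fun i x _ => contMDiffAt_pi_space.2 fun k => sG i k x) hR0 fun i =>
      bdOn_pi hV (fun k x _ => sG i k x) hR0 fun k => bG i k
  have b₃ : Bd V K R (fun _ => 1) fun y => (Z y).2.2 :=
    bdOn_pi hV (fun i x _ => contMDiffAt_pi_space.2 fun k => sH i k x) hR0 fun i =>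
      bdOn_pi hV (fun k x _ => sH i k x) hR0 fun k => bH i k
  have sZ : ContMDiff (𝓡 2) 𝓘(ℝ, Dat N P) ∞ Z := fun x =>
    (s₁ x).prodMk_space ((s₂ x).prodMk_space (s₃ x))
  have bZ : Bd V K R (fun _ => 1) Z :=
    BdOn.prodMk hV (fun x _ => s₁ x) (fun x _ => (s₂ x).prodMk_space (s₃ x)) b₁
      (BdOn.prodMk hV (fun x _ => s₂ x) (fun x _ => s₃ x) b₂ b₃)
  have hZR : ∀ x, ‖Z x‖ ≤ R := fun x => by simpa using bZ.bdOn _ |>.norm_le (Set.mem_univ x)
  have sρ : ∀ t, ContMDiff (𝓡 2) 𝓘(ℝ, ℝ) ∞ fun y => rhoFun κ t (Z y) := fun t x =>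
    contDiff_rhoFun.contDiffAt.comp_contMDiffAt (sZ x)
  have sL : ∀ (q : DIdx P) i k, ContMDiff (𝓡 2) 𝓘(ℝ, ℝ) ∞
      fun y => lFun κ q.1 (Z y) q.2 i k := fun q i k x =>
    (contDiff_lFun hκ q.2 i k).contDiffAt.comp_contMDiffAt (sZ x)
  refine ⟨fun q y => rhoFun κ q.1 (Z y) * χ q.phase y, fun q i k y => lFun κ q.1 (Z y) q.2 i k,
    fun q => mulS (sρ q.1) (h.smooth_χ _), sL, fun q => ?_, fun q i k => ?_,
    fun q => tsupport_mul_subset_right, fun q x hx => ?_, fun x Φ hs ha hm i k => ?_⟩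
  · refine BdOn.mono_bound (BdOn.mul hV (fun x _ => sρ q.1 x) (fun x _ => h.smooth_χ _ x)
      (hCρ q.1 M V Set.univ Z hV (fun x _ => sZ x) bZ) (h.bd_χ _)) fun x _ => ?_
    have := single_le_sum (fun t _ => hCρ0 t) (mem_univ q.1)
    simp only [mul_one]
    nlinarith [mul_le_mul_of_nonneg_left this (show (0 : ℝ) ≤ 2 ^ K * B by positivity)]
  · refine BdOn.mono_bound (hCL q i k M V Set.univ Z hV (fun x _ => sZ x) bZ) fun x _ => ?_
    have h1 := single_le_sum (fun k _ => hCL0 q i k) (mem_univ k)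
    have h2 := single_le_sum (f := fun i => ∑ k, CL q i k)
      (fun i _ => sum_nonneg fun k _ => hCL0 q i k) (mem_univ i)
    have h3 := single_le_sum (f := fun q => ∑ i, ∑ k, CL q i k)
      (fun q _ => sum_nonneg fun i _ => sum_nonneg fun k _ => hCL0 q i k) (mem_univ q)
    simp only [mul_one]
    linarith
  · obtain ⟨t, s⟩ := q
    have hclosed : IsClosed {y | den t (Z y) s ≤ -κ ∧ num t (Z y) s ≤ -κ ∧ κ ≤ psq t (Z y) s} :=
      ((isClosed_le ((contDiff_den s).continuous.comp sZ.continuous) continuous_const).inter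
        ((isClosed_le ((contDiff_num s).continuous.comp sZ.continuous) continuous_const).inter
          (isClosed_le continuous_const ((contDiff_psq s).continuous.comp sZ.continuous))))
    obtain ⟨hden, hnum, hpsq⟩ := closure_minimal (fun y hy => by
      have hy' : gate κ t (Z y) ≠ 0 := fun h0 => hy (by simp [rhoFun, h0])
      obtain ⟨h1, h2, h3⟩ := of_gate_ne_zero hκ hy' s
      exact ⟨h1.le, h2.le, h3.le⟩) hclosed hx
    set f := hfacts x
    set p := DIdx.phase ((t, s) : DIdx P)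
    have hvec : vec t (Z x) s = χ p x • cov V (Y p) x := rfl
    have hnv : ∀ r, ‖vec t (Z x) r‖ ≤ R := fun r =>
      (norm_le_pi_norm (Z x).1 _).trans ((norm_fst_le _).trans (hZR x))
    have houter : ‖fun a b => vec t (Z x) s a * vec t (Z x) s b‖ ≤
        ‖vec t (Z x) s‖ * ‖vec t (Z x) s‖ := by
      refine (pi_norm_le_iff_of_nonneg (by positivity)).2 fun a =>
        (pi_norm_le_iff_of_nonneg (by positivity)).2 fun b => ?_
      rw [norm_mul]
      exact mul_le_mul (norm_le_pi_norm _ a) (norm_le_pi_norm _ b) (norm_nonneg _) (norm_nonneg _)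
    have hden' : -den t (Z x) s ≤
        2 * (N : ℝ) ^ 2 * (R * R * (‖vec t (Z x) s‖ * ‖vec t (Z x) s‖)) := by
      refine (neg_le_abs _).trans ((le_of_eq (Real.norm_eq_abs _).symm).trans ((norm_qf_le _ _ _).trans ?_))
      gcongr
      · exact hnv _
      · exact hnv _
    have hv2 : κ / D₀ ≤ ‖vec t (Z x) s‖ ^ 2 := by
      rw [div_le_iff₀ hD₀]
      have h4 : R * R ≤ R ^ 4 := by have := pow_le_pow_right₀ hR (show 2 ≤ 4 by norm_num); rwa [sq] at this
      nlinarith [mul_le_mul_of_nonneg_left h4 (mul_nonneg (by positivity : (0:ℝ) ≤ 2 * (N : ℝ) ^ 2)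
        (sq_nonneg ‖vec t (Z x) s‖))]
    obtain ⟨i, hi⟩ : ∃ i, κ / D₀ ≤ vec t (Z x) s i ^ 2 := by
      by_contra hne
      push Not at hne
      have hlt : ‖vec t (Z x) s‖ < Real.sqrt (κ / D₀) := by
        refine (pi_norm_lt_iff (by positivity)).2 fun a => ?_
        rw [Real.norm_eq_abs, ← Real.sqrt_sq_eq_abs]
        exact Real.sqrt_lt_sqrt (sq_nonneg _) (hne a)
      have h5 := pow_lt_pow_left₀ hlt (norm_nonneg _) two_ne_zero
      rw [Real.sq_sqrt (by positivity)] at h5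
      linarith
    have hχ2 : χ p x ^ 2 ≤ B ^ 2 := by
      have := ((h.bd_χ p).bdOn Set.univ).norm_le (Set.mem_univ x)
      rw [mul_one, Real.norm_eq_abs] at this
      exact sq_le_sq' (abs_le.1 this).1 (abs_le.1 this).2
    have hcov := f.c.cov_eq (Y p)
    set α : ℝ × ℝ := (ℓ x * dR (Y p) x f.c.e₁, ℓ x * dR (Y p) x f.c.e₂)
    have hη : κ / (D₀ * B ^ 2) ≤ cv f.c.p f.c.q α i ^ 2 := by
      rw [hvec, Pi.smul_apply, smul_eq_mul, mul_pow, hcov] at hi
      rw [← div_div, div_le_iff₀ (by positivity)]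
      nlinarith [mul_le_mul_of_nonneg_right hχ2 (sq_nonneg (cv f.c.p f.c.q α i))]
    refine ⟨(min_le_left _ _).trans ?_, ?_, ?_⟩
    · show _ ≤ nrm2 (gmat F V ℓ x) (cov V (Y p) x)
      rw [f.pull, hcov, ← div_div]
      exact nrm2_lower f.pp f.qq f.w.ne' hB0 f.ha f.ha' f.hb f.hd f.hd' hη
    · show c₀ * H x ≤ ‖pVec F V ℓ (Y p) x‖
      obtain ⟨hdet0, hdet⟩ := f.gmat_det
      have hE : (fun a b => (ℓ x)⁻¹ • sff F V a b x) =
          tv f.c.p f.c.q (H x • f.t.1) (H x • f.t.2.1) (H x • f.t.2.2) := by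
        funext a b
        have h1 := congrFun (congrFun f.second a) b
        have h2 : (ℓ x)⁻¹ • sff F V a b x = H x • (((ℓ x)⁻¹ * (H x)⁻¹) • sff F V a b x) := by
          rw [smul_smul]
          congr 1
          have := (h.pos_H x).ne'
          field_simp
        rw [h2]
        refine (congrArg (H x • ·) h1).trans ?_
        simp only [tv, smul_add, smul_smul]
        match_scalars <;> ring
      have hq : qf (cv f.c.p f.c.q α) (cv f.c.p f.c.q α)
          (tv f.c.p f.c.q (H x • f.t.1) (H x • f.t.2.1) (H x • f.t.2.2)) =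
          H x • qf (cv f.c.p f.c.q α) (cv f.c.p f.c.q α) (Z x).2.2 := by
        rw [← qf_smul_right, f.second]
        congr 1
        funext a b
        simp only [tv, smul_add, smul_smul]
        match_scalars <;> ring
      have hpq : Real.sqrt κ ≤ χ p x ^ 2 *
          ‖qf (cv f.c.p f.c.q α) (cv f.c.p f.c.q α) (Z x).2.2‖ := by
        have := Real.sqrt_le_sqrt hpsq
        rw [psq, Real.sqrt_sq (norm_nonneg _), hvec, hcov, qf_smul, norm_smul, Real.norm_eq_abs,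
          abs_of_nonneg (mul_self_nonneg _)] at this
        rwa [sq]
      show _ ≤ ‖rForm (gmat F V ℓ x) (cov V (Y p) x) (fun a b => (ℓ x)⁻¹ • sff F V a b x)‖
      rw [f.pull, hcov, hE, rForm_tm _ _ hdet0.ne' f.w.ne', hq, norm_smul, norm_smul,
        Real.norm_eq_abs, Real.norm_eq_abs, e2_tm, abs_of_pos (h.pos_H x),
        abs_of_pos (inv_pos.2 (mul_pos hdet0 f.w))]
      have hgram : gram f.c.p f.c.q ≤ B * B := by
        have : gram f.c.p f.c.q ≤ (∑ a, f.c.p a * f.c.p a) * ∑ a, f.c.q a * f.c.q a :=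
          sub_le_self _ (sq_nonneg _)
        exact this.trans (mul_le_mul f.pp f.qq (sum_nonneg fun a _ => mul_self_nonneg _) hB0.le)
      set Q := ‖qf (cv f.c.p f.c.q α) (cv f.c.p f.c.q α) (Z x).2.2‖
      have hQ : Real.sqrt κ ≤ B ^ 2 * Q :=
        hpq.trans (mul_le_mul_of_nonneg_right hχ2 (norm_nonneg _))
      have hE2 : (f.a * f.d - f.b ^ 2) * gram f.c.p f.c.q ≤ 3 * (B * B) :=
        mul_le_mul (by linarith) hgram f.w.le (by norm_num)
      have hc₀ : c₀ ≤ ((f.a * f.d - f.b ^ 2) * gram f.c.p f.c.q)⁻¹ * Q := by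
        refine ((min_le_right _ _).trans (min_le_left _ _)).trans ?_
        rw [inv_mul_eq_div, div_le_div_iff₀ (by positivity) (mul_pos hdet0 f.w)]
        calc Real.sqrt κ * ((f.a * f.d - f.b ^ 2) * gram f.c.p f.c.q)
            ≤ (B ^ 2 * Q) * (3 * (B * B)) :=
              mul_le_mul hQ hE2 (mul_pos hdet0 f.w).le (by positivity)
          _ = Q * (3 * B ^ 4) := by ring
      calc c₀ * H x ≤ ((f.a * f.d - f.b ^ 2) * gram f.c.p f.c.q)⁻¹ * Q * H x :=
            mul_le_mul_of_nonneg_right hc₀ (h.pos_H x).le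
        _ = _ := by ring
    · show c₀ ≤ ∑ a, ∑ b, lFun κ t (Z x) s a b * (gV g V a b x / ℓ x ^ 2)
      refine ((min_le_right _ _).trans (min_le_right _ _)).trans ?_
      have e : ∀ a b, gV g V a b x / ℓ x ^ 2 = (Z x).2.1 a b := fun a b => by
        show _ = (ℓ x)⁻¹ * (ℓ x)⁻¹ * gV g V a b x
        field_simp
      simp only [e]
      rw [sum_lFun hκ hden]
      show _ ≤ 2 * (num t (Z x) s / den t (Z x) s)
      rw [mul_div_assoc', ← neg_div_neg_eq (2 * num t (Z x) s)]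
      refine div_le_div₀ (by linarith) (by linarith) (by linarith) ?_
      have hv := hnv s
      have := mul_le_mul_of_nonneg_left
        (mul_le_mul hv hv (norm_nonneg _) (zero_le_one.trans hR))
        (show 0 ≤ 2 * (N : ℝ) ^ 2 * (R * R) by positivity)
      nlinarith
  · set f := hfacts x
    set T : Fin N → Fin N → ℝ := fun a b => Φ (V a x) (V b x)
    obtain ⟨T₁, T₂, T₃, hT⟩ : ∃ T₁ T₂ T₃, T = tv f.c.p f.c.q T₁ T₂ T₃ :=
      ⟨_, _, _, funext fun a => funext fun b => f.c.apply_tensor Φ hs ha hm a b⟩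
    show ∑ q : DIdx P, (rhoFun κ q.1 (Z x) * χ q.phase x) ^ 2 *
      (∑ a, ∑ b, lFun κ q.1 (Z x) q.2 a b * T a b) *
      (cov V (Y q.phase) x i * cov V (Y q.phase) x k) / 2 = T i k
    obtain ⟨t₀, ht₀⟩ := f.good
    rw [Fintype.sum_prod_type]
    have hstep : ∀ t, ∑ s, (rhoFun κ t (Z x) * χ (DIdx.phase (t, s)) x) ^ 2 *
        (∑ a, ∑ b, lFun κ t (Z x) s a b * T a b) *
        (cov V (Y (DIdx.phase (t, s))) x i * cov V (Y (DIdx.phase (t, s))) x k) / 2 =
        rhoFun κ t (Z x) ^ 2 * T i k := fun t => by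
      rcases eq_or_ne (gate κ t (Z x)) 0 with hg | hg
      · simp [rhoFun, hg]
      · have hvs : ∀ s, vec t (Z x) s =
            χ (DIdx.phase (t, s)) x • cov V (Y (DIdx.phase (t, s))) x := fun s => rfl
        have hsum := sum_qf_div (p := f.c.p) (q := f.c.q) hκ hg f.w.ne'
          (α := fun s => (χ (DIdx.phase (t, s)) x * (ℓ x * dR (Y (DIdx.phase (t, s))) x f.c.e₁),
            χ (DIdx.phase (t, s)) x * (ℓ x * dR (Y (DIdx.phase (t, s))) x f.c.e₂)))
          (fun s => by rw [hvs, f.c.cov_eq, smul_cv]) T₁ T₂ T₃ i k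
        rw [← hT] at hsum
        rw [← hsum, mul_sum]
        refine sum_congr rfl fun s _ => ?_
        rw [sum_lFun hκ (of_gate_ne_zero hκ hg s).1.le, hvs s]
        simp only [Pi.smul_apply, smul_eq_mul]
        ring
    rw [sum_congr rfl fun t _ => hstep t, ← sum_mul, sum_rhoFun_sq ht₀, one_mul]

end Vale.Agent.P205.Full.Decomp
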