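import Vale.Agent.P205.Full.Stage.Dominance
import Vale.Agent.P205.Full.Stage.DecompMain

/-!
# P205 full, module STAGE: the class of data of the stage lemma (helper99)

`exists_class`: for an order `K` a larger order `K'`, chosen before `B`, such that for every `B`
the data of `StageProp` with small `δ`, completed by the decomposition, form an admissible class
whose frequencies are dominated by their top phases for `R` large.
-/

open scoped Manifold ContDiff RealInnerProductSpace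
open Bundle

namespace Vale.Agent.P205.Full.Stage

open Decomp

/-- The hypotheses of the stage lemma are monotone in the order and in the constants. -/
theorem stageData_mono' {M : Type} [TopologicalSpace M] [ChartedSpace R2 M]
    [IsManifold (𝓡 2) ∞ M] {g : Metric M} {N P : ℕ} {V : Frame M N} {F : M → R4}
    {ℓ H σ : M → ℝ} {Y χ : Fin P → M → ℝ} {K K' : ℕ} {B B' δ δ' : ℝ}
    (h : StageData g V F ℓ H σ Y χ K B δ) (hK : K' ≤ K) (hB : B ≤ B') (hδ : δ ≤ δ') :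
    StageData g V F ℓ H σ Y χ K' B' δ' :=
  have h' := stageData_mono h hB
  { h' with
    bd_ℓ := h'.bd_ℓ.mono_order hK
    bd_H := h'.bd_H.mono_order hK
    bd_σ := h'.bd_σ.mono_order hK
    bd_g := fun i k => (h'.bd_g i k).mono_order hK
    bd_dF := fun i => (h'.bd_dF i).mono_order hK
    bd_sff := fun i k => (h'.bd_sff i k).mono_order hK
    bd_res := fun i k => ((h'.bd_res i k).mono_order hK).mono_const hδ fun x _ =>
      mul_nonneg (h.pos_σ x).le (sq_nonneg _)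
    bd_χ := fun p => (h'.bd_χ p).mono_order hK
    bd_dY := fun p i => (h'.bd_dY p i).mono_order hK }

variable {N P : ℕ}

/-- The stage data with smallness and the output of the decomposition. -/
def stageClass (N P K K' : ℕ) (B δ C c₀ : ℝ) : Set (Ctx N P) :=
  {c | StageData c.g c.V c.F c.ℓ c.H c.σ c.Y c.χ K' B δ ∧ 0 < c.ε ∧ c.ε ≤ δ ∧
    (∀ x, Real.sqrt (c.σ x) ≤ δ * c.ε * c.H x) ∧
    (∀ q, ContMDiff (𝓡 2) 𝓘(ℝ, ℝ) ∞ (c.ρ q)) ∧
    (∀ q i k, ContMDiff (𝓡 2) 𝓘(ℝ, ℝ) ∞ (c.L q i k)) ∧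
    (∀ q, Bd c.V K C (fun _ => 1) (c.ρ q)) ∧
    (∀ q i k, Bd c.V K C (fun _ => 1) (c.L q i k)) ∧
    (∀ q, tsupport (c.ρ q) ⊆ tsupport (c.χ q.phase)) ∧
    (∀ q, ∀ x ∈ tsupport (c.ρ q),
      c₀ ≤ nrm2 (gmat c.F c.V c.ℓ x) (cov c.V (c.Y q.phase) x) ∧
      c₀ * c.H x ≤ ‖pVec c.F c.V c.ℓ (c.Y q.phase) x‖ ∧
      c₀ ≤ ∑ i, ∑ k, c.L q i k x * (gV c.g c.V i k x / c.ℓ x ^ 2)) ∧
    (∀ x (Φ : TangentSpace (𝓡 2) x → TangentSpace (𝓡 2) x → ℝ),
      (∀ u v, Φ u v = Φ v u) → (∀ u v w, Φ (u + v) w = Φ u w + Φ v w) →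
      (∀ (a : ℝ) u v, Φ (a • u) v = a * Φ u v) →
      ∀ i k, ∑ q, c.ρ q x ^ 2 * (∑ j, ∑ l, c.L q j l x * Φ (c.V j x) (c.V l x)) *
          (cov c.V (c.Y q.phase) x i * cov c.V (c.Y q.phase) x k) / 2 = Φ (c.V i x) (c.V k x))}

/-- A tensor is given by a symmetric bilinear form on the tangent plane. -/
theorem exists_form_of_tensAt {M : Type} [TopologicalSpace M] [ChartedSpace R2 M]
    [IsManifold (𝓡 2) ∞ M] {V : Frame M N} {x : M} {T : Fin N → Fin N → ℝ} (h : TensAt V x T) :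
    ∃ Φ : TangentSpace (𝓡 2) x → TangentSpace (𝓡 2) x → ℝ,
      (∀ u v, Φ u v = Φ v u) ∧ (∀ u v w, Φ (u + v) w = Φ u w + Φ v w) ∧
      (∀ (a : ℝ) u v, Φ (a • u) v = a * Φ u v) ∧ ∀ i k, Φ (V i x) (V k x) = T i k := by
  obtain ⟨t₁, t₂, t₃, rfl⟩ := h
  let B : R2 → R2 → ℝ := fun u v =>
    u 0 * v 0 * t₁ + (u 0 * v 1 + u 1 * v 0) * t₂ + u 1 * v 1 * t₃
  refine ⟨B, fun u v => ?_, fun u v w => ?_, fun a u v => ?_, fun i k => ?_⟩
  · simp only [B]; ring
  · have e : ∀ j : Fin 2, (show R2 from u + v) j = (show R2 from u) j + (show R2 from v) j :=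
      fun j => rfl
    simp only [B]; erw [e 0, e 1]; ring
  · have e : ∀ j : Fin 2, (show R2 from a • u) j = a * (show R2 from u) j := fun j => rfl
    simp only [B]; erw [e 0, e 1]; ring
  · simp only [B, tv, vx, vy, vec2, smul_eq_mul]

/-- The lower bounds at one phase, read in plane coordinates. -/
theorem exists_phase_lower {M : Type} [TopologicalSpace M] [ChartedSpace R2 M]
    [IsManifold (𝓡 2) ∞ M] {g : Metric M} {V : Frame M N} {F : M → R4} {ℓ H σ : M → ℝ}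
    {Y χ : Fin P → M → ℝ} {K : ℕ} {B κ m δ c₀ : ℝ} (hB : 1 ≤ B) (hc : Consts N B κ m δ)
    (h : StageData g V F ℓ H σ Y χ K B δ) (hσ : ∀ x, σ x ≤ δ) (hc₀ : 0 < c₀) (x : M) :
    3 / 16 / B ^ 2 ≤ e2 (gmat F V ℓ x) ∧
      ∀ p, (c₀ ≤ nrm2 (gmat F V ℓ x) (cov V (Y p) x) →
        c₀ / (22 * B ^ 3) ≤ ∑ i, cov V (Y p) x i * cov V (Y p) x i) ∧
      (c₀ * H x ≤ ‖pVec F V ℓ (Y p) x‖ →
        3 / 16 / B ^ 2 * c₀ * (ℓ x * H x) ≤ ‖pE F V (cov V (Y p)) x‖) := by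
  obtain ⟨f⟩ := exists_facts hB hc h hσ x
  have hl := h.pos_ℓ x
  obtain ⟨-, hA, hC, hw⟩ := f.c.bounds hl (h.frame_lower x) (h.frame_upper x)
  obtain ⟨hdet, -⟩ := f.gmat_det
  obtain ⟨hb1, hb2⟩ := abs_le.1 f.hb
  have hB0 : 0 < B := zero_lt_one.trans_le hB
  have hb : f.b ^ 2 ≤ 1 / 16 := by nlinarith
  have hd : 3 / 16 ≤ f.a * f.d - f.b ^ 2 := by nlinarith [f.ha, f.hd]
  have he : 3 / 16 / B ^ 2 ≤ e2 (gmat F V ℓ x) := by
    rw [f.pull, e2_tm, div_eq_mul_inv]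
    exact mul_le_mul hd hw (by positivity) hdet.le
  refine ⟨he, fun p => ⟨fun hn => ?_, fun hp => ?_⟩⟩
  · set α : ℝ × ℝ := (ℓ x * dR (Y p) x f.c.e₁, ℓ x * dR (Y p) x f.c.e₂)
    have hcov : cov V (Y p) x = cv f.c.p f.c.q α := f.c.cov_eq (Y p)
    rw [f.pull, hcov, nrm2_tm _ _ hdet.ne' f.w.ne', le_div_iff₀ hdet] at hn
    set t := α.1 ^ 2 + α.2 ^ 2
    have hnum : f.d * α.1 ^ 2 - 2 * f.b * (α.1 * α.2) + f.a * α.2 ^ 2 ≤ 2 * t := by
      nlinarith [mul_le_mul_of_nonneg_right f.hd' (sq_nonneg α.1),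
        mul_le_mul_of_nonneg_right f.ha' (sq_nonneg α.2),
        mul_nonneg (sub_nonneg.2 hb2) (sq_nonneg (α.1 - α.2)),
        mul_nonneg (neg_le_iff_add_nonneg'.1 hb1) (sq_nonneg (α.1 + α.2))]
    have h1 : c₀ / 11 ≤ t := by
      have := mul_le_mul_of_nonneg_left hd hc₀.le
      linarith
    set A := ∑ i, f.c.p i * f.c.p i
    set C := ∑ i, f.c.q i * f.c.q i
    set D := ∑ i, f.c.p i * f.c.q i
    have hdot : ∑ i, cov V (Y p) x i * cov V (Y p) x i =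
        α.1 * α.1 * A + (α.1 * α.2 + α.2 * α.1) * D + α.2 * α.2 * C := by
      rw [hcov]; exact dot_cv _ _ α α
    set S := ∑ i, cov V (Y p) x i * cov V (Y p) x i
    have hS : 0 ≤ S := Finset.sum_nonneg fun i _ => mul_self_nonneg _
    have h2 : gram f.c.p f.c.q * t ≤ S * (A + C) := by
      have e : gram f.c.p f.c.q = A * C - D ^ 2 := rfl
      rw [e, hdot]
      nlinarith [sq_nonneg (A * α.1 + D * α.2), sq_nonneg (D * α.1 + C * α.2)]
    have h3 : (B ^ 2)⁻¹ * (c₀ / 11) ≤ S * (2 * B) :=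
      ((mul_le_mul hw h1 (by positivity) f.w.le).trans h2).trans
        (mul_le_mul_of_nonneg_left (by linarith) hS)
    calc c₀ / (22 * B ^ 3) = (B ^ 2)⁻¹ * (c₀ / 11) / (2 * B) := by field_simp; ring
      _ ≤ S := (div_le_iff₀ (by positivity)).2 h3
  · set α : ℝ × ℝ := (ℓ x * dR (Y p) x f.c.e₁, ℓ x * dR (Y p) x f.c.e₂)
    have hcov : cov V (Y p) x = cv f.c.p f.c.q α := f.c.cov_eq (Y p)
    have hE : (fun a b => (ℓ x)⁻¹ • sff F V a b x) =
        tv f.c.p f.c.q (H x • f.t.1) (H x • f.t.2.1) (H x • f.t.2.2) := by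
      funext a b
      have h1 := congrFun (congrFun f.second a) b
      have h2 : (ℓ x)⁻¹ • sff F V a b x = H x • (((ℓ x)⁻¹ * (H x)⁻¹) • sff F V a b x) := by
        rw [smul_smul]
        congr 1
        have := (h.pos_H x).ne'
        field_simp
      rw [h2]
      refine (congrArg (H x • ·) h1).trans ?_
      simp only [tv, smul_add, smul_smul]
      match_scalars <;> ring
    have hv : pVec F V ℓ (Y p) x =
        (e2 (gmat F V ℓ x))⁻¹ • ((ℓ x)⁻¹ • pE F V (cov V (Y p)) x) := by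
      show rForm (gmat F V ℓ x) (cov V (Y p) x) (fun a b => (ℓ x)⁻¹ • sff F V a b x) = _
      rw [f.pull, hcov, hE, rForm_tm _ _ hdet.ne' f.w.ne']
      congr 1
      rw [← hE, qf_smul_right, ← hcov]
      rfl
    have hpos : 0 < e2 (gmat F V ℓ x) := lt_of_lt_of_le (by positivity) he
    rw [hv, norm_smul, norm_smul, Real.norm_eq_abs, Real.norm_eq_abs, abs_inv, abs_inv,
      abs_of_pos hpos, abs_of_pos hl, ← mul_assoc, ← mul_inv, ← div_eq_inv_mul,
      le_div_iff₀ (mul_pos hpos hl)] at hp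
    refine le_trans ?_ hp
    calc 3 / 16 / B ^ 2 * c₀ * (ℓ x * H x) = 3 / 16 / B ^ 2 * (c₀ * H x * ℓ x) := by ring
      _ ≤ e2 (gmat F V ℓ x) * (c₀ * H x * ℓ x) :=
          mul_le_mul_of_nonneg_right he (mul_nonneg (mul_nonneg hc₀.le (h.pos_H x).le) hl.le)
      _ = c₀ * H x * (e2 (gmat F V ℓ x) * ℓ x) := by ring

/-- The class of the stage lemma. `K'` does not depend on `B`. -/
theorem exists_class (N P K : ℕ) : ∃ K' : ℕ, K ≤ K' ∧ ∀ B : ℝ,
    ∃ (𝒞 : Set (Ctx N P)) (B' c₀ δ : ℝ), 0 < δ ∧ δ ≤ 1 ∧ Adm 𝒞 K B' c₀ ∧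
      (∀ L : ℕ, ∃ R₀ : ℝ, ∀ R, R₀ ≤ R → Dominant 𝒞 R L) ∧
      ∀ (M : Type) [TopologicalSpace M] [T2Space M] [CompactSpace M] [ChartedSpace R2 M]
        [IsManifold (𝓡 2) ∞ M] (g : Metric M) (V : Frame M N) (F : M → R4)
        (ℓ H σ : M → ℝ) (Y χ : Fin P → M → ℝ) (ε : ℝ) (h : StageData g V F ℓ H σ Y χ K' B δ),
        0 < ε → ε ≤ δ → (∀ x, Real.sqrt (σ x) ≤ δ * ε * H x) →
        ∃ (ρ : DIdx P → M → ℝ) (L : DIdx P → Fin N → Fin N → M → ℝ),
          ({ M := M, g := g, V := V, smooth_V := h.smooth_V, F := F, ℓ := ℓ, H := H, σ := σ,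
             Y := Y, χ := χ, ε := ε, ρ := ρ, L := L } : Ctx N P) ∈ 𝒞 := by
  obtain ⟨K₀, hK₀⟩ := Decomp.decomp_stmt N P K
  refine ⟨max K K₀, le_max_left _ _, fun B₀ => ?_⟩
  set B := max B₀ 1
  have hB : 1 ≤ B := le_max_right _ _
  have hB0 : 0 < B := zero_lt_one.trans_le hB
  obtain ⟨κ, m, δc, hc⟩ := exists_consts N hB
  obtain ⟨C, c, δd, hC, hc0, hδd, hdec⟩ := hK₀ B
  set T := 2 * ((N : ℝ) ^ 2 * C + 1)
  have hT : 0 < T := by positivity
  set δ := min (min δd δc) (min (min 1 (B ^ 2)⁻¹) (c / T)) with hδdef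
  have hδ0 : 0 < δ := lt_min (lt_min hδd hc.δ_pos) (lt_min (lt_min one_pos (by positivity))
    (by positivity))
  have hδd' : δ ≤ δd := (min_le_left _ _).trans (min_le_left _ _)
  have hδc' : δ ≤ δc := (min_le_left _ _).trans (min_le_right _ _)
  have hδ1 : δ ≤ 1 := ((min_le_right _ _).trans (min_le_left _ _)).trans (min_le_left _ _)
  have hδB : δ ≤ (B ^ 2)⁻¹ := ((min_le_right _ _).trans (min_le_left _ _)).trans (min_le_right _ _)
  have hδT : δ ≤ c / T := (min_le_right _ _).trans (min_le_right _ _)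
  set 𝒞 := stageClass N P K (max K K₀) B δ C c with h𝒞
  have hσ : ∀ (M : Type) (σ H : M → ℝ) (ε : ℝ), 0 < ε → ε ≤ δ → (∀ x, H x ≤ B) →
      (∀ x, 0 < H x) → (∀ x, 0 < σ x) → (∀ x, Real.sqrt (σ x) ≤ δ * ε * H x) →
      ∀ x, σ x ≤ δ := by
    intro M σ H ε hε hεδ hH hH0 hσ0 hs x
    have h1 : Real.sqrt (σ x) ≤ δ * B := (hs x).trans (by
      have : δ * ε ≤ δ := mul_le_of_le_one_right hδ0.le (hεδ.trans hδ1)
      exact mul_le_mul this (hH x) (hH0 x).le hδ0.le)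
    have h2 := pow_le_pow_left₀ (Real.sqrt_nonneg _) h1 2
    rw [Real.sq_sqrt (hσ0 x).le] at h2
    refine h2.trans ?_
    have h3 : δ * B ^ 2 ≤ 1 := (le_div_iff₀ (by positivity)).1 (by rwa [one_div])
    calc (δ * B) ^ 2 = δ * (δ * B ^ 2) := by ring
      _ ≤ δ * 1 := mul_le_mul_of_nonneg_left h3 hδ0.le
      _ = δ := mul_one δ
  have hdata : ∀ c ∈ 𝒞, StageData c.g c.V c.F c.ℓ c.H c.σ c.Y c.χ K B δc ∧ (∀ x, c.σ x ≤ δc) ∧
      (∀ x, c.σ x ≤ 1) := fun c' hc' => by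
    obtain ⟨h, hε, hεδ, hs, -⟩ := hc'
    have := hσ _ c'.σ c'.H c'.ε hε hεδ h.le_H h.pos_H h.pos_σ hs
    exact ⟨stageData_mono' h (le_max_left _ _) le_rfl hδc', fun x => (this x).trans hδc',
      fun x => (this x).trans hδ1⟩
  have low := fun c' (hc' : c' ∈ 𝒞) x =>
    exists_phase_lower hB hc (hdata c' hc').1 (hdata c' hc').2.1 hc0 x
  set c₁ := min (min c (c / 2)) (3 / 16 / B ^ 2) with hc₁
  have hc₁0 : 0 < c₁ := lt_min (lt_min hc0 (half_pos hc0)) (by positivity)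
  have hadm : Adm 𝒞 K B c₁ := by
    refine ⟨hc₁0, fun c' hc' => stageData_mono' hc'.1 (le_max_left _ _) le_rfl hδ1,
      fun c' hc' => hc'.2.1, fun c' hc' => hc'.2.2.1.trans hδ1, fun c' hc' x => ?_,
      fun c' hc' => (hdata c' hc').2.2, fun c' hc' x => (min_le_right _ _).trans (low c' hc' x).1,
      fun d => ⟨fun c' hc' x _ => hc'.2.2.2.2.1 d x, C, hC.le, fun c' hc' =>
        hc'.2.2.2.2.2.2.1 d⟩,
      fun d i k => ⟨fun c' hc' x _ => hc'.2.2.2.2.2.1 d i k x, C, hC.le, fun c' hc' =>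
        hc'.2.2.2.2.2.2.2.1 d i k⟩,
      fun c' hc' => hc'.2.2.2.2.2.2.2.2.1, fun c' hc' d x hx => ?_, fun c' hc' d x hx => ?_,
      fun c' hc' d x hx => ?_, fun c' hc' x E hE i k => ?_⟩
    · exact (hc'.2.2.2.1 x).trans (mul_le_mul_of_nonneg_right
        (mul_le_of_le_one_left hc'.2.1.le hδ1) (hc'.1.pos_H x).le)
    · exact ((min_le_left _ _).trans (min_le_left _ _)).trans (hc'.2.2.2.2.2.2.2.2.2.1 d x hx).1
    · exact (mul_le_mul_of_nonneg_right ((min_le_left _ _).trans (min_le_left _ _))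
        (hc'.1.pos_H x).le).trans (hc'.2.2.2.2.2.2.2.2.2.1 d x hx).2.1
    · obtain ⟨h, -, -, -, -, -, -, hL, -, hlow, -⟩ := hc'
      have hl := h.pos_ℓ x
      have hσ0 := h.pos_σ x
      have hw : 0 ≤ c'.σ x * c'.ℓ x ^ 2 := by positivity
      have h3 := (hlow d x hx).2.2
      have herr : ∀ j l, -(C * (δ * (c'.σ x * c'.ℓ x ^ 2))) ≤
          c'.L d j l x * (resid c' j l x - c'.σ x * gV c'.g c'.V j l x) := fun j l => by
        have h1 := ((hL d j l).bdOn Set.univ).norm_le (Set.mem_univ x)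
        have h2 := ((h.bd_res j l).bdOn Set.univ).norm_le (Set.mem_univ x)
        rw [Real.norm_eq_abs] at h1 h2
        rw [mul_one] at h1
        refine neg_le_of_abs_le ?_
        rw [abs_mul]
        exact mul_le_mul h1 h2 (abs_nonneg _) hC.le
      have hsum := Finset.sum_le_sum fun j (_ : j ∈ Finset.univ) =>
        Finset.sum_le_sum fun l (_ : l ∈ Finset.univ) => herr j l
      simp only [Finset.sum_const, Finset.card_univ, Fintype.card_fin, nsmul_eq_mul, mul_sub,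
        Finset.sum_sub_distrib] at hsum
      have hgs : ∑ j, ∑ l, c'.L d j l x * (c'.σ x * gV c'.g c'.V j l x) =
          (c'.σ x * c'.ℓ x ^ 2) *
            ∑ j, ∑ l, c'.L d j l x * (gV c'.g c'.V j l x / c'.ℓ x ^ 2) := by
        simp only [Finset.mul_sum]
        refine Finset.sum_congr rfl fun j _ => Finset.sum_congr rfl fun l _ => ?_
        field_simp
      have h4 := mul_le_mul_of_nonneg_left h3 hw
      have h5 : (N : ℝ) ^ 2 * C * δ ≤ c / 2 := by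
        have := (le_div_iff₀ hT).1 hδT
        simp only [T] at this
        nlinarith
      have h6 := mul_le_mul_of_nonneg_right h5 hw
      have h7 : c₁ * (c'.σ x * c'.ℓ x ^ 2) ≤ c / 2 * (c'.σ x * c'.ℓ x ^ 2) :=
        mul_le_mul_of_nonneg_right ((min_le_left _ _).trans (min_le_right _ _)) hw
      show _ ≤ ∑ j, ∑ l, c'.L d j l x * resid c' j l x
      linarith
    · obtain ⟨Φ, hs, ha, hm, hΦ⟩ := exists_form_of_tensAt hE
      have h := hc'.2.2.2.2.2.2.2.2.2.2 x Φ hs ha hm i k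
      simp only [hΦ] at h
      exact h
  refine ⟨𝒞, B, c₁, δ, hδ0, hδ1, hadm, fun L => ?_, ?_⟩
  · refine dominant_of_lower hadm
      (c₁ := min (c / (22 * B ^ 3)) (3 / 16 / B ^ 2 * c)) (lt_min (by positivity) (by positivity))
      (fun c' hc' q x hx => ?_) (fun c' hc' q x hx => ?_) L
    · exact (min_le_left _ _).trans (((low c' hc' x).2 (qix P q).1.phase).1
        (hc'.2.2.2.2.2.2.2.2.2.1 _ x hx).1)
    · exact (mul_le_mul_of_nonneg_right (min_le_right _ _)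
        (mul_pos (hc'.1.pos_ℓ x) (hc'.1.pos_H x)).le).trans
        (((low c' hc' x).2 (qix P q).1.phase).2 (hc'.2.2.2.2.2.2.2.2.2.1 _ x hx).2.1)
  · intro M _ _ _ _ _ g V F ℓ H σ Y χ ε h hε hεδ hs
    have h' := stageData_mono (stageData_mono' h le_rfl le_rfl le_rfl) (le_max_left B₀ 1)
    obtain ⟨ρ, L, h1, h2, h3, h4, h5, h6, h7⟩ := hdec M g V F ℓ H σ Y χ
      (stageData_mono' h' (le_max_right _ _) le_rfl hδd')
      (fun x => (hσ M σ H ε hε hεδ h'.le_H h'.pos_H h'.pos_σ hs x).trans hδd')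
    exact ⟨ρ, L, h', hε, hεδ, hs, h1, h2, h3, h4, h5, h6, h7⟩

end Vale.Agent.P205.Full.Stage
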