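import Vale.Agent.P205.Full.Stage.Step
import Vale.Agent.P205.Full.Stage.Bridge
import Vale.Agent.P205.Full.Stage.Class

/-!
# P205 full, module STAGE: the stage lemma

The class of the data (`exists_class`) satisfies the hypotheses of one step (`Adm.stepHyp`), and
`2 m` steps give the bounds (`StepHyp.series`).
-/

open scoped Manifold ContDiff RealInnerProductSpace Topology
open Bundle Filter

noncomputable section

namespace Vale.Agent.P205.Full.Stage

/-- **The stage lemma.** -/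
theorem stage_stmt : StageProp := by
  intro N P m j
  obtain ⟨K, hK, hcls⟩ := exists_class N P (j + 2 * m + 1)
  refine ⟨K, fun B => ?_⟩
  obtain ⟨𝒞, B', c₀, δ, hδ, -, hadm, hdom, hmem⟩ := hcls B
  obtain ⟨R₀, hR₀⟩ := hdom (2 ^ (2 * m))
  have hstep := hadm.stepHyp (R := max R₀ 1) (lt_max_of_lt_right one_pos) Nat.one_le_two_pow
    (hR₀ _ (le_max_left _ _))
  obtain ⟨W, C, hC, hW⟩ := hstep.series m j le_rfl le_rfl
  refine ⟨C, δ, hC, hδ, ?_⟩
  intro M _ _ _ _ _ g V F ℓ H σ Y χ ε hdata hε hεδ hsmall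
  obtain ⟨ρ, Lm, hc⟩ := hmem M g V F ℓ H σ Y χ ε hdata hε hεδ hsmall
  obtain ⟨hsm, hw, hr⟩ := hW _ hc
  refine ⟨_, hsm, fun w hlen x => ?_, hr⟩
  simp only [add_sub_cancel_left]
  exact hw w hlen x

end Vale.Agent.P205.Full.Stage
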