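import Vale.Agent.P205.Full.Stage.CalculusBasic

/-!
# P205 full, module S1 (part 2): algebra of the bounds `Bd` and `BdOn`

Products of weights, composition with smooth maps (constants depend only on `N`, `K`, the bound and
the outer map), real powers of a weight with logarithmic derivative bounds, supports, compactness.
-/

open scoped Manifold ContDiff RealInnerProductSpace Topology
open Bundle Filter

set_option linter.unusedSectionVars false

namespace Vale.Agent.P205.Full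

section

variable {M : Type} [TopologicalSpace M] [ChartedSpace R2 M] [IsManifold (𝓡 2) ∞ M]
variable {E F G : Type} [NormedAddCommGroup E] [NormedSpace ℝ E]
  [NormedAddCommGroup F] [NormedSpace ℝ F] [NormedAddCommGroup G] [NormedSpace ℝ G]
variable {N K L : ℕ} {V : Frame M N} {s t : Set M} {C C₁ C₂ : ℝ} {μ μ₁ μ₂ : M → ℝ}
  {f g : M → E}

theorem bd_def : Bd V K C μ f ↔ BdOn V Set.univ K C μ f := Iff.rfl

theorem Bd.bdOn (h : Bd V K C μ f) (s : Set M) : BdOn V s K C μ f :=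
  fun w hw x _ => h w hw x (Set.mem_univ x)

theorem BdOn.norm_le (h : BdOn V s K C μ f) {x : M} (hx : x ∈ s) : ‖f x‖ ≤ C * μ x :=
  h [] (Nat.zero_le K) x hx

theorem BdOn.nonneg (h : BdOn V s K C μ f) {x : M} (hx : x ∈ s) : 0 ≤ C * μ x :=
  (norm_nonneg _).trans (h.norm_le hx)

theorem BdOn.mono_order (h : BdOn V s K C μ f) (hL : L ≤ K) : BdOn V s L C μ f :=
  fun w hw => h w (hw.trans hL)

theorem BdOn.mono_set (h : BdOn V s K C μ f) (hts : t ⊆ s) : BdOn V t K C μ f :=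
  fun w hw x hx => h w hw x (hts hx)

theorem BdOn.mono_bound (h : BdOn V s K C₁ μ₁ f) (hle : ∀ x ∈ s, C₁ * μ₁ x ≤ C₂ * μ₂ x) :
    BdOn V s K C₂ μ₂ f :=
  fun w hw x hx => (h w hw x hx).trans (hle x hx)

theorem BdOn.mono_const (h : BdOn V s K C₁ μ f) (hC : C₁ ≤ C₂) (hμ : ∀ x ∈ s, 0 ≤ μ x) :
    BdOn V s K C₂ μ f :=
  h.mono_bound fun x hx => mul_le_mul_of_nonneg_right hC (hμ x hx)

theorem BdOn.mono_weight {c : ℝ} (h : BdOn V s K C μ₁ f) (hC : 0 ≤ C)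
    (hμ : ∀ x ∈ s, μ₁ x ≤ c * μ₂ x) : BdOn V s K (C * c) μ₂ f :=
  h.mono_bound fun x hx => by
    rw [mul_assoc]
    exact mul_le_mul_of_nonneg_left (hμ x hx) hC

theorem BdOn.congr (h : BdOn V s K C μ f) (hfg : ∀ x ∈ s, f =ᶠ[𝓝 x] g) :
    BdOn V s K C μ g := fun w hw x hx => by
  rw [← DW_congr (hfg x hx) w]
  exact h w hw x hx

theorem bdOn_zero_iff : BdOn V s 0 C μ f ↔ ∀ x ∈ s, ‖f x‖ ≤ C * μ x := by
  refine ⟨fun h x hx => h.norm_le hx, fun h w hw x hx => ?_⟩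
  rw [List.length_eq_zero_iff.1 (Nat.le_zero.1 hw)]
  exact h x hx

/-- Induction on the order, peeling the innermost derivative. -/
theorem bdOn_succ_iff :
    BdOn V s (K + 1) C μ f ↔
      (∀ x ∈ s, ‖f x‖ ≤ C * μ x) ∧ ∀ i, BdOn V s K C μ (D V i f) := by
  constructor
  · intro h
    refine ⟨fun x hx => h.norm_le hx, fun i w hw x hx => ?_⟩
    rw [← DW_snoc]
    exact h _ (by simp only [List.length_append, List.length_singleton]; omega) x hx
  · rintro ⟨h₀, h₁⟩ w hw x hx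
    induction w using List.reverseRecOn with
    | nil => exact h₀ x hx
    | append_singleton w i _ =>
      rw [DW_snoc]
      exact h₁ i w (by simp only [List.length_append, List.length_singleton] at hw; omega) x hx

theorem BdOn.deriv (h : BdOn V s (K + 1) C μ f) (i : Fin N) : BdOn V s K C μ (D V i f) :=
  (bdOn_succ_iff.1 h).2 i

theorem BdOn.word (w : List (Fin N)) (h : BdOn V s (K + w.length) C μ f) :
    BdOn V s K C μ (DW V w f) := fun w' hw' x hx => by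
  rw [← DW_append]
  exact h _ (by simp only [List.length_append]; omega) x hx

/-! ## Linear operations -/

theorem BdOn.add (hV : FrameSmooth V) (hf : ∀ x ∈ s, ContMDiffAt (𝓡 2) 𝓘(ℝ, E) ∞ f x)
    (hg : ∀ x ∈ s, ContMDiffAt (𝓡 2) 𝓘(ℝ, E) ∞ g x)
    (h₁ : BdOn V s K C₁ μ f) (h₂ : BdOn V s K C₂ μ g) :
    BdOn V s K (C₁ + C₂) μ (fun y => f y + g y) := fun w hw x hx => by
  rw [DW_add hV w (hf x hx) (hg x hx), add_mul]
  exact norm_add_le_of_le (h₁ w hw x hx) (h₂ w hw x hx)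

theorem BdOn.sub (hV : FrameSmooth V) (hf : ∀ x ∈ s, ContMDiffAt (𝓡 2) 𝓘(ℝ, E) ∞ f x)
    (hg : ∀ x ∈ s, ContMDiffAt (𝓡 2) 𝓘(ℝ, E) ∞ g x)
    (h₁ : BdOn V s K C₁ μ f) (h₂ : BdOn V s K C₂ μ g) :
    BdOn V s K (C₁ + C₂) μ (fun y => f y - g y) := fun w hw x hx => by
  rw [DW_sub hV w (hf x hx) (hg x hx), add_mul]
  exact (norm_sub_le _ _).trans (add_le_add (h₁ w hw x hx) (h₂ w hw x hx))

theorem BdOn.neg (hV : FrameSmooth V) (hf : ∀ x ∈ s, ContMDiffAt (𝓡 2) 𝓘(ℝ, E) ∞ f x)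
    (h : BdOn V s K C μ f) : BdOn V s K C μ (fun y => -f y) := fun w hw x hx => by
  rw [DW_neg hV w (hf x hx), norm_neg]
  exact h w hw x hx

theorem BdOn.const_smul (hV : FrameSmooth V) (c : ℝ)
    (hf : ∀ x ∈ s, ContMDiffAt (𝓡 2) 𝓘(ℝ, E) ∞ f x)
    (h : BdOn V s K C μ f) : BdOn V s K (|c| * C) μ (fun y => c • f y) := fun w hw x hx => by
  rw [DW_const_smul hV c w (hf x hx), norm_smul, Real.norm_eq_abs, mul_assoc]
  exact mul_le_mul_of_nonneg_left (h w hw x hx) (abs_nonneg c)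

theorem BdOn.clm (hV : FrameSmooth V) (T : E →L[ℝ] F)
    (hf : ∀ x ∈ s, ContMDiffAt (𝓡 2) 𝓘(ℝ, E) ∞ f x)
    (h : BdOn V s K C μ f) : BdOn V s K (‖T‖ * C) μ (fun y => T (f y)) := fun w hw x hx => by
  rw [DW_clm hV T w (hf x hx), mul_assoc]
  exact (T.le_opNorm _).trans (mul_le_mul_of_nonneg_left (h w hw x hx) (norm_nonneg T))

theorem BdOn.sum (hV : FrameSmooth V) {ι : Type*} (T : Finset ι) {u : ι → M → E} {c : ι → ℝ}
    (hu : ∀ k ∈ T, ∀ x ∈ s, ContMDiffAt (𝓡 2) 𝓘(ℝ, E) ∞ (u k) x)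
    (h : ∀ k ∈ T, BdOn V s K (c k) μ (u k)) :
    BdOn V s K (∑ k ∈ T, c k) μ (fun y => ∑ k ∈ T, u k y) := fun w hw x hx => by
  rw [DW_sum hV T w (fun k hk => hu k hk x hx), Finset.sum_mul]
  exact (norm_sum_le _ _).trans (Finset.sum_le_sum fun k hk => h k hk w hw x hx)

theorem bdOn_const (c : E) (h : ∀ x ∈ s, ‖c‖ ≤ C * μ x) :
    BdOn V s K C μ (fun _ => c) := fun w _ x hx => by
  rcases eq_or_ne w [] with rfl | hw
  · exact h x hx
  · rw [DW_const c w hw, norm_zero]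
    exact (norm_nonneg c).trans (h x hx)

theorem bdOn_const_one (c : E) : BdOn V s K ‖c‖ (fun _ => 1) (fun _ => c) :=
  bdOn_const c fun _ _ => le_of_eq (mul_one _).symm

theorem BdOn.prodMk (hV : FrameSmooth V) {g : M → F}
    (hf : ∀ x ∈ s, ContMDiffAt (𝓡 2) 𝓘(ℝ, E) ∞ f x)
    (hg : ∀ x ∈ s, ContMDiffAt (𝓡 2) 𝓘(ℝ, F) ∞ g x)
    (h₁ : BdOn V s K C μ f) (h₂ : BdOn V s K C μ g) :
    BdOn V s K C μ (fun y => (f y, g y)) := fun w hw x hx => by
  have hp := (hf x hx).prodMk_space (hg x hx)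
  have e1 : DW V w f x = (DW V w (fun y => (f y, g y)) x).1 :=
    DW_clm hV (ContinuousLinearMap.fst ℝ E F) w hp
  have e2 : DW V w g x = (DW V w (fun y => (f y, g y)) x).2 :=
    DW_clm hV (ContinuousLinearMap.snd ℝ E F) w hp
  rw [Prod.norm_def, ← e1, ← e2]
  exact max_le (h₁ w hw x hx) (h₂ w hw x hx)

theorem bdOn_pi (hV : FrameSmooth V) {ι : Type} [Fintype ι] {u : ι → M → E}
    (hu : ∀ k, ∀ x ∈ s, ContMDiffAt (𝓡 2) 𝓘(ℝ, E) ∞ (u k) x)
    (hC : ∀ x ∈ s, 0 ≤ C * μ x) (h : ∀ k, BdOn V s K C μ (u k)) :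
    BdOn V s K C μ (fun y k => u k y) := fun w hw x hx => by
  have hp : ContMDiffAt (𝓡 2) 𝓘(ℝ, ι → E) ∞ (fun y k => u k y) x :=
    contMDiffAt_pi_space.2 fun k => hu k x hx
  refine (pi_norm_le_iff_of_nonneg (hC x hx)).2 fun k => ?_
  have e : DW V w (u k) x = DW V w (fun y j => u j y) x k :=
    DW_clm hV (ContinuousLinearMap.proj (φ := fun _ : ι => E) k) w hp
  rw [← e]
  exact h k w hw x hx

/-! ## Products -/

theorem contMDiffAt_bilin (T : E →L[ℝ] F →L[ℝ] G) {g : M → F} {x : M}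
    (hf : ContMDiffAt (𝓡 2) 𝓘(ℝ, E) ∞ f x) (hg : ContMDiffAt (𝓡 2) 𝓘(ℝ, F) ∞ g x) :
    ContMDiffAt (𝓡 2) 𝓘(ℝ, G) ∞ (fun y => T (f y) (g y)) x :=
  T.isBoundedBilinearMap.contDiff.contDiffAt.comp_contMDiffAt (hf.prodMk_space hg)

/-- Product rule for the bounds: weights multiply. -/
theorem BdOn.bilin (hV : FrameSmooth V) (T : E →L[ℝ] F →L[ℝ] G) {b : ℝ}
    (hT : ∀ u v, ‖T u v‖ ≤ b * ‖u‖ * ‖v‖) (hb : 0 ≤ b) {f : M → E} {g : M → F}
    (hf : ∀ x ∈ s, ContMDiffAt (𝓡 2) 𝓘(ℝ, E) ∞ f x)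
    (hg : ∀ x ∈ s, ContMDiffAt (𝓡 2) 𝓘(ℝ, F) ∞ g x)
    (h₁ : BdOn V s K C₁ μ₁ f) (h₂ : BdOn V s K C₂ μ₂ g) :
    BdOn V s K (2 ^ K * b * C₁ * C₂) (fun y => μ₁ y * μ₂ y) (fun y => T (f y) (g y)) := by
  induction K generalizing f g with
  | zero =>
    refine bdOn_zero_iff.2 fun x hx => (hT _ _).trans ?_
    calc b * ‖f x‖ * ‖g x‖ ≤ b * (C₁ * μ₁ x) * (C₂ * μ₂ x) :=
          mul_le_mul (mul_le_mul_of_nonneg_left (h₁.norm_le hx) hb) (h₂.norm_le hx)
            (norm_nonneg _) (mul_nonneg hb (h₁.nonneg hx))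
      _ = _ := by ring
  | succ K ih =>
    have hD := fun i => (h₁.deriv i)
    have hD' := fun i => (h₂.deriv i)
    refine bdOn_succ_iff.2 ⟨fun x hx => ?_, fun i => ?_⟩
    · have h0 := (ih hf hg (h₁.mono_order K.le_succ) (h₂.mono_order K.le_succ)).norm_le hx
      have h1 := (norm_nonneg _).trans h0
      rw [pow_succ]
      calc ‖T (f x) (g x)‖ ≤ 2 ^ K * b * C₁ * C₂ * (μ₁ x * μ₂ x) := h0
        _ ≤ 2 * (2 ^ K * b * C₁ * C₂ * (μ₁ x * μ₂ x)) := le_mul_of_one_le_left h1 one_le_two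
        _ = _ := by ring
    · have s1 : ∀ x ∈ s, ContMDiffAt (𝓡 2) 𝓘(ℝ, E) ∞ (D V i f) x :=
        fun x hx => contMDiffAt_D hV i (hf x hx)
      have s2 : ∀ x ∈ s, ContMDiffAt (𝓡 2) 𝓘(ℝ, F) ∞ (D V i g) x :=
        fun x hx => contMDiffAt_D hV i (hg x hx)
      have hsum := BdOn.add hV (fun x hx => contMDiffAt_bilin T (s1 x hx) (hg x hx))
        (fun x hx => contMDiffAt_bilin T (hf x hx) (s2 x hx))
        (ih s1 hg (hD i) (h₂.mono_order K.le_succ)) (ih hf s2 (h₁.mono_order K.le_succ) (hD' i))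
      refine (hsum.mono_bound fun x _ => le_of_eq (by rw [pow_succ]; ring)).congr fun x hx => ?_
      filter_upwards [eventually_mdiffAt (hf x hx), eventually_mdiffAt (hg x hx)] with y hy hy'
      exact (D_bilin T hy hy').symm

theorem BdOn.smul (hV : FrameSmooth V) {a : M → ℝ}
    (ha : ∀ x ∈ s, ContMDiffAt (𝓡 2) 𝓘(ℝ, ℝ) ∞ a x)
    (hf : ∀ x ∈ s, ContMDiffAt (𝓡 2) 𝓘(ℝ, E) ∞ f x)
    (h₁ : BdOn V s K C₁ μ₁ a) (h₂ : BdOn V s K C₂ μ₂ f) :
    BdOn V s K (2 ^ K * C₁ * C₂) (fun y => μ₁ y * μ₂ y) (fun y => a y • f y) := by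
  have h := BdOn.bilin hV (ContinuousLinearMap.lsmul ℝ ℝ : ℝ →L[ℝ] E →L[ℝ] E) (b := 1)
    (fun u v => by rw [ContinuousLinearMap.lsmul_apply, norm_smul, one_mul]) zero_le_one
    ha hf h₁ h₂
  rwa [mul_one] at h

theorem BdOn.mul (hV : FrameSmooth V) {a b : M → ℝ}
    (ha : ∀ x ∈ s, ContMDiffAt (𝓡 2) 𝓘(ℝ, ℝ) ∞ a x)
    (hb : ∀ x ∈ s, ContMDiffAt (𝓡 2) 𝓘(ℝ, ℝ) ∞ b x)
    (h₁ : BdOn V s K C₁ μ₁ a) (h₂ : BdOn V s K C₂ μ₂ b) :
    BdOn V s K (2 ^ K * C₁ * C₂) (fun y => μ₁ y * μ₂ y) (fun y => a y * b y) :=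
  BdOn.smul hV ha hb h₁ h₂

theorem BdOn.inner {H : Type} [NormedAddCommGroup H] [InnerProductSpace ℝ H] (hV : FrameSmooth V)
    {u v : M → H} (hu : ∀ x ∈ s, ContMDiffAt (𝓡 2) 𝓘(ℝ, H) ∞ u x)
    (hv : ∀ x ∈ s, ContMDiffAt (𝓡 2) 𝓘(ℝ, H) ∞ v x)
    (h₁ : BdOn V s K C₁ μ₁ u) (h₂ : BdOn V s K C₂ μ₂ v) :
    BdOn V s K (2 ^ K * C₁ * C₂) (fun y => μ₁ y * μ₂ y) (fun y => ⟪u y, v y⟫) := by
  have h := BdOn.bilin hV (innerSL ℝ : H →L[ℝ] H →L[ℝ] ℝ) (b := 1)
    (fun a c => by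
      rw [one_mul]
      exact (Real.norm_eq_abs _).trans_le (abs_real_inner_le_norm a c))
    zero_le_one hu hv h₁ h₂
  rwa [mul_one] at h

theorem BdOn.pow (hV : FrameSmooth V) {a : M → ℝ}
    (ha : ∀ x ∈ s, ContMDiffAt (𝓡 2) 𝓘(ℝ, ℝ) ∞ a x) (h : BdOn V s K C μ a) (n : ℕ) :
    BdOn V s K ((2 ^ K * C) ^ n) (fun y => μ y ^ n) (fun y => a y ^ n) := by
  induction n with
  | zero => exact bdOn_const (1 : ℝ) fun x _ => by simp
  | succ n ih =>
    have hpow : ∀ x ∈ s, ContMDiffAt (𝓡 2) 𝓘(ℝ, ℝ) ∞ (fun y => a y ^ n) x :=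
      fun x hx => (contDiff_id.pow n).contDiffAt.comp_contMDiffAt (ha x hx)
    have h' := BdOn.mul hV hpow ha ih h
    simp only [← pow_succ] at h'
    exact h'.mono_bound fun x _ => le_of_eq (by rw [pow_succ (2 ^ K * C)]; ring)

/-! ## Supports -/

/-- A bound on the topological support is a global bound. -/
theorem BdOn.bd_of_tsupport (h : BdOn V (tsupport f) K C μ f) (hC : ∀ x, 0 ≤ C * μ x) :
    Bd V K C μ f := fun w hw x _ => by
  by_cases hx : x ∈ tsupport f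
  · exact h w hw x hx
  · rw [DW_eq_zero_of_notMem_tsupport w hx, norm_zero]
    exact hC x

theorem BdOn.bd_of_tsupport_subset (h : BdOn V s K C μ f) (hs : tsupport f ⊆ s)
    (hC : ∀ x, 0 ≤ C * μ x) : Bd V K C μ f :=
  (h.mono_set hs).bd_of_tsupport hC

theorem contMDiff_smul_of_tsupport {a : M → ℝ} (ha : ContMDiff (𝓡 2) 𝓘(ℝ, ℝ) ∞ a)
    (hf : ∀ x ∈ tsupport a, ContMDiffAt (𝓡 2) 𝓘(ℝ, E) ∞ f x) :
    ContMDiff (𝓡 2) 𝓘(ℝ, E) ∞ (fun y => a y • f y) :=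
  contMDiff_of_tsupport fun x hx =>
    (ha x).smul (hf x (tsupport_smul_subset_left a f hx))

/-! ## Composition with smooth maps -/

private theorem comp_aux (N K : ℕ) (B : ℝ) :
    ∀ {E E' : Type} [NormedAddCommGroup E] [NormedSpace ℝ E] [NormedAddCommGroup E']
      [NormedSpace ℝ E'] (φ : E → E') (U : Set E), IsOpen U → ContDiffOn ℝ ∞ φ U →
      ∀ S : Set E, IsCompact S → S ⊆ U → ∃ C : ℝ, 0 ≤ C ∧
        ∀ (M : Type) [TopologicalSpace M] [ChartedSpace R2 M] [IsManifold (𝓡 2) ∞ M]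
          (V : Frame M N) (s : Set M) (f : M → E), FrameSmooth V →
          (∀ x ∈ s, ContMDiffAt (𝓡 2) 𝓘(ℝ, E) ∞ f x) → (∀ x ∈ s, f x ∈ S) →
          BdOn V s K B (fun _ => 1) f → BdOn V s K C (fun _ => 1) (fun y => φ (f y)) := by
  induction K with
  | zero =>
    intro E E' _ _ _ _ φ U _ hφ S hS hSU
    obtain ⟨C, hC⟩ := hS.exists_bound_of_continuousOn (hφ.continuousOn.mono hSU)
    refine ⟨max C 0, le_max_right _ _, fun M _ _ _ V s f _ _ hfS _ => bdOn_zero_iff.2 fun x hx => ?_⟩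
    rw [mul_one]
    exact (hC _ (hfS x hx)).trans (le_max_left _ _)
  | succ K ih =>
    intro E E' _ _ _ _ φ U hU hφ S hS hSU
    have hφ' : ContDiffOn ℝ ∞ (fderiv ℝ φ) U := hφ.fderiv_of_isOpen hU le_rfl
    obtain ⟨C, hC0, hC⟩ := ih (fderiv ℝ φ) U hU hφ' S hS hSU
    obtain ⟨C₀, hC₀⟩ := hS.exists_bound_of_continuousOn (hφ.continuousOn.mono hSU)
    refine ⟨max C₀ (2 ^ K * C * max B 0), le_max_of_le_right (by positivity),
      fun M _ _ _ V s f hV hf hfS hb => bdOn_succ_iff.2 ⟨fun x hx => ?_, fun i => ?_⟩⟩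
    · rw [mul_one]
      exact (hC₀ _ (hfS x hx)).trans (le_max_left _ _)
    have hd : ∀ x ∈ s, ContMDiffAt (𝓡 2) 𝓘(ℝ, E →L[ℝ] E') ∞ (fun y => fderiv ℝ φ (f y)) x :=
      fun x hx => (hφ'.contDiffAt (hU.mem_nhds (hSU (hfS x hx)))).comp_contMDiffAt (hf x hx)
    have h1 := hC M V s f hV hf hfS (hb.mono_order K.le_succ)
    have h2 := BdOn.bilin hV (ContinuousLinearMap.id ℝ (E →L[ℝ] E')) (b := 1)
      (fun T v => by rw [one_mul]; exact T.le_opNorm v) zero_le_one hd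
      (fun x hx => contMDiffAt_D hV i (hf x hx)) h1
      ((hb.deriv i).mono_const (le_max_left B 0) fun _ _ => zero_le_one)
    refine (h2.mono_bound fun x _ => ?_).congr fun x hx => ?_
    · simp only [mul_one]
      exact le_max_right _ _
    · filter_upwards [eventually_mdiffAt (hf x hx),
        (hf x hx).continuousAt.preimage_mem_nhds (hU.mem_nhds (hSU (hfS x hx)))] with y hy hyU
      exact (D_comp (hφ.differentiableOn (by simp) |>.differentiableAt (hU.mem_nhds hyU)) hy).symm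

/-- Composition with a map smooth near a compact set: the constant depends only on
`N`, `K`, `B`, the map and the compact set. -/
theorem exists_bdOn_comp (N K : ℕ) (B : ℝ) {E E' : Type} [NormedAddCommGroup E] [NormedSpace ℝ E]
    [NormedAddCommGroup E'] [NormedSpace ℝ E'] {φ : E → E'} {U : Set E} (hU : IsOpen U)
    (hφ : ContDiffOn ℝ ∞ φ U) {S : Set E} (hS : IsCompact S) (hSU : S ⊆ U) :
    ∃ C : ℝ, 0 ≤ C ∧
      ∀ (M : Type) [TopologicalSpace M] [ChartedSpace R2 M] [IsManifold (𝓡 2) ∞ M]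
        (V : Frame M N) (s : Set M) (f : M → E), FrameSmooth V →
        (∀ x ∈ s, ContMDiffAt (𝓡 2) 𝓘(ℝ, E) ∞ f x) → (∀ x ∈ s, f x ∈ S) →
        BdOn V s K B (fun _ => 1) f → BdOn V s K C (fun _ => 1) (fun y => φ (f y)) :=
  comp_aux N K B φ U hU hφ S hS hSU

/-- Composition with a map smooth on a whole finite dimensional space. -/
theorem exists_bdOn_comp_contDiff (N K : ℕ) (B : ℝ) {E E' : Type} [NormedAddCommGroup E]
    [NormedSpace ℝ E] [ProperSpace E] [NormedAddCommGroup E'] [NormedSpace ℝ E'] {φ : E → E'}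
    (hφ : ContDiff ℝ ∞ φ) :
    ∃ C : ℝ, 0 ≤ C ∧
      ∀ (M : Type) [TopologicalSpace M] [ChartedSpace R2 M] [IsManifold (𝓡 2) ∞ M]
        (V : Frame M N) (s : Set M) (f : M → E), FrameSmooth V →
        (∀ x ∈ s, ContMDiffAt (𝓡 2) 𝓘(ℝ, E) ∞ f x) →
        BdOn V s K B (fun _ => 1) f → BdOn V s K C (fun _ => 1) (fun y => φ (f y)) := by
  obtain ⟨C, hC0, hC⟩ := exists_bdOn_comp N K B isOpen_univ hφ.contDiffOn
    (isCompact_closedBall (0 : E) B) (Set.subset_univ _)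
  exact ⟨C, hC0, fun M _ _ _ V s f hV hf hb => hC M V s f hV hf
    (fun x hx => mem_closedBall_zero_iff.2 ((hb.norm_le hx).trans_eq (mul_one B))) hb⟩

/-- Derivatives of a composition carry the weight of the derivative of the inner map. -/
theorem exists_bdOn_D_comp (N K : ℕ) (B : ℝ) {E E' : Type} [NormedAddCommGroup E]
    [NormedSpace ℝ E] [NormedAddCommGroup E'] [NormedSpace ℝ E'] {φ : E → E'} {U : Set E}
    (hU : IsOpen U) (hφ : ContDiffOn ℝ ∞ φ U) {S : Set E} (hS : IsCompact S) (hSU : S ⊆ U) :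
    ∃ C : ℝ, 0 ≤ C ∧
      ∀ (M : Type) [TopologicalSpace M] [ChartedSpace R2 M] [IsManifold (𝓡 2) ∞ M]
        (V : Frame M N) (s : Set M) (f : M → E) (i : Fin N) (B' : ℝ) (μ : M → ℝ), FrameSmooth V →
        (∀ x ∈ s, ContMDiffAt (𝓡 2) 𝓘(ℝ, E) ∞ f x) → (∀ x ∈ s, f x ∈ S) →
        BdOn V s K B (fun _ => 1) f → BdOn V s K B' μ (D V i f) →
        BdOn V s K (C * B') μ (D V i (fun y => φ (f y))) := by
  have hφ' : ContDiffOn ℝ ∞ (fderiv ℝ φ) U := hφ.fderiv_of_isOpen hU le_rfl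
  obtain ⟨C, hC0, hC⟩ := exists_bdOn_comp N K B hU hφ' hS hSU
  refine ⟨2 ^ K * C, by positivity, fun M _ _ _ V s f i B' μ hV hf hfS hb hb' => ?_⟩
  have h2 := BdOn.bilin hV (ContinuousLinearMap.id ℝ (E →L[ℝ] E')) (b := 1)
    (fun T v => by rw [one_mul]; exact T.le_opNorm v) zero_le_one
    (fun x hx => (hφ'.contDiffAt (hU.mem_nhds (hSU (hfS x hx)))).comp_contMDiffAt (hf x hx))
    (fun x hx => contMDiffAt_D hV i (hf x hx)) (hC M V s f hV hf hfS hb) hb'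
  refine (h2.mono_bound fun x _ => le_of_eq (by ring)).congr fun x hx => ?_
  filter_upwards [eventually_mdiffAt (hf x hx),
    (hf x hx).continuousAt.preimage_mem_nhds (hU.mem_nhds (hSU (hfS x hx)))] with y hy hyU
  exact (D_comp (hφ.differentiableOn (by simp) |>.differentiableAt (hU.mem_nhds hyU)) hy).symm

/-! ## Weights -/

/-- Real powers of a weight with logarithmic derivative bounds. -/
theorem exists_bdOn_rpow (N K : ℕ) (B r : ℝ) :
    ∃ C : ℝ, 1 ≤ C ∧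
      ∀ (M : Type) [TopologicalSpace M] [ChartedSpace R2 M] [IsManifold (𝓡 2) ∞ M]
        (V : Frame M N) (s : Set M) (f : M → ℝ), FrameSmooth V →
        (∀ x ∈ s, ContMDiffAt (𝓡 2) 𝓘(ℝ, ℝ) ∞ f x) → (∀ x ∈ s, 0 < f x) →
        BdOn V s K B f f → BdOn V s K C (fun y => f y ^ r) (fun y => f y ^ r) := by
  induction K generalizing r with
  | zero =>
    refine ⟨1, le_rfl, fun M _ _ _ V s f _ _ hp _ => bdOn_zero_iff.2 fun x hx => ?_⟩
    rw [one_mul, Real.norm_eq_abs, abs_of_pos (Real.rpow_pos_of_pos (hp x hx) r)]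
  | succ K ih =>
    obtain ⟨C, hC1, hC⟩ := ih (r - 1)
    refine ⟨max 1 (|r| * (2 ^ K * C * max B 0)), le_max_left _ _,
      fun M _ _ _ V s f hV hf hp hb => bdOn_succ_iff.2 ⟨fun x hx => ?_, fun i => ?_⟩⟩
    · rw [Real.norm_eq_abs, abs_of_pos (Real.rpow_pos_of_pos (hp x hx) r)]
      exact le_mul_of_one_le_left (Real.rpow_pos_of_pos (hp x hx) r).le (le_max_left _ _)
    have hpow : ∀ x ∈ s, ContMDiffAt (𝓡 2) 𝓘(ℝ, ℝ) ∞ (fun y => f y ^ (r - 1)) x :=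
      fun x hx => ContDiffAt.comp_contMDiffAt
        (Real.contDiffAt_rpow_const_of_ne (hp x hx).ne') (hf x hx)
    have hD : ∀ x ∈ s, ContMDiffAt (𝓡 2) 𝓘(ℝ, ℝ) ∞ (D V i f) x :=
      fun x hx => contMDiffAt_D hV i (hf x hx)
    have h1 := BdOn.const_smul hV r
      (fun x hx => contMDiffAt_bilin (ContinuousLinearMap.mul ℝ ℝ) (hpow x hx) (hD x hx))
      (BdOn.mul hV hpow hD (hC M V s f hV hf hp (hb.mono_order K.le_succ))
        ((hb.deriv i).mono_const (le_max_left B 0) fun x hx => (hp x hx).le))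
    refine (h1.mono_bound fun x hx => ?_).congr fun x hx => ?_
    · have e : f x ^ (r - 1) * f x = f x ^ r := by
        rw [← Real.rpow_add_one (hp x hx).ne', sub_add_cancel]
      rw [e]
      exact mul_le_mul_of_nonneg_right (le_max_right _ _) (Real.rpow_pos_of_pos (hp x hx) r).le
    · filter_upwards [eventually_mdiffAt (hf x hx),
        (hf x hx).continuousAt.preimage_mem_nhds (isOpen_Ioi.mem_nhds (hp x hx))] with y hy hy0
      have hd := (Real.hasDerivAt_rpow_const (x := f y) (p := r)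
        (Or.inl (ne_of_gt hy0))).hasFDerivAt
      rw [D_comp hd.differentiableAt hy, hd.fderiv]
      simp only [ContinuousLinearMap.toSpanSingleton_apply, ContinuousLinearMap.mul_apply',
        smul_eq_mul]
      ring

/-- The inverse of a weight. -/
theorem exists_bdOn_inv (N K : ℕ) (B : ℝ) :
    ∃ C : ℝ, 1 ≤ C ∧
      ∀ (M : Type) [TopologicalSpace M] [ChartedSpace R2 M] [IsManifold (𝓡 2) ∞ M]
        (V : Frame M N) (s : Set M) (f : M → ℝ), FrameSmooth V →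
        (∀ x ∈ s, ContMDiffAt (𝓡 2) 𝓘(ℝ, ℝ) ∞ f x) → (∀ x ∈ s, 0 < f x) →
        BdOn V s K B f f → BdOn V s K C (fun y => (f y)⁻¹) (fun y => (f y)⁻¹) := by
  obtain ⟨C, hC1, hC⟩ := exists_bdOn_rpow N K B (-1)
  refine ⟨C, hC1, fun M _ _ _ V s f hV hf hp hb => ?_⟩
  simpa only [Real.rpow_neg_one] using hC M V s f hV hf hp hb

/-- The square root of a weight. -/
theorem exists_bdOn_sqrt (N K : ℕ) (B : ℝ) :
    ∃ C : ℝ, 1 ≤ C ∧
      ∀ (M : Type) [TopologicalSpace M] [ChartedSpace R2 M] [IsManifold (𝓡 2) ∞ M]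
        (V : Frame M N) (s : Set M) (f : M → ℝ), FrameSmooth V →
        (∀ x ∈ s, ContMDiffAt (𝓡 2) 𝓘(ℝ, ℝ) ∞ f x) → (∀ x ∈ s, 0 < f x) →
        BdOn V s K B f f →
        BdOn V s K C (fun y => Real.sqrt (f y)) (fun y => Real.sqrt (f y)) := by
  obtain ⟨C, hC1, hC⟩ := exists_bdOn_rpow N K B (1 / 2)
  refine ⟨C, hC1, fun M _ _ _ V s f hV hf hp hb => ?_⟩
  simp only [Real.sqrt_eq_rpow]
  exact hC M V s f hV hf hp hb

/-! ## Compactness -/

/-- Every smooth map on a compact surface has some bound to each order. -/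
theorem exists_bd_of_contMDiff [CompactSpace M] (hV : FrameSmooth V) (K : ℕ)
    (hf : ContMDiff (𝓡 2) 𝓘(ℝ, E) ∞ f) : ∃ C : ℝ, 0 ≤ C ∧ Bd V K C (fun _ => 1) f := by
  induction K generalizing f with
  | zero =>
    obtain ⟨C, hC⟩ := isCompact_univ.exists_bound_of_continuousOn hf.continuous.continuousOn
    refine ⟨max C 0, le_max_right _ _, bdOn_zero_iff.2 fun x hx => ?_⟩
    rw [mul_one]
    exact (hC x hx).trans (le_max_left _ _)
  | succ K ih =>
    choose c hc0 hc using fun i => ih (contMDiff_D hV i hf)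
    obtain ⟨C, hC⟩ := isCompact_univ.exists_bound_of_continuousOn hf.continuous.continuousOn
    have hsum : 0 ≤ ∑ i, c i := Finset.sum_nonneg fun i _ => hc0 i
    refine ⟨max C 0 + ∑ i, c i, add_nonneg (le_max_right _ _) hsum,
      bdOn_succ_iff.2 ⟨fun x hx => ?_, fun i => ?_⟩⟩
    · rw [mul_one]
      exact (hC x hx).trans (le_add_of_le_of_nonneg (le_max_left _ _) hsum)
    · refine (hc i).mono_const ?_ fun _ _ => zero_le_one
      exact le_add_of_nonneg_of_le (le_max_right _ _)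
        (Finset.single_le_sum (fun j _ => hc0 j) (Finset.mem_univ i))

end

end Vale.Agent.P205.Full
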