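import Vale.Agent.P205.Full.Stage.CalculusBd

/-!
# P205 full, module S1 (part 4): scaled frames and pointwise composition
-/

open scoped Manifold ContDiff RealInnerProductSpace Topology
open Bundle Filter

set_option linter.unusedSectionVars false

namespace Vale.Agent.P205.Full

section

variable {M : Type} [TopologicalSpace M] [ChartedSpace R2 M] [IsManifold (𝓡 2) ∞ M]
variable {E : Type} [NormedAddCommGroup E] [NormedSpace ℝ E]
variable {N : ℕ} {V : Frame M N} {x : M} {f : M → E}

theorem frameSmooth_smul (hV : FrameSmooth V) {a : M → ℝ}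
    (ha : ContMDiff (𝓡 2) 𝓘(ℝ, ℝ) ∞ a) : FrameSmooth (fun i y => a y • V i y : Frame M N) :=
  fun i => ha.smul_section (hV i)

theorem frameSmooth_const_smul (hV : FrameSmooth V) (c : ℝ) :
    FrameSmooth (fun i y => c • V i y : Frame M N) :=
  frameSmooth_smul hV contMDiff_const

theorem D_smul_frame (a : M → ℝ) (i : Fin N) (f : M → E) :
    D (fun j y => a y • V j y : Frame M N) i f = fun y => a y • D V i f y :=
  funext fun y => map_smul (mfderiv (𝓡 2) 𝓘(ℝ, E) f y) (a y) (V i y)

/-- Derivatives in a frame scaled by a constant. -/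
theorem DW_smul_frame (hV : FrameSmooth V) (c : ℝ) (w : List (Fin N))
    (hf : ContMDiffAt (𝓡 2) 𝓘(ℝ, E) ∞ f x) :
    DW (fun j y => c • V j y : Frame M N) w f x = c ^ w.length • DW V w f x := by
  induction w using List.reverseRecOn generalizing f with
  | nil => simp
  | append_singleton w a ih =>
    have hD := contMDiffAt_D hV a hf
    have hcD : ContMDiffAt (𝓡 2) 𝓘(ℝ, E) ∞ (fun y => c • D V a f y) x :=
      (c • ContinuousLinearMap.id ℝ E).contDiff.contDiffAt.comp_contMDiffAt hD
    rw [DW_snoc, DW_snoc, D_smul_frame (fun _ => c), ih hcD, DW_const_smul hV c w hD, smul_smul,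
      List.length_append, List.length_singleton, pow_succ]

theorem bdOn_singleton_iff {K : ℕ} {C : ℝ} {μ : M → ℝ} :
    BdOn V {x} K C μ f ↔ ∀ w : List (Fin N), w.length ≤ K → ‖DW V w f x‖ ≤ C * μ x :=
  ⟨fun h w hw => h w hw x rfl, fun h w hw y hy => by rw [Set.mem_singleton_iff.1 hy]; exact h w hw⟩

end

/-- Pointwise composition: if all derivatives of `f` of order `1..K` at `x` are `≤ R * t`
with `t ≤ 1`, so are those of `φ ∘ f`, with a uniform constant. -/
theorem exists_DW_comp_le (N K : ℕ) (R : ℝ) {E E' : Type} [NormedAddCommGroup E] [NormedSpace ℝ E]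
    [NormedAddCommGroup E'] [NormedSpace ℝ E'] {φ : E → E'} {U : Set E} (hU : IsOpen U)
    (hφ : ContDiffOn ℝ ∞ φ U) {S : Set E} (hS : IsCompact S) (hSU : S ⊆ U) :
    ∃ C : ℝ, 0 ≤ C ∧
      ∀ (M : Type) [TopologicalSpace M] [ChartedSpace R2 M] [IsManifold (𝓡 2) ∞ M]
        (V : Frame M N) (f : M → E) (x : M) (t : ℝ), FrameSmooth V →
        ContMDiffAt (𝓡 2) 𝓘(ℝ, E) ∞ f x → f x ∈ S → 0 ≤ t → t ≤ 1 →
        (∀ w : List (Fin N), 1 ≤ w.length → w.length ≤ K → ‖DW V w f x‖ ≤ R * t) →
        ∀ w : List (Fin N), 1 ≤ w.length → w.length ≤ K →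
          ‖DW V w (fun y => φ (f y)) x‖ ≤ C * t := by
  cases K with
  | zero => exact ⟨0, le_rfl, fun M _ _ _ V f x t _ _ _ _ _ _ w h1 h2 => by omega⟩
  | succ K =>
    obtain ⟨R₀, hR₀⟩ := hS.exists_bound_of_continuousOn continuousOn_id
    obtain ⟨C, hC0, hC⟩ := exists_bdOn_D_comp N K (max (max R R₀) 0) hU hφ hS hSU
    refine ⟨C * max R 0, by positivity, fun M _ _ _ V f x t hV hf hfS ht0 ht1 hb => ?_⟩
    have hb0 : BdOn V {x} K (max (max R R₀) 0) (fun _ => 1) f := by
      refine bdOn_singleton_iff.2 fun v hv => ?_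
      rw [mul_one]
      rcases v with _ | ⟨a, v⟩
      · exact (hR₀ (f x) hfS).trans (le_max_of_le_left (le_max_right _ _))
      · refine (hb (a :: v) (by simp) (by omega)).trans ?_
        calc R * t ≤ max R 0 * t := mul_le_mul_of_nonneg_right (le_max_left _ _) ht0
          _ ≤ max R 0 := mul_le_of_le_one_right (le_max_right _ _) ht1
          _ ≤ _ := max_le_max (le_max_left _ _) le_rfl
    intro w hw1 hw2
    induction w using List.reverseRecOn with
    | nil => simp at hw1
    | append_singleton v a _ =>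
      have hb1 : BdOn V {x} K (max R 0) (fun _ => t) (D V a f) := by
        refine bdOn_singleton_iff.2 fun u hu => ?_
        rw [← DW_snoc]
        exact (hb _ (by simp) (by simp only [List.length_append, List.length_singleton]; omega)).trans
          (mul_le_mul_of_nonneg_right (le_max_left _ _) ht0)
      have h := hC M V {x} f a (max R 0) (fun _ => t) hV
        (fun y hy => by rwa [Set.mem_singleton_iff.1 hy])
        (fun y hy => by rwa [Set.mem_singleton_iff.1 hy]) hb0 hb1
      rw [DW_snoc]
      exact bdOn_singleton_iff.1 h v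
        (by simp only [List.length_append, List.length_singleton] at hw2; omega)

end Vale.Agent.P205.Full
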