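import Vale.Agent.P205.Full.Stage.SolveTensor

/-!
# P205 stage: the exact solution of one mode

For a phase `Y / ε` and a tensor coefficient `E` the field `cos • vSol + sin • xSol` has linearised
metric `cos • E + sin • lin xSol` exactly (`lin_mode`), and the same with sine and cosine exchanged
(`lin_mode_sin`). `vSol` is normal, along `P = qf a a sff`; `xSol` is tangential and carries `ε`.
-/

open scoped Manifold ContDiff RealInnerProductSpace Matrix Topology
open Bundle Filter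

set_option linter.unusedSectionVars false

namespace Vale.Agent.P205.Full.Stage

open Finset Decomp

noncomputable section

variable {M : Type} [TopologicalSpace M] [ChartedSpace R2 M] [IsManifold (𝓡 2) ∞ M]
variable {N : ℕ} {V : Frame M N} {x : M} {F : M → R4}

/-- The linearised pull-back metric at `F` in the direction `W`. -/
def lin (F : M → R4) (V : Frame M N) (W : M → R4) (i k : Fin N) : M → ℝ :=
  fun y => ⟪D V i F y, D V k W y⟫ + ⟪D V k F y, D V i W y⟫

/-- The exact expansion of the pull-back metric. -/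
theorem pullV_add {W : M → R4} (hF : MDifferentiableAt (𝓡 2) 𝓘(ℝ, R4) F x)
    (hW : MDifferentiableAt (𝓡 2) 𝓘(ℝ, R4) W x) (i k : Fin N) :
    pullV (fun y => F y + W y) V i k x = pullV F V i k x + lin F V W i k x + pullV W V i k x := by
  simp only [pullV, lin, D_add hF hW, inner_add_left, inner_add_right]
  rw [real_inner_comm (D V i W x) (D V k F x)]
  ring

/-- The vector `qf a a sff`: up to a positive factor the second fundamental form on the kernel
of `a`. -/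
def pE (F : M → R4) (V : Frame M N) (a : M → Fin N → ℝ) : M → R4 :=
  fun y => qf (a y) (a y) (fun i k => sff F V i k y)

/-- The normal part of the solution. -/
def vSol (F : M → R4) (V : Frame M N) (a : M → Fin N → ℝ) (E : Fin N → Fin N → M → ℝ) : M → R4 :=
  fun y => (-qf (a y) (a y) (fun i k => E i k y) / (2 * ⟪pE F V a y, pE F V a y⟫)) • pE F V a y

/-- What remains after the normal part. -/
def eRest (F : M → R4) (V : Frame M N) (a : M → Fin N → ℝ) (E : Fin N → Fin N → M → ℝ) :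
    Fin N → Fin N → M → ℝ :=
  fun i k y => E i k y + 2 * ⟪sff F V i k y, vSol F V a E y⟫

/-- The tangential part of the solution. -/
def xSol (F : M → R4) (V : Frame M N) (ℓ : M → ℝ) (ε : ℝ) (a : M → Fin N → ℝ)
    (E : Fin N → Fin N → M → ℝ) : M → R4 :=
  fun y => ε • ∑ k, ((pinv (gmat F V ℓ y) *ᵥ zSol (a y) (fun i j => eRest F V a E i j y)) k /
    ℓ y ^ 2) • D V k F y

/-! ### Normality and tangency -/

theorem sff_mem_orth (F : M → R4) (i k : Fin N) (y : M) :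
    sff F V i k y ∈ (tanPlane F y)ᗮ :=
  Submodule.starProjection_apply_mem _ _

theorem pE_mem_orth (F : M → R4) (a : M → Fin N → ℝ) (y : M) :
    pE F V a y ∈ (tanPlane F y)ᗮ := by
  simp only [pE, qf]
  exact Submodule.sub_mem _
    (Submodule.smul_mem _ _ (Submodule.sum_mem _ fun k _ => sff_mem_orth F k k y))
    (Submodule.sum_mem _ fun i _ => Submodule.sum_mem _ fun k _ =>
      Submodule.smul_mem _ _ (sff_mem_orth F i k y))

theorem vSol_mem_orth (F : M → R4) (a : M → Fin N → ℝ) (E : Fin N → Fin N → M → ℝ) (y : M) :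
    vSol F V a E y ∈ (tanPlane F y)ᗮ :=
  Submodule.smul_mem _ _ (pE_mem_orth F a y)

theorem inner_qf (v : R4) (a b : Fin N → ℝ) (T : Fin N → Fin N → R4) :
    ⟪qf a b T, v⟫ = qf a b (fun i k => ⟪T i k, v⟫) := by
  simp only [qf, inner_sub_left, real_inner_smul_left, sum_inner, smul_eq_mul]

theorem qf_add_const_mul (a b : Fin N → ℝ) (T S : Fin N → Fin N → ℝ) (c : ℝ) :
    qf a b (fun i k => T i k + c * S i k) = qf a b T + c * qf a b S := by
  simp only [qf, smul_eq_mul, mul_add, sum_add_distrib, mul_sum]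
  have e1 : ∀ k, (∑ i, a i * b i) * (c * S k k) = c * ((∑ i, a i * b i) * S k k) := fun k => by
    ring
  have e2 : ∀ i k, a i * b k * (c * S i k) = c * (a i * b k * S i k) := fun i k => by ring
  simp only [e1, e2, ← mul_sum, mul_sub]
  ring

theorem vSol_eq_zero (a : M → Fin N → ℝ) (E : Fin N → Fin N → M → ℝ) (y : M)
    (h : qf (a y) (a y) (fun i k => E i k y) = 0) : vSol F V a E y = 0 := by
  simp [vSol, h]

theorem qf_eRest (a : M → Fin N → ℝ) (E : Fin N → Fin N → M → ℝ) (y : M)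
    (hP : qf (a y) (a y) (fun i k => E i k y) = 0 ∨ pE F V a y ≠ 0) :
    qf (a y) (a y) (fun i k => eRest F V a E i k y) = 0 := by
  simp only [eRest]
  rw [qf_add_const_mul, ← inner_qf]
  show _ + 2 * ⟪pE F V a y, vSol F V a E y⟫ = 0
  rw [vSol, real_inner_smul_right]
  rcases hP with h | h
  · simp [h]
  · have : ⟪pE F V a y, pE F V a y⟫ ≠ 0 := fun h0 => h (inner_self_eq_zero.1 h0)
    field_simp
    ring

/-! ### Tensoriality -/

theorem tensAt_sff (hV : FrameSmooth V) (hF : ContMDiffAt (𝓡 2) 𝓘(ℝ, R4) ∞ F x)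
    (hB : ∃ B : R2 →ₗ[ℝ] R2 →ₗ[ℝ] R4, ∀ i k, sff F V i k x = B (vec2 V x i) (vec2 V x k)) :
    TensAt V x (fun i k => sff F V i k x) := by
  obtain ⟨B, hB⟩ := hB
  obtain ⟨t₁₁, t₁₂, t₂₂, h⟩ := tensAt_of_form (V := V) (x := x) ((1 / 2 : ℝ) • (B + B.flip))
    fun u v => by simp [add_comm]
  refine ⟨t₁₁, t₁₂, t₂₂, ?_⟩
  rw [← h]
  funext i k
  have hs := sff_symm hV hF i k
  rw [hB, hB] at hs
  simp only [hB, LinearMap.smul_apply, LinearMap.add_apply, LinearMap.flip_apply, ← hs]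
  module

theorem TensAt.inner_right {T : Fin N → Fin N → R4} (h : TensAt V x T) (v : R4) :
    TensAt V x (fun i k => ⟪T i k, v⟫) := by
  obtain ⟨a, b, c, rfl⟩ := h
  refine ⟨⟪a, v⟫, ⟪b, v⟫, ⟪c, v⟫, ?_⟩
  funext i k
  simp only [tv, inner_add_left, real_inner_smul_left, smul_eq_mul]

theorem TensAt.add_const_mul {T S : Fin N → Fin N → ℝ} (hT : TensAt V x T) (hS : TensAt V x S)
    (c : ℝ) : TensAt V x (fun i k => T i k + c * S i k) := by
  obtain ⟨a, b, d, rfl⟩ := hT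
  obtain ⟨a', b', d', rfl⟩ := hS
  refine ⟨a + c * a', b + c * b', d + c * d', ?_⟩
  funext i k
  simp only [tv, smul_eq_mul]
  ring

/-- The normalised pull-back matrix in plane coordinates. -/
theorem exists_gmat_eq_tm (hinj : Function.Injective (mfderiv (𝓡 2) 𝓘(ℝ, R4) F x))
    (ℓ : M → ℝ) (hℓ : ℓ x ≠ 0) :
    ∃ A B C : ℝ, A * C - B ^ 2 ≠ 0 ∧ gmat F V ℓ x = tm (vx V x) (vy V x) A B C := by
  let L : R2 →ₗ[ℝ] R4 := (mfderiv (𝓡 2) 𝓘(ℝ, R4) F x).toLinearMap
  set u := L (EuclideanSpace.single 0 1) with hu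
  set w := L (EuclideanSpace.single 1 1) with hw
  refine ⟨⟪u, u⟫ / ℓ x ^ 2, ⟪u, w⟫ / ℓ x ^ 2, ⟪w, w⟫ / ℓ x ^ 2, ?_, ?_⟩
  · have h : ⟪u, u⟫ * ⟪w, w⟫ - ⟪u, w⟫ ^ 2 ≠ 0 := by
      intro h0
      have hu0 : ⟪u, u⟫ ≠ 0 := fun h1 => by
        have h2 : L (EuclideanSpace.single 0 1) = L 0 := by
          rw [map_zero]; exact inner_self_eq_zero.1 h1
        have := congrArg (fun z : R2 => z 0) ((show Function.Injective L from hinj) h2)
        simp at this
      have h1 : ⟪w - (⟪u, w⟫ / ⟪u, u⟫) • u, w - (⟪u, w⟫ / ⟪u, u⟫) • u⟫ = 0 := by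
        simp only [inner_sub_left, inner_sub_right, real_inner_smul_left, real_inner_smul_right,
          real_inner_comm u w]
        field_simp
        linear_combination h0
      have h2 : L (EuclideanSpace.single 1 1) =
          L ((⟪u, w⟫ / ⟪u, u⟫) • EuclideanSpace.single 0 1) := by
        rw [map_smul]; exact sub_eq_zero.1 (inner_self_eq_zero.1 h1)
      have := congrArg (fun z : R2 => z 1) ((show Function.Injective L from hinj) h2)
      simp at this
    intro h'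
    apply h
    field_simp at h'
    linear_combination h'
  · ext i k
    have hD : ∀ j, D V j F x = vx V x j • u + vy V x j • w := fun j => by
      show L (vec2 V x j) = _
      conv_lhs => rw [R2_eq_sum (vec2 V x j)]
      simp [vx, vy, hu, hw]
    simp only [gmat, Matrix.of_apply, pullV, hD, inner_add_left, inner_add_right,
      real_inner_smul_left, real_inner_smul_right, tm_apply, real_inner_comm u w]
    field_simp
    ring

theorem gmat_pinv_cv (hs : Submodule.span ℝ (Set.range fun i => V i x) = ⊤)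
    (hinj : Function.Injective (mfderiv (𝓡 2) 𝓘(ℝ, R4) F x)) (ℓ : M → ℝ) (hℓ : ℓ x ≠ 0)
    (ζ : ℝ × ℝ) :
    gmat F V ℓ x *ᵥ (pinv (gmat F V ℓ x) *ᵥ cv (vx V x) (vy V x) ζ) =
      cv (vx V x) (vy V x) ζ := by
  obtain ⟨A, B, C, hm, hG⟩ := exists_gmat_eq_tm (V := V) hinj ℓ hℓ
  have hw := gram_vxy_ne_zero hs
  rw [hG]
  show tm _ _ A B C *ᵥ sharp _ _ = _
  rw [sharp_tm _ _ hm hw, tm_mulVec_cv]
  congr 1
  have hm' : C * A - B ^ 2 ≠ 0 := by rwa [mul_comm C A]
  refine Prod.ext ?_ ?_ <;> field_simp [hm, hm', hw] <;> simp only [gram] <;> ring_nf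

/-- The defining property of the tangential part. -/
theorem inner_xSol (hs : Submodule.span ℝ (Set.range fun i => V i x) = ⊤)
    (hinj : Function.Injective (mfderiv (𝓡 2) 𝓘(ℝ, R4) F x)) {ℓ : M → ℝ} (hℓ : ℓ x ≠ 0) (ε : ℝ)
    {a : M → Fin N → ℝ} {E : Fin N → Fin N → M → ℝ}
    (hz : ∃ ζ, zSol (a x) (fun i j => eRest F V a E i j x) = cv (vx V x) (vy V x) ζ) (i : Fin N) :
    ⟪D V i F x, xSol F V ℓ ε a E x⟫ = ε * zSol (a x) (fun i j => eRest F V a E i j x) i := by
  obtain ⟨ζ, hζ⟩ := hz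
  simp only [xSol, hζ, real_inner_smul_right, inner_sum]
  have h := congrFun (gmat_pinv_cv hs hinj ℓ hℓ ζ) i
  rw [← h]
  congr 1
  simp only [gmat, Matrix.mulVec, dotProduct, Matrix.of_apply, pullV]
  exact sum_congr rfl fun k _ => by ring

/-- The algebraic equation solved by `vSol` and `xSol`. -/
theorem mode_eq (hs : Submodule.span ℝ (Set.range fun i => V i x) = ⊤)
    (hinj : Function.Injective (mfderiv (𝓡 2) 𝓘(ℝ, R4) F x)) {ℓ : M → ℝ} (hℓ : ℓ x ≠ 0)
    {ε : ℝ} (hε : ε ≠ 0) {Y : M → ℝ} {E : Fin N → Fin N → M → ℝ}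
    (hE : TensAt V x (fun i k => E i k x)) (hsff : TensAt V x (fun i k => sff F V i k x))
    (hP : (fun i k => E i k x) = 0 ∨ (cov V Y x ≠ 0 ∧
      (qf (cov V Y x) (cov V Y x) (fun i k => E i k x) = 0 ∨ pE F V (cov V Y) x ≠ 0)))
    (i k : Fin N) :
    -2 * ⟪sff F V i k x, vSol F V (cov V Y) E x⟫ +
      (cov V Y x k * ⟪D V i F x, xSol F V ℓ ε (cov V Y) E x⟫ +
        cov V Y x i * ⟪D V k F x, xSol F V ℓ ε (cov V Y) E x⟫) / ε = E i k x := by
  rcases hP with h | ⟨ha, h⟩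
  · have h' : ∀ i k, E i k x = 0 := fun i k => congrFun (congrFun h i) k
    have hv : vSol F V (cov V Y) E x = 0 := by simp [vSol, qf, h']
    have he : ∀ i k, eRest F V (cov V Y) E i k x = 0 := fun i k => by simp [eRest, h', hv]
    have hX : xSol F V ℓ ε (cov V Y) E x = 0 := by simp [xSol, he, zSol_zero]
    simp [hv, hX, h']
  · obtain ⟨h1, h2⟩ := qf_zero_solve (Y := Y) hs ha
      (hE.add_const_mul (hsff.inner_right _) 2) (qf_eRest (cov V Y) E x h)
    rw [inner_xSol hs hinj hℓ ε h2, inner_xSol hs hinj hℓ ε h2]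
    have h3 := h1 i k
    simp only [eRest] at h3 ⊢
    field_simp
    linear_combination -h3

/-! ### The linearised metric of a mode -/

theorem lin_smul_normal (hV : FrameSmooth V) {f : M → ℝ} {v : M → R4}
    (hF : ContMDiffAt (𝓡 2) 𝓘(ℝ, R4) ∞ F x) (hf : MDifferentiableAt (𝓡 2) 𝓘(ℝ, ℝ) f x)
    (hv : ContMDiffAt (𝓡 2) 𝓘(ℝ, R4) ∞ v x) (hn : ∀ᶠ y in 𝓝 x, v y ∈ (tanPlane F y)ᗮ)
    (i k : Fin N) :
    lin F V (fun y => f y • v y) i k x = -2 * f x * ⟪sff F V i k x, v x⟫ := by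
  have hv' := mdiffAt_of_smoothAt hv
  simp only [lin, D_smul hf hv', inner_add_right, real_inner_smul_right]
  rw [inner_D_of_normal_sff hV hF hv hn, inner_D_of_normal_sff hV hF hv hn, sff_symm hV hF k i,
    Submodule.inner_right_of_mem_orthogonal (D_mem_tanPlane F i x) hn.self_of_nhds,
    Submodule.inner_right_of_mem_orthogonal (D_mem_tanPlane F k x) hn.self_of_nhds]
  ring

theorem lin_smul {f : M → ℝ} {X : M → R4} (hf : MDifferentiableAt (𝓡 2) 𝓘(ℝ, ℝ) f x)
    (hX : MDifferentiableAt (𝓡 2) 𝓘(ℝ, R4) X x) (i k : Fin N) :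
    lin F V (fun y => f y • X y) i k x =
      D V k f x * ⟪D V i F x, X x⟫ + D V i f x * ⟪D V k F x, X x⟫ + f x * lin F V X i k x := by
  simp only [lin, D_smul hf hX, inner_add_right, real_inner_smul_right]
  ring

theorem lin_add {U W : M → R4} (hU : MDifferentiableAt (𝓡 2) 𝓘(ℝ, R4) U x)
    (hW : MDifferentiableAt (𝓡 2) 𝓘(ℝ, R4) W x) (i k : Fin N) :
    lin F V (fun y => U y + W y) i k x = lin F V U i k x + lin F V W i k x := by
  simp only [lin, D_add hU hW, inner_add_right]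
  ring

theorem D_cos_div {Y : M → ℝ} (hY : MDifferentiableAt (𝓡 2) 𝓘(ℝ, ℝ) Y x) (ε : ℝ) (i : Fin N) :
    D V i (fun y => Real.cos (Y y / ε)) x = -Real.sin (Y x / ε) * (cov V Y x i / ε) := by
  have h : HasDerivAt (fun t => Real.cos (t / ε)) (-Real.sin (Y x / ε) * (1 / ε)) (Y x) :=
    ((hasDerivAt_id (Y x)).div_const ε).cos
  rw [D_comp h.differentiableAt hY, h.hasFDerivAt.fderiv]
  simp [cov]
  ring

theorem D_sin_div {Y : M → ℝ} (hY : MDifferentiableAt (𝓡 2) 𝓘(ℝ, ℝ) Y x) (ε : ℝ) (i : Fin N) :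
    D V i (fun y => Real.sin (Y y / ε)) x = Real.cos (Y x / ε) * (cov V Y x i / ε) := by
  have h : HasDerivAt (fun t => Real.sin (t / ε)) (Real.cos (Y x / ε) * (1 / ε)) (Y x) :=
    ((hasDerivAt_id (Y x)).div_const ε).sin
  rw [D_comp h.differentiableAt hY, h.hasFDerivAt.fderiv]
  simp [cov]
  ring

theorem mdiffAt_cos_div {Y : M → ℝ} (hY : MDifferentiableAt (𝓡 2) 𝓘(ℝ, ℝ) Y x) (ε : ℝ) :
    MDifferentiableAt (𝓡 2) 𝓘(ℝ, ℝ) (fun y => Real.cos (Y y / ε)) x :=
  ((differentiableAt_id.div_const ε).cos (f := fun t => t / ε) (x := Y x)).mdifferentiableAt.comp x hY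

theorem mdiffAt_sin_div {Y : M → ℝ} (hY : MDifferentiableAt (𝓡 2) 𝓘(ℝ, ℝ) Y x) (ε : ℝ) :
    MDifferentiableAt (𝓡 2) 𝓘(ℝ, ℝ) (fun y => Real.sin (Y y / ε)) x :=
  ((differentiableAt_id.div_const ε).sin (f := fun t => t / ε) (x := Y x)).mdifferentiableAt.comp x hY

/-- A normal field and a tangential field solving `mode_eq` cancel a cosine mode. -/
theorem lin_mode (hV : FrameSmooth V) {Y : M → ℝ} {v X : M → R4} {E : Fin N → Fin N → M → ℝ}
    {ε : ℝ} (hF : ContMDiffAt (𝓡 2) 𝓘(ℝ, R4) ∞ F x)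
    (hY : MDifferentiableAt (𝓡 2) 𝓘(ℝ, ℝ) Y x) (hv : ContMDiffAt (𝓡 2) 𝓘(ℝ, R4) ∞ v x)
    (hX : MDifferentiableAt (𝓡 2) 𝓘(ℝ, R4) X x) (hn : ∀ᶠ y in 𝓝 x, v y ∈ (tanPlane F y)ᗮ)
    {i k : Fin N} (heq : -2 * ⟪sff F V i k x, v x⟫ + (cov V Y x k * ⟪D V i F x, X x⟫ +
      cov V Y x i * ⟪D V k F x, X x⟫) / ε = E i k x) :
    lin F V (fun y => Real.cos (Y y / ε) • v y + Real.sin (Y y / ε) • X y) i k x =
      Real.cos (Y x / ε) * E i k x + Real.sin (Y x / ε) * lin F V X i k x := by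
  have hc := mdiffAt_cos_div (ε := ε) hY
  have hs := mdiffAt_sin_div (ε := ε) hY
  rw [lin_add (U := fun y => Real.cos (Y y / ε) • v y) (W := fun y => Real.sin (Y y / ε) • X y)
      (hc.smul (mdiffAt_of_smoothAt hv)) (hs.smul hX), lin_smul_normal hV hF hc hv hn,
    lin_smul hs hX, D_sin_div hY, D_sin_div hY, ← heq]
  ring

/-- A normal field and a tangential field solving `mode_eq` cancel a sine mode. -/
theorem lin_mode_sin (hV : FrameSmooth V) {Y : M → ℝ} {v X : M → R4}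
    {E : Fin N → Fin N → M → ℝ} {ε : ℝ} (hF : ContMDiffAt (𝓡 2) 𝓘(ℝ, R4) ∞ F x)
    (hY : MDifferentiableAt (𝓡 2) 𝓘(ℝ, ℝ) Y x) (hv : ContMDiffAt (𝓡 2) 𝓘(ℝ, R4) ∞ v x)
    (hX : MDifferentiableAt (𝓡 2) 𝓘(ℝ, R4) X x) (hn : ∀ᶠ y in 𝓝 x, v y ∈ (tanPlane F y)ᗮ)
    {i k : Fin N} (heq : -2 * ⟪sff F V i k x, v x⟫ + (cov V Y x k * ⟪D V i F x, X x⟫ +
      cov V Y x i * ⟪D V k F x, X x⟫) / ε = E i k x) :
    lin F V (fun y => Real.sin (Y y / ε) • v y + (-Real.cos (Y y / ε)) • X y) i k x =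
      Real.sin (Y x / ε) * E i k x - Real.cos (Y x / ε) * lin F V X i k x := by
  have hc := mdiffAt_cos_div (ε := ε) hY
  have hs := mdiffAt_sin_div (ε := ε) hY
  have hD : ∀ j, D V j (fun y => -Real.cos (Y y / ε)) x =
      Real.sin (Y x / ε) * (cov V Y x j / ε) := fun j => by
    rw [D_neg hc, D_cos_div hY]; ring
  rw [lin_add (U := fun y => Real.sin (Y y / ε) • v y)
      (W := fun y => (-Real.cos (Y y / ε)) • X y)
      (hs.smul (mdiffAt_of_smoothAt hv)) (hc.neg.smul hX),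
    lin_smul_normal hV hF hs hv hn, lin_smul (f := fun y => -Real.cos (Y y / ε)) hc.neg hX, hD, hD,
    ← heq]
  ring

end

end Vale.Agent.P205.Full.Stage
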