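import Vale.Agent.P205.Full.Stage.Wave
import Vale.Agent.P205.Full.Stage.Solve

/-!
# P205 full, module STAGE: admissible classes of data (helper80)

`Adm 𝒞 K B c₀`: every datum in `𝒞` satisfies the hypotheses of the stage lemma and carries the
output of the decomposition, with lower bounds `c₀`. `bFld`, `dbFld`, `uFld`, `vField` are the
amplitudes, their linear corrections, the normal directions and the oscillation built from them.
`Dominant` says that every frequency of degree at most `L` is as good as its top phase.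
-/

open scoped Manifold ContDiff RealInnerProductSpace Topology
open Bundle Filter

namespace Vale.Agent.P205.Full.Stage

open Decomp

variable {N P : ℕ}

/-- The residual of `F`. -/
noncomputable def resid (c : Ctx N P) (i k : Fin N) : c.M → ℝ :=
  fun x => gV c.g c.V i k x - pullV c.F c.V i k x

/-- The linear functional of an index of the decomposition. -/
noncomputable def lPair (c : Ctx N P) (d : DIdx P) (E : Fin N → Fin N → c.M → ℝ) : c.M → ℝ :=
  fun x => ∑ j, ∑ l, c.L d j l x * E j l x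

/-- Hypotheses on a class of data. -/
structure Adm (𝒞 : Set (Ctx N P)) (K : ℕ) (B c₀ : ℝ) : Prop where
  c₀_pos : 0 < c₀
  data : ∀ c ∈ 𝒞, StageData c.g c.V c.F c.ℓ c.H c.σ c.Y c.χ K B 1
  eps_pos : ∀ c ∈ 𝒞, 0 < c.ε
  eps_le : ∀ c ∈ 𝒞, c.ε ≤ 1
  ratio : ∀ c ∈ 𝒞, ∀ x, Real.sqrt (c.σ x) ≤ c.ε * c.H x
  sigma_le : ∀ c ∈ 𝒞, ∀ x, c.σ x ≤ 1
  e2_lower : ∀ c ∈ 𝒞, ∀ x, c₀ ≤ e2 (gmat c.F c.V c.ℓ x)
  ub_ρ : ∀ d, UB 𝒞 K one (fun c => c.ρ d)
  ub_L : ∀ d i k, UB 𝒞 K one (fun c => c.L d i k)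
  supp_ρ : ∀ c ∈ 𝒞, ∀ d, tsupport (c.ρ d) ⊆ tsupport (c.χ d.phase)
  lower_nrm : ∀ c ∈ 𝒞, ∀ d, ∀ x ∈ tsupport (c.ρ d),
    c₀ ≤ nrm2 (gmat c.F c.V c.ℓ x) (cov c.V (c.Y d.phase) x)
  lower_P : ∀ c ∈ 𝒞, ∀ d, ∀ x ∈ tsupport (c.ρ d),
    c₀ * c.H x ≤ ‖pVec c.F c.V c.ℓ (c.Y d.phase) x‖
  lower_T : ∀ c ∈ 𝒞, ∀ d, ∀ x ∈ tsupport (c.ρ d),
    c₀ * (c.σ x * c.ℓ x ^ 2) ≤ lPair c d (resid c) x
  decomp : ∀ c ∈ 𝒞, ∀ (x : c.M) (E : Fin N → Fin N → c.M → ℝ),
    TensAt c.V x (fun i k => E i k x) → ∀ i k,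
      ∑ d, c.ρ d x ^ 2 * lPair c d E x *
        (cov c.V (c.Y d.phase) x i * cov c.V (c.Y d.phase) x k) / 2 = E i k x

/-- The hypotheses on the phases follow. -/
theorem Adm.nice {𝒞 : Set (Ctx N P)} {K : ℕ} {B c₀ : ℝ} (h : Adm 𝒞 K B c₀) : Nice 𝒞 K where
  eps_pos := h.eps_pos
  eps_le := h.eps_le
  smooth_ph c hc q := (h.data c hc).smooth_Y _
  bd_ph q i := ⟨fun c hc x _ => contMDiff_D c.smooth_V i ((h.data c hc).smooth_Y _) x,
    max B 0, le_max_right _ _, fun c hc =>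
      ((((h.data c hc).bd_dY _ i).mono_const (le_max_left B 0) fun _ _ => zero_le_one).mono_set
        (h.supp_ρ c hc _))⟩

/-- The momentum as a covector. -/
noncomputable def mvec (R : ℝ) (c : Ctx N P) (m : Fin (qn P) → ℤ) (x : c.M) : Fin N → ℝ :=
  fun i => mcov R c m i x

/-- Every frequency in the box is bounded below like its top phase. -/
def Dominant (𝒞 : Set (Ctx N P)) (R : ℝ) (L : ℕ) : Prop :=
  ∃ c₁ : ℝ, 0 < c₁ ∧ ∀ m ∈ box (qn P) L, m ≠ 0 → ∀ c ∈ 𝒞, ∀ x ∈ goodM m c,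
    c₁ ≤ ∑ i, mvec R c m x i * mvec R c m x i ∧
      c₁ * (c.ℓ x * c.H x) ≤ ‖pE c.F c.V (mvec R c m) x‖

/-- The amplitude of an index. -/
noncomputable def bFld (d : DIdx P) : Fld N P ℝ :=
  fun c x => c.ρ d x * Real.sqrt (lPair c d (resid c) x)

/-- The linear correction of the amplitude. -/
noncomputable def dbFld (E : Fin N → Fin N → Fld N P ℝ) (d : DIdx P) : Fld N P ℝ :=
  fun c x => c.ρ d x * lPair c d (fun i k => E i k c) x /
    (2 * Real.sqrt (lPair c d (resid c) x))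

/-- A unit vector of the standard basis of `ℝ⁴`. -/
noncomputable def axis (a : Fin 4) : R4 := EuclideanSpace.single a 1

/-- The projection of an axis on the normal line orthogonal to `P`. -/
noncomputable def uFld (q : Fin (qn P)) : Fld N P R4 := fun c x =>
  (tanPlane c.F x)ᗮ.starProjection (axis (qix P q).2) -
    (⟪pE c.F c.V (cov c.V (c.ph q)) x, axis (qix P q).2⟫ /
        ⟪pE c.F c.V (cov c.V (c.ph q)) x, pE c.F c.V (cov c.V (c.ph q)) x⟫) •
      pE c.F c.V (cov c.V (c.ph q)) x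

/-- The coefficient of one phase of the oscillation with amplitudes `b`. -/
noncomputable def vCoef (R : ℝ) (b : DIdx P → Fld N P ℝ) (q : Fin (qn P)) : Fld N P R4 :=
  fun c x => (c.ε * b (qix P q).1 c x / R ^ (q : ℕ)) • uFld q c x

/-- The oscillation with amplitudes `b`: leading derivative `b cos θ_q dY_q u_q`. -/
noncomputable def vField (R : ℝ) (b : DIdx P → Fld N P ℝ) : Fld N P R4 :=
  fun c x => ∑ q, wave R (Pi.single q 1) true (vCoef R b q) c x

end Vale.Agent.P205.Full.Stage
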