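import Vale.Agent.P205.Full.Defs

/-!
# P205 full, module S1 (part 1): rules for `D` and `DW`

Rules for the derivations `D V i` and the word derivatives `DW V w` of a frame.
Everything is pointwise: the hypothesis is `ContMDiffAt` at the point.
-/

open scoped Manifold ContDiff RealInnerProductSpace Topology
open Bundle Filter

set_option linter.unusedSectionVars false

namespace Vale.Agent.P205.Full

section

variable {M : Type} [TopologicalSpace M] [ChartedSpace R2 M] [IsManifold (𝓡 2) ∞ M]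
variable {E F G : Type} [NormedAddCommGroup E] [NormedSpace ℝ E]
  [NormedAddCommGroup F] [NormedSpace ℝ F] [NormedAddCommGroup G] [NormedSpace ℝ G]
variable {N : ℕ} {V : Frame M N} {i : Fin N} {x : M} {f g : M → E}

/-! ## First derivative -/

theorem mdiffAt_of_smoothAt (hf : ContMDiffAt (𝓡 2) 𝓘(ℝ, E) ∞ f x) :
    MDifferentiableAt (𝓡 2) 𝓘(ℝ, E) f x :=
  hf.mdifferentiableAt (by simp)

/-- Near a point of smoothness the map is differentiable. -/
theorem eventually_mdiffAt (hf : ContMDiffAt (𝓡 2) 𝓘(ℝ, E) ∞ f x) :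
    ∀ᶠ y in 𝓝 x, MDifferentiableAt (𝓡 2) 𝓘(ℝ, E) f y := by
  have h1 : ContMDiffAt (𝓡 2) 𝓘(ℝ, E) (1 : ℕ) f x := contMDiffAt_infty.1 hf 1
  filter_upwards [(contMDiffAt_iff_contMDiffAt_nhds (by simp)).1 h1] with y hy
  exact hy.mdifferentiableAt (by simp)

theorem D_eq_of_hasMFDerivAt {f' : TangentSpace (𝓡 2) x →L[ℝ] E}
    (h : HasMFDerivAt (𝓡 2) 𝓘(ℝ, E) f x f') : D V i f x = f' (V i x) := by
  show mfderiv (𝓡 2) 𝓘(ℝ, E) f x (V i x) = f' (V i x)
  rw [h.mfderiv]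
  rfl

theorem D_congr (h : f =ᶠ[𝓝 x] g) : D V i f x = D V i g x := by
  show mfderiv (𝓡 2) 𝓘(ℝ, E) f x (V i x) = mfderiv (𝓡 2) 𝓘(ℝ, E) g x (V i x)
  rw [h.mfderiv_eq]
  rfl

theorem D_congr_eventually (h : f =ᶠ[𝓝 x] g) : D V i f =ᶠ[𝓝 x] D V i g := by
  filter_upwards [h.eventuallyEq_nhds] with y hy
  exact D_congr hy

@[simp] theorem D_const (c : E) : D V i (fun _ => c) x = 0 :=
  D_eq_of_hasMFDerivAt (f' := 0) (hasMFDerivAt_const c x)

theorem D_add (hf : MDifferentiableAt (𝓡 2) 𝓘(ℝ, E) f x)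
    (hg : MDifferentiableAt (𝓡 2) 𝓘(ℝ, E) g x) :
    D V i (fun y => f y + g y) x = D V i f x + D V i g x :=
  D_eq_of_hasMFDerivAt (hf.hasMFDerivAt.add hg.hasMFDerivAt)

/-- Chain rule. -/
theorem D_comp {φ : E → F} (hφ : DifferentiableAt ℝ φ (f x))
    (hf : MDifferentiableAt (𝓡 2) 𝓘(ℝ, E) f x) :
    D V i (fun y => φ (f y)) x = fderiv ℝ φ (f x) (D V i f x) :=
  D_eq_of_hasMFDerivAt (hφ.hasFDerivAt.hasMFDerivAt.comp x hf.hasMFDerivAt)

theorem D_clm (L : E →L[ℝ] F) (hf : MDifferentiableAt (𝓡 2) 𝓘(ℝ, E) f x) :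
    D V i (fun y => L (f y)) x = L (D V i f x) := by
  rw [D_comp L.differentiableAt hf, L.fderiv]

theorem D_neg (hf : MDifferentiableAt (𝓡 2) 𝓘(ℝ, E) f x) :
    D V i (fun y => -f y) x = -D V i f x :=
  D_clm (-ContinuousLinearMap.id ℝ E) hf

theorem D_const_smul (c : ℝ) (hf : MDifferentiableAt (𝓡 2) 𝓘(ℝ, E) f x) :
    D V i (fun y => c • f y) x = c • D V i f x :=
  D_clm (c • ContinuousLinearMap.id ℝ E) hf

theorem D_sub (hf : MDifferentiableAt (𝓡 2) 𝓘(ℝ, E) f x)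
    (hg : MDifferentiableAt (𝓡 2) 𝓘(ℝ, E) g x) :
    D V i (fun y => f y - g y) x = D V i f x - D V i g x := by
  have hn : MDifferentiableAt (𝓡 2) 𝓘(ℝ, E) (fun y => -g y) x :=
    (-ContinuousLinearMap.id ℝ E).differentiableAt.mdifferentiableAt.comp x hg
  simp only [sub_eq_add_neg]
  rw [D_add hf hn, D_neg hg]

theorem D_prodMk {g : M → F} (hf : MDifferentiableAt (𝓡 2) 𝓘(ℝ, E) f x)
    (hg : MDifferentiableAt (𝓡 2) 𝓘(ℝ, F) g x) :
    D V i (fun y => (f y, g y)) x = (D V i f x, D V i g x) := by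
  have h := hf.prodMk_space hg
  have h1 := D_clm (V := V) (i := i) (ContinuousLinearMap.fst ℝ E F) h
  have h2 := D_clm (V := V) (i := i) (ContinuousLinearMap.snd ℝ E F) h
  exact Prod.ext h1.symm h2.symm

/-- Leibniz rule for a bilinear map. -/
theorem D_bilin (B : E →L[ℝ] F →L[ℝ] G) {g : M → F}
    (hf : MDifferentiableAt (𝓡 2) 𝓘(ℝ, E) f x) (hg : MDifferentiableAt (𝓡 2) 𝓘(ℝ, F) g x) :
    D V i (fun y => B (f y) (g y)) x = B (D V i f x) (g x) + B (f x) (D V i g x) := by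
  have hB := B.isBoundedBilinearMap
  have h := D_comp (V := V) (i := i) (φ := fun p : E × F => B p.1 p.2)
    (hB.differentiableAt (f x, g x)) (hf.prodMk_space hg)
  refine h.trans ?_
  rw [hB.fderiv, D_prodMk hf hg, IsBoundedBilinearMap.deriv_apply]
  exact add_comm _ _

theorem D_smul {a : M → ℝ} (ha : MDifferentiableAt (𝓡 2) 𝓘(ℝ, ℝ) a x)
    (hf : MDifferentiableAt (𝓡 2) 𝓘(ℝ, E) f x) :
    D V i (fun y => a y • f y) x = D V i a x • f x + a x • D V i f x :=
  D_bilin (ContinuousLinearMap.lsmul ℝ ℝ) ha hf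

theorem D_mul {a b : M → ℝ} (ha : MDifferentiableAt (𝓡 2) 𝓘(ℝ, ℝ) a x)
    (hb : MDifferentiableAt (𝓡 2) 𝓘(ℝ, ℝ) b x) :
    D V i (fun y => a y * b y) x = D V i a x * b x + a x * D V i b x :=
  D_bilin (ContinuousLinearMap.mul ℝ ℝ) ha hb

theorem D_inner {H : Type} [NormedAddCommGroup H] [InnerProductSpace ℝ H] {u v : M → H}
    (hu : MDifferentiableAt (𝓡 2) 𝓘(ℝ, H) u x) (hv : MDifferentiableAt (𝓡 2) 𝓘(ℝ, H) v x) :
    D V i (fun y => ⟪u y, v y⟫) x = ⟪D V i u x, v x⟫ + ⟪u x, D V i v x⟫ :=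
  D_bilin (innerSL ℝ : H →L[ℝ] H →L[ℝ] ℝ) hu hv

theorem mdiffAt_sum {ι : Type*} (t : Finset ι) {u : ι → M → E}
    (hu : ∀ k ∈ t, MDifferentiableAt (𝓡 2) 𝓘(ℝ, E) (u k) x) :
    MDifferentiableAt (𝓡 2) 𝓘(ℝ, E) (fun y => ∑ k ∈ t, u k y) x := by
  classical
  induction t using Finset.induction_on with
  | empty => simpa using mdifferentiableAt_const
  | insert a t hat ih =>
    simp only [Finset.sum_insert hat]
    exact (hu a (Finset.mem_insert_self a t)).add
      (ih fun k hk => hu k (Finset.mem_insert_of_mem hk))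

theorem D_sum {ι : Type*} (t : Finset ι) {u : ι → M → E}
    (hu : ∀ k ∈ t, MDifferentiableAt (𝓡 2) 𝓘(ℝ, E) (u k) x) :
    D V i (fun y => ∑ k ∈ t, u k y) x = ∑ k ∈ t, D V i (u k) x := by
  classical
  induction t using Finset.induction_on with
  | empty => simp
  | insert a t hat ih =>
    have ha := hu a (Finset.mem_insert_self a t)
    have ht : ∀ k ∈ t, MDifferentiableAt (𝓡 2) 𝓘(ℝ, E) (u k) x :=
      fun k hk => hu k (Finset.mem_insert_of_mem hk)
    have hs := mdiffAt_sum t ht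
    simp only [Finset.sum_insert hat]
    rw [D_add ha hs, ih ht]

/-! ## Smoothness -/

theorem contMDiffAt_D (hV : FrameSmooth V) (i : Fin N)
    (hf : ContMDiffAt (𝓡 2) 𝓘(ℝ, E) ∞ f x) :
    ContMDiffAt (𝓡 2) 𝓘(ℝ, E) ∞ (D V i f) x := by
  have h1 := hf.mfderiv_const (m := ∞) le_rfl
  have h2 : ContMDiffAt (𝓡 2) 𝓘(ℝ, E).tangent ∞
      (fun y => (⟨f y, mfderiv (𝓡 2) 𝓘(ℝ, E) f y (V i y)⟩ : TangentBundle 𝓘(ℝ, E) E)) x :=
    ContMDiffAt.clm_apply_of_inCoordinates (b₁ := id) (b₂ := f) h1 (hV i x) hf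
  exact ((contMDiff_snd_tangentBundle_modelSpace E 𝓘(ℝ, E)).contMDiffAt).comp x h2

theorem contMDiff_D (hV : FrameSmooth V) (i : Fin N) (hf : ContMDiff (𝓡 2) 𝓘(ℝ, E) ∞ f) :
    ContMDiff (𝓡 2) 𝓘(ℝ, E) ∞ (D V i f) :=
  fun x => contMDiffAt_D hV i (hf x)

/-! ## Words -/

@[simp] theorem DW_nil (V : Frame M N) (f : M → E) : DW V [] f = f := rfl

theorem DW_cons (V : Frame M N) (i : Fin N) (w : List (Fin N)) (f : M → E) :
    DW V (i :: w) f = D V i (DW V w f) := rfl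

theorem DW_append (V : Frame M N) (w w' : List (Fin N)) (f : M → E) :
    DW V (w ++ w') f = DW V w (DW V w' f) := by
  induction w with
  | nil => rfl
  | cons a w ih => rw [List.cons_append, DW_cons, DW_cons, ih]

/-- Peel off the innermost derivative. -/
theorem DW_snoc (V : Frame M N) (w : List (Fin N)) (i : Fin N) (f : M → E) :
    DW V (w ++ [i]) f = DW V w (D V i f) :=
  DW_append V w [i] f

theorem DW_congr_eventually (h : f =ᶠ[𝓝 x] g) (w : List (Fin N)) :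
    DW V w f =ᶠ[𝓝 x] DW V w g := by
  induction w with
  | nil => exact h
  | cons a w ih => exact D_congr_eventually ih

theorem DW_congr (h : f =ᶠ[𝓝 x] g) (w : List (Fin N)) : DW V w f x = DW V w g x :=
  (DW_congr_eventually h w).eq_of_nhds

theorem contMDiffAt_DW (hV : FrameSmooth V) (w : List (Fin N))
    (hf : ContMDiffAt (𝓡 2) 𝓘(ℝ, E) ∞ f x) :
    ContMDiffAt (𝓡 2) 𝓘(ℝ, E) ∞ (DW V w f) x := by
  induction w with
  | nil => exact hf
  | cons a w ih => exact contMDiffAt_D hV a ih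

theorem contMDiff_DW (hV : FrameSmooth V) (w : List (Fin N))
    (hf : ContMDiff (𝓡 2) 𝓘(ℝ, E) ∞ f) : ContMDiff (𝓡 2) 𝓘(ℝ, E) ∞ (DW V w f) :=
  fun x => contMDiffAt_DW hV w (hf x)

theorem DW_zero (w : List (Fin N)) : DW V w (fun _ : M => (0 : E)) = fun _ => 0 := by
  induction w with
  | nil => rfl
  | cons a w ih =>
    rw [DW_cons, ih]
    funext y
    exact D_const 0

theorem DW_const (c : E) (w : List (Fin N)) (hw : w ≠ []) :
    DW V w (fun _ : M => c) x = 0 := by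
  induction w using List.reverseRecOn with
  | nil => exact absurd rfl hw
  | append_singleton w a _ =>
    rw [DW_snoc, show D V a (fun _ : M => c) = fun _ => 0 from funext fun y => D_const c, DW_zero]

theorem DW_add (hV : FrameSmooth V) (w : List (Fin N))
    (hf : ContMDiffAt (𝓡 2) 𝓘(ℝ, E) ∞ f x) (hg : ContMDiffAt (𝓡 2) 𝓘(ℝ, E) ∞ g x) :
    DW V w (fun y => f y + g y) x = DW V w f x + DW V w g x := by
  induction w using List.reverseRecOn generalizing f g with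
  | nil => rfl
  | append_singleton w a ih =>
    simp only [DW_snoc]
    have he : D V a (fun y => f y + g y) =ᶠ[𝓝 x] fun y => D V a f y + D V a g y := by
      filter_upwards [eventually_mdiffAt hf, eventually_mdiffAt hg] with y hy hy'
      exact D_add hy hy'
    rw [DW_congr he w]
    exact ih (contMDiffAt_D hV a hf) (contMDiffAt_D hV a hg)

theorem DW_clm (hV : FrameSmooth V) (L : E →L[ℝ] F) (w : List (Fin N))
    (hf : ContMDiffAt (𝓡 2) 𝓘(ℝ, E) ∞ f x) :
    DW V w (fun y => L (f y)) x = L (DW V w f x) := by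
  induction w using List.reverseRecOn generalizing f with
  | nil => rfl
  | append_singleton w a ih =>
    simp only [DW_snoc]
    have he : D V a (fun y => L (f y)) =ᶠ[𝓝 x] fun y => L (D V a f y) := by
      filter_upwards [eventually_mdiffAt hf] with y hy
      exact D_clm L hy
    rw [DW_congr he w]
    exact ih (contMDiffAt_D hV a hf)

theorem DW_neg (hV : FrameSmooth V) (w : List (Fin N))
    (hf : ContMDiffAt (𝓡 2) 𝓘(ℝ, E) ∞ f x) :
    DW V w (fun y => -f y) x = -DW V w f x :=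
  DW_clm hV (-ContinuousLinearMap.id ℝ E) w hf

theorem DW_const_smul (hV : FrameSmooth V) (c : ℝ) (w : List (Fin N))
    (hf : ContMDiffAt (𝓡 2) 𝓘(ℝ, E) ∞ f x) :
    DW V w (fun y => c • f y) x = c • DW V w f x :=
  DW_clm hV (c • ContinuousLinearMap.id ℝ E) w hf

theorem contMDiffAt_neg_fun (hf : ContMDiffAt (𝓡 2) 𝓘(ℝ, E) ∞ f x) :
    ContMDiffAt (𝓡 2) 𝓘(ℝ, E) ∞ (fun y => -f y) x :=
  (-ContinuousLinearMap.id ℝ E).contDiff.contDiffAt.comp_contMDiffAt hf

theorem DW_sub (hV : FrameSmooth V) (w : List (Fin N))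
    (hf : ContMDiffAt (𝓡 2) 𝓘(ℝ, E) ∞ f x) (hg : ContMDiffAt (𝓡 2) 𝓘(ℝ, E) ∞ g x) :
    DW V w (fun y => f y - g y) x = DW V w f x - DW V w g x := by
  simp only [sub_eq_add_neg]
  rw [DW_add hV w hf (contMDiffAt_neg_fun hg), DW_neg hV w hg]

theorem DW_sum (hV : FrameSmooth V) {ι : Type*} (t : Finset ι) {u : ι → M → E}
    (w : List (Fin N)) (hu : ∀ k ∈ t, ContMDiffAt (𝓡 2) 𝓘(ℝ, E) ∞ (u k) x) :
    DW V w (fun y => ∑ k ∈ t, u k y) x = ∑ k ∈ t, DW V w (u k) x := by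
  classical
  induction t using Finset.induction_on with
  | empty =>
    simp only [Finset.sum_empty]
    rw [DW_zero]
  | insert a t hat ih =>
    have ha := hu a (Finset.mem_insert_self a t)
    have ht : ∀ k ∈ t, ContMDiffAt (𝓡 2) 𝓘(ℝ, E) ∞ (u k) x :=
      fun k hk => hu k (Finset.mem_insert_of_mem hk)
    simp only [Finset.sum_insert hat]
    rw [DW_add hV w ha (contMDiffAt_finsetSum ht), ih ht]

/-! ## Supports -/

theorem DW_eq_zero_of_notMem_tsupport (w : List (Fin N)) (hx : x ∉ tsupport f) :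
    DW V w f x = 0 := by
  rw [DW_congr (notMem_tsupport_iff_eventuallyEq.1 hx) w]
  show DW V w (fun _ : M => (0 : E)) x = 0
  rw [DW_zero]

theorem tsupport_DW_subset (w : List (Fin N)) : tsupport (DW V w f) ⊆ tsupport f := by
  refine closure_minimal (fun y hy => ?_) (isClosed_tsupport f)
  by_contra h
  exact hy (DW_eq_zero_of_notMem_tsupport w h)

end

end Vale.Agent.P205.Full
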