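import Vale.Agent.P205.Full.Stage.Interface
import Vale.Agent.P205.Full.Stage.DecompAlg

/-!
# P205 stage, selection: the universal cutoff and coefficient functions

They are smooth functions of the normalised data (cut off covectors, metric, second fundamental
form), so all derivative bounds follow from the composition lemma.
-/

open scoped ContDiff

namespace Vale.Agent.P205.Full.Decomp

open Finset Stage

variable {N P : ℕ}

/-- Normalised data at a point. -/
abbrev Dat (N P : ℕ) : Type :=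
  (Fin P → Fin N → ℝ) × (Fin N → Fin N → ℝ) × (Fin N → Fin N → R4)

section bound

variable {E : Type*} [NormedAddCommGroup E] [NormedSpace ℝ E]

theorem norm_qf_le (a b : Fin N → ℝ) (T : Fin N → Fin N → E) :
    ‖qf a b T‖ ≤ 2 * (N : ℝ) ^ 2 * (‖a‖ * ‖b‖ * ‖T‖) := by
  have h₀ : 0 ≤ ‖a‖ * ‖b‖ := by positivity
  have hab : ∀ i k, |a i * b k| ≤ ‖a‖ * ‖b‖ := fun i k => by
    rw [abs_mul]
    exact mul_le_mul (by simpa using norm_le_pi_norm a i) (by simpa using norm_le_pi_norm b k)
      (abs_nonneg _) (norm_nonneg _)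
  have hT : ∀ i k, ‖T i k‖ ≤ ‖T‖ := fun i k =>
    (norm_le_pi_norm (T i) k).trans (norm_le_pi_norm T i)
  have h₁ : |∑ i, a i * b i| ≤ N * (‖a‖ * ‖b‖) :=
    (abs_sum_le_sum_abs _ _).trans
      ((sum_le_sum fun i _ => hab i i).trans_eq (by simp))
  have h₂ : ‖∑ k, T k k‖ ≤ N * ‖T‖ :=
    (norm_sum_le _ _).trans ((sum_le_sum fun k _ => hT k k).trans_eq (by simp))
  have h₃ : ‖∑ i, ∑ k, (a i * b k) • T i k‖ ≤ (N : ℝ) * (N * (‖a‖ * ‖b‖ * ‖T‖)) := by
    have hterm : ∀ i k, ‖(a i * b k) • T i k‖ ≤ ‖a‖ * ‖b‖ * ‖T‖ := fun i k => by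
      rw [norm_smul, Real.norm_eq_abs]
      exact mul_le_mul (hab i k) (hT i k) (norm_nonneg _) h₀
    exact (norm_sum_le _ _).trans ((sum_le_sum fun i _ => (norm_sum_le _ _).trans
      (sum_le_sum fun k _ => hterm i k)).trans_eq (by simp))
  refine (norm_sub_le _ _).trans ?_
  rw [norm_smul, Real.norm_eq_abs]
  have h₄ := mul_le_mul h₁ h₂ (norm_nonneg _) (by positivity)
  linarith

theorem contDiff_qf {W : Type*} [NormedAddCommGroup W] [NormedSpace ℝ W]
    {a b : W → Fin N → ℝ} {T : W → Fin N → Fin N → E} (ha : ContDiff ℝ ∞ a)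
    (hb : ContDiff ℝ ∞ b) (hT : ContDiff ℝ ∞ T) :
    ContDiff ℝ ∞ fun w => qf (a w) (b w) (T w) := by
  have ha' : ∀ i, ContDiff ℝ ∞ fun w => a w i := contDiff_pi.1 ha
  have hb' : ∀ i, ContDiff ℝ ∞ fun w => b w i := contDiff_pi.1 hb
  have hT' : ∀ i k, ContDiff ℝ ∞ fun w => T w i k := fun i => contDiff_pi.1 (contDiff_pi.1 hT i)
  unfold qf
  fun_prop

theorem qf_smul (c d : ℝ) (a b : Fin N → ℝ) (T : Fin N → Fin N → E) :
    qf (c • a) (d • b) T = (c * d) • qf a b T := by
  simp only [qf, Pi.smul_apply, smul_eq_mul, smul_sub, smul_sum, smul_smul, mul_sum]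
  congr 1
  · exact sum_congr rfl fun k _ => by congr 1; exact sum_congr rfl fun i _ => by ring
  · exact sum_congr rfl fun i _ => sum_congr rfl fun k _ => by ring_nf

theorem qf_smul_right (c : ℝ) (a b : Fin N → ℝ) (T : Fin N → Fin N → E) :
    qf a b (fun i k => c • T i k) = c • qf a b T := by
  simp only [qf, smul_sub, smul_sum, smul_smul]
  congr 1
  · exact sum_congr rfl fun k _ => by rw [mul_comm]
  · exact sum_congr rfl fun i _ => sum_congr rfl fun k _ => by ring_nf

end bound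

/-- `qf` as a pairing with a matrix. -/
theorem qf_eq_pair (a b : Fin N → ℝ) (T : Fin N → Fin N → ℝ) :
    qf a b T = ∑ i, ∑ k, ((if i = k then ∑ l, a l * b l else 0) - a i * b k) * T i k := by
  simp [qf, sub_mul, sum_sub_distrib, ite_mul, mul_sum]

variable (κ : ℝ) (t : Fin P × Fin P × Fin P) (z : Dat N P)

/-- The covector of a slot of a triple. -/
def vec (s : Fin 3) : Fin N → ℝ := z.1 (DIdx.phase (t, s))

/-- Denominator. -/
noncomputable def den (s : Fin 3) : ℝ :=
  qf (vec t z (s + 1)) (vec t z (s + 2)) fun i k => vec t z s i * vec t z s k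

/-- Numerator at the metric. -/
noncomputable def num (s : Fin 3) : ℝ := qf (vec t z (s + 1)) (vec t z (s + 2)) z.2.1

/-- Size of `P`. -/
noncomputable def psq (s : Fin 3) : ℝ := ‖qf (vec t z s) (vec t z s) z.2.2‖ ^ 2

/-- A step from `κ` to `2κ`. -/
noncomputable def cut (u : ℝ) : ℝ := Real.smoothTransition (u / κ - 1)

/-- Cutoff of a triple. -/
noncomputable def gate : ℝ :=
  ∏ s, cut κ (-den t z s) * cut κ (-num t z s) * cut κ (psq t z s)

/-- Their square sum. -/
noncomputable def tot : ℝ := ∑ t, gate κ t z ^ 2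

/-- `1 / √tot` where `tot ≥ 1`. -/
noncomputable def nrmFac : ℝ :=
  (Real.sqrt (tot κ z + (1 - Real.smoothTransition (2 * tot κ z - 1))))⁻¹

/-- Weight of a triple. -/
noncomputable def rhoFun : ℝ := gate κ t z * nrmFac κ z

/-- `den` where it is below `-κ`, never zero. -/
noncomputable def safeDen (s : Fin 3) : ℝ :=
  den t z s * cut (κ / 2) (-den t z s) - (1 - cut (κ / 2) (-den t z s))

/-- The linear coefficient. -/
noncomputable def lFun (s : Fin 3) (i k : Fin N) : ℝ :=
  2 * ((if i = k then ∑ l, vec t z (s + 1) l * vec t z (s + 2) l else 0) -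
    vec t z (s + 1) i * vec t z (s + 2) k) / safeDen κ t z s

variable {κ t z}

theorem cut_nonneg (u : ℝ) : 0 ≤ cut κ u := Real.smoothTransition.nonneg _

theorem cut_le_one (u : ℝ) : cut κ u ≤ 1 := Real.smoothTransition.le_one _

theorem lt_of_cut_ne_zero (hκ : 0 < κ) {u : ℝ} (h : cut κ u ≠ 0) : κ < u := by
  by_contra hu
  refine h (Real.smoothTransition.zero_of_nonpos ?_)
  rw [sub_nonpos, div_le_one hκ]
  exact not_lt.1 hu

theorem cut_eq_one (hκ : 0 < κ) {u : ℝ} (h : 2 * κ ≤ u) : cut κ u = 1 := by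
  refine Real.smoothTransition.one_of_one_le ?_
  rw [le_sub_iff_add_le, le_div_iff₀ hκ]
  linarith

theorem of_gate_ne_zero (hκ : 0 < κ) (h : gate κ t z ≠ 0) (s : Fin 3) :
    den t z s < -κ ∧ num t z s < -κ ∧ κ < psq t z s := by
  have h' := (Finset.prod_ne_zero_iff.1 h) s (mem_univ s)
  simp only [mul_ne_zero_iff] at h'
  exact ⟨by linarith [lt_of_cut_ne_zero hκ h'.1.1], by linarith [lt_of_cut_ne_zero hκ h'.1.2],
    lt_of_cut_ne_zero hκ h'.2⟩

theorem gate_eq_one (hκ : 0 < κ) (h : ∀ s, den t z s ≤ -(2 * κ) ∧ num t z s ≤ -(2 * κ) ∧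
    2 * κ ≤ psq t z s) : gate κ t z = 1 :=
  prod_eq_one fun s _ => by
    obtain ⟨h₁, h₂, h₃⟩ := h s
    rw [cut_eq_one hκ (by linarith), cut_eq_one hκ (by linarith), cut_eq_one hκ h₃]
    norm_num

theorem nrmFac_arg_pos : 0 < tot κ z + (1 - Real.smoothTransition (2 * tot κ z - 1)) := by
  have h0 : 0 ≤ tot κ z := sum_nonneg fun t _ => sq_nonneg _
  rcases lt_or_ge (tot κ z) (1 / 2) with h | h
  · rw [Real.smoothTransition.zero_of_nonpos (by linarith)]
    linarith
  · linarith [Real.smoothTransition.le_one (2 * tot κ z - 1)]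

/-- The weights square-sum to one once some triple is good. -/
theorem sum_rhoFun_sq {t₀ : Fin P × Fin P × Fin P} (h : gate κ t₀ z = 1) :
    ∑ t, rhoFun κ t z ^ 2 = 1 := by
  have h1 : 1 ≤ tot κ z := by
    have := single_le_sum (f := fun t => gate κ t z ^ 2) (fun t _ => sq_nonneg _) (mem_univ t₀)
    simpa [tot, h] using this
  have e : nrmFac κ z ^ 2 = (tot κ z)⁻¹ := by
    rw [nrmFac, Real.smoothTransition.one_of_one_le (by linarith), sub_self, add_zero, inv_pow,
      Real.sq_sqrt (by linarith)]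
  simp only [rhoFun, mul_pow, ← sum_mul, e]
  exact mul_inv_cancel₀ (by linarith : tot κ z ≠ 0)

theorem safeDen_ne_zero (hκ : 0 < κ) (s : Fin 3) : safeDen κ t z s ≠ 0 := by
  unfold safeDen
  rcases eq_or_ne (cut (κ / 2) (-den t z s)) 0 with h | h
  · rw [h]; norm_num
  · have h₁ := lt_of_cut_ne_zero (by linarith) h
    have h₂ : 0 < cut (κ / 2) (-den t z s) := lt_of_le_of_ne (cut_nonneg _) (Ne.symm h)
    have h₃ := cut_le_one (κ := κ / 2) (-den t z s)
    have h₄ : 0 < -den t z s * cut (κ / 2) (-den t z s) := mul_pos (by linarith) h₂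
    linarith

theorem safeDen_eq (hκ : 0 < κ) {s : Fin 3} (h : den t z s ≤ -κ) :
    safeDen κ t z s = den t z s := by
  rw [safeDen, cut_eq_one (by linarith) (by linarith : 2 * (κ / 2) ≤ -den t z s)]
  ring

theorem sum_lFun (hκ : 0 < κ) {s : Fin 3} (h : den t z s ≤ -κ) (T : Fin N → Fin N → ℝ) :
    ∑ i, ∑ k, lFun κ t z s i k * T i k =
      2 * (qf (vec t z (s + 1)) (vec t z (s + 2)) T / den t z s) := by
  rw [qf_eq_pair, sum_div, mul_sum]
  simp only [lFun, safeDen_eq hκ h]
  refine sum_congr rfl fun i _ => ?_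
  rw [sum_div, mul_sum]
  exact sum_congr rfl fun k _ => by ring

theorem contDiff_vec (s : Fin 3) : ContDiff ℝ ∞ fun z : Dat N P => vec t z s :=
  (contDiff_pi.1 contDiff_fst) _

theorem contDiff_den (s : Fin 3) : ContDiff ℝ ∞ fun z : Dat N P => den t z s := by
  refine contDiff_qf (contDiff_vec _) (contDiff_vec _) ?_
  exact contDiff_pi.2 fun i => contDiff_pi.2 fun k =>
    (contDiff_pi.1 (contDiff_vec s) i).mul (contDiff_pi.1 (contDiff_vec s) k)

theorem contDiff_num (s : Fin 3) : ContDiff ℝ ∞ fun z : Dat N P => num t z s :=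
  contDiff_qf (contDiff_vec _) (contDiff_vec _) (contDiff_fst.comp contDiff_snd)

theorem contDiff_psq (s : Fin 3) : ContDiff ℝ ∞ fun z : Dat N P => psq t z s :=
  (contDiff_qf (contDiff_vec _) (contDiff_vec _) (contDiff_snd.comp contDiff_snd)).norm_sq ℝ

theorem contDiff_cut (κ : ℝ) : ContDiff ℝ ∞ (cut κ) :=
  Real.smoothTransition.contDiff.comp ((contDiff_id.div_const κ).sub contDiff_const)

theorem contDiff_gate : ContDiff ℝ ∞ fun z : Dat N P => gate κ t z :=
  contDiff_prod fun s _ => (((contDiff_cut κ).comp (contDiff_den s).neg).mul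
    ((contDiff_cut κ).comp (contDiff_num s).neg)).mul ((contDiff_cut κ).comp (contDiff_psq s))

theorem contDiff_rhoFun : ContDiff ℝ ∞ fun z : Dat N P => rhoFun κ t z := by
  have ht : ContDiff ℝ ∞ fun z : Dat N P => tot κ z :=
    ContDiff.sum fun t _ => contDiff_gate.pow 2
  refine contDiff_gate.mul (ContDiff.inv ?_ fun z => (Real.sqrt_pos.2 nrmFac_arg_pos).ne')
  refine ContDiff.sqrt ?_ fun z => nrmFac_arg_pos.ne'
  exact ht.add (contDiff_const.sub (Real.smoothTransition.contDiff.comp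
    ((contDiff_const.mul ht).sub contDiff_const)))

theorem contDiff_lFun (hκ : 0 < κ) (s : Fin 3) (i k : Fin N) :
    ContDiff ℝ ∞ fun z : Dat N P => lFun κ t z s i k := by
  have hv : ∀ s l, ContDiff ℝ ∞ fun z : Dat N P => vec t z s l := fun s =>
    contDiff_pi.1 (contDiff_vec s)
  have hc : ContDiff ℝ ∞ fun z : Dat N P => cut (κ / 2) (-den t z s) :=
    (contDiff_cut _).comp (contDiff_den s).neg
  refine ContDiff.div ?_ (((contDiff_den s).mul hc).sub (contDiff_const.sub hc))
    fun z => safeDen_ne_zero hκ s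
  refine contDiff_const.mul (ContDiff.sub ?_ ((hv _ i).mul (hv _ k)))
  split_ifs
  · exact ContDiff.sum fun l _ => (hv _ l).mul (hv _ l)
  · exact contDiff_const

end Vale.Agent.P205.Full.Decomp
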