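import Vale.Agent.P205.Full.Stage.DecompFun
import Vale.Agent.P205.Full.Stage.DecompRForm

/-!
# P205 stage, selection: facts at one point, in plane coordinates
-/

namespace Vale.Agent.P205.Full.Decomp

open Finset Stage

variable {N P : ℕ} {p q : Fin N → ℝ}

theorem smul_cv (c : ℝ) (α : ℝ × ℝ) : c • cv p q α = cv p q (c * α.1, c * α.2) := by
  funext i; simp only [Pi.smul_apply, cv, smul_eq_mul]; ring

/-- With the nine directions present, some triple passes all cutoffs. -/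
theorem exists_gate_eq_one {κ w₀ m : ℝ} (hκ : 0 < κ) (hw₀ : 0 < w₀) (hw : w₀ ≤ gram p q)
    (hm0 : 0 ≤ m) (h₁ : 50 * κ ≤ w₀) (h₂ : 2 * κ ≤ (w₀ * m) ^ 2) {z : Dat N P}
    (π : Fin 3 → Fin 3 → Fin P) {α : Fin 3 → Fin 3 → ℝ × ℝ}
    (hα : ∀ t s, Near (α t s) (dirs t s)) (hA : ∀ t s, z.1 (π t s) = cv p q (α t s))
    (hG : z.2.1 = tv p q 1 0 1) {t₁₁ t₁₂ t₂₂ : R4} (hH : z.2.2 = tv p q t₁₁ t₁₂ t₂₂)
    (hm : 300 * m < max ‖t₁₁‖ (max ‖t₁₂‖ ‖t₂₂‖)) :
    ∃ t, gate κ t z = 1 := by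
  obtain ⟨t, ht⟩ := exists_good_triple hα t₁₁ t₁₂ t₂₂ hm
  obtain ⟨-, hdot, hturn⟩ := margins hα
  refine ⟨(π t 0, π t 1, π t 2), gate_eq_one hκ fun s => ?_⟩
  have hv : ∀ s, vec (π t 0, π t 1, π t 2) z s = cv p q (α t s) := fun s => by
    fin_cases s <;> simpa [vec, DIdx.phase] using hA t _
  have hwpos : 0 ≤ gram p q := hw₀.le.trans hw
  refine ⟨?_, ?_, ?_⟩
  · rw [den, hv, hv, hv, cv_mul, qf_cv, co_sq, smul_eq_mul]
    obtain ⟨d₁, d₂, d₃⟩ := hturn t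
    have key : ∀ {a b c : ℝ × ℝ}, 1 / 5 ≤ det₂ a b → 1 / 5 ≤ det₂ c a →
        det₂ b a * det₂ c a ≤ -(1 / 25) := fun {a b c} hab hca => by
      rw [show det₂ b a = -det₂ a b by simp only [det₂]; ring]
      nlinarith
    have hd : det₂ (α t (s + 1)) (α t s) * det₂ (α t (s + 2)) (α t s) ≤ -(1 / 25) := by
      fin_cases s
      · exact key d₁ d₃
      · exact key d₂ d₁
      · exact key d₃ d₂
    nlinarith [mul_le_mul_of_nonneg_left hd hwpos]
  · rw [num, hv, hv, hG, qf_cv, smul_eq_mul]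
    have hd := hdot t (s + 1) (s + 2) (by fin_cases s <;> decide)
    have e : co (α t (s + 1)) (α t (s + 2)) (1 : ℝ) 0 1 =
        (α t (s + 1)).1 * (α t (s + 2)).1 + (α t (s + 1)).2 * (α t (s + 2)).2 := by
      simp only [co, smul_eq_mul]; ring
    rw [e]
    nlinarith [mul_le_mul_of_nonneg_left hd hwpos]
  · rw [psq, hv, hH, qf_cv, norm_smul, Real.norm_eq_abs, abs_of_nonneg hwpos]
    exact h₂.trans (pow_le_pow_left₀ (by positivity)
      (mul_le_mul hw (ht s) hm0 hwpos) 2)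

/-- A triple with nonzero cutoff decomposes symmetric forms. -/
theorem sum_qf_div {κ : ℝ} (hκ : 0 < κ) {t : Fin P × Fin P × Fin P} {z : Dat N P}
    (hg : gate κ t z ≠ 0) (hw : gram p q ≠ 0) {α : Fin 3 → ℝ × ℝ}
    (hα : ∀ s, vec t z s = cv p q (α s)) (t₁₁ t₁₂ t₂₂ : ℝ) (i k : Fin N) :
    ∑ s, qf (vec t z (s + 1)) (vec t z (s + 2)) (tv p q t₁₁ t₁₂ t₂₂) / den t z s *
      (vec t z s i * vec t z s k) = tv p q t₁₁ t₁₂ t₂₂ i k := by
  have hd : ∀ s, det₂ (α (s + 1)) (α s) ≠ 0 := fun s h0 => by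
    have := (of_gate_ne_zero hκ hg s).1
    rw [den, hα, hα, hα, cv_mul, qf_cv, co_sq, h0, zero_mul, smul_zero] at this
    linarith
  have h₁ : det₂ (α 0) (α 1) ≠ 0 := fun h0 => hd 0 (by
    show det₂ (α 1) (α 0) = 0; simp only [det₂] at h0 ⊢; linarith)
  have h₂ : det₂ (α 1) (α 2) ≠ 0 := fun h0 => hd 1 (by
    show det₂ (α 2) (α 1) = 0; simp only [det₂] at h0 ⊢; linarith)
  have h₃ : det₂ (α 2) (α 0) ≠ 0 := fun h0 => hd 2 (by
    show det₂ (α 0) (α 2) = 0; simp only [det₂] at h0 ⊢; linarith)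
  have := tv_eq p q hw h₁ h₂ h₃ t₁₁ t₁₂ t₂₂ i k
  simp only [den, hα, Fin.sum_univ_three]
  exact this.symm

theorem tv_entries_bound {B : ℝ} (hA : ∑ i, p i * p i ≤ B) (hC : ∑ i, q i * q i ≤ B)
    {E : Type*} [NormedAddCommGroup E] [NormedSpace ℝ E] (t₁₁ t₁₂ t₂₂ : E) (i k : Fin N) :
    ‖tv p q t₁₁ t₁₂ t₂₂ i k‖ ≤ 4 * B * max ‖t₁₁‖ (max ‖t₁₂‖ ‖t₂₂‖) := by
  set T := max ‖t₁₁‖ (max ‖t₁₂‖ ‖t₂₂‖)
  have hsq : ∀ (r : Fin N → ℝ) l, r l * r l ≤ ∑ i, r i * r i := fun r l =>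
    single_le_sum (f := fun i => r i * r i) (fun i _ => mul_self_nonneg _) (mem_univ l)
  have pr : ∀ a b : ℝ, a * a ≤ B → b * b ≤ B → |a * b| ≤ B := fun a b ha hb => by
    rw [abs_le]
    constructor <;> nlinarith [mul_self_nonneg (a + b), mul_self_nonneg (a - b)]
  have hp := fun l => (hsq p l).trans hA
  have hq := fun l => (hsq q l).trans hC
  have hB : 0 ≤ B := le_trans (sum_nonneg fun i _ => mul_self_nonneg (p i)) hA
  have h1 : ‖(p i * p k) • t₁₁‖ ≤ B * T := by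
    rw [norm_smul]; exact mul_le_mul (pr _ _ (hp i) (hp k)) (le_max_left _ _) (norm_nonneg _) hB
  have h2 : ‖(p i * q k + q i * p k) • t₁₂‖ ≤ 2 * B * T := by
    rw [norm_smul]
    exact mul_le_mul ((abs_add_le _ _).trans (by linarith [pr _ _ (hp i) (hq k), pr _ _ (hq i) (hp k)]))
      ((le_max_left _ _).trans (le_max_right _ _)) (norm_nonneg _) (by positivity)
  have h3 : ‖(q i * q k) • t₂₂‖ ≤ B * T := by
    rw [norm_smul]
    exact mul_le_mul (pr _ _ (hq i) (hq k)) ((le_max_right _ _).trans (le_max_right _ _))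
      (norm_nonneg _) hB
  refine (norm_add₃_le).trans ?_
  linarith

/-- Entries of a form from its frame components. -/
theorem entries_le {B w₀ ν : ℝ} (hA : ∑ i, p i * p i ≤ B) (hC : ∑ i, q i * q i ≤ B)
    (hw₀ : 0 < w₀) (hw : w₀ ≤ gram p q) (t₁₁ t₁₂ t₂₂ : ℝ)
    (hT : ∀ i k, |tv p q t₁₁ t₁₂ t₂₂ i k| ≤ ν) :
    let Λ := ((N : ℝ) * (2 * B * (B + 1) / w₀)) ^ 2 * ν
    |t₁₁| ≤ Λ ∧ |t₁₂| ≤ Λ ∧ |t₂₂| ≤ Λ := by
  set A' := ∑ i, p i * p i with hA'
  set B' := ∑ i, p i * q i with hB'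
  set C' := ∑ i, q i * q i with hC'
  have hgram : gram p q = A' * C' - B' ^ 2 := rfl
  have hw' : gram p q ≠ 0 := by linarith
  have hA0 : 0 ≤ A' := sum_nonneg fun i _ => mul_self_nonneg _
  have hC0 : 0 ≤ C' := sum_nonneg fun i _ => mul_self_nonneg _
  have hB0 : 0 ≤ B := hA0.trans hA
  have hBabs : |B'| ≤ B := by
    rw [abs_le]; constructor <;> nlinarith
  set u : Fin N → ℝ := fun i => (C' * p i - B' * q i) / gram p q with hu
  set v : Fin N → ℝ := fun i => (A' * q i - B' * p i) / gram p q with hv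
  have hup : ∑ i, u i * p i = 1 := by
    simp only [hu, div_mul_eq_mul_div, ← sum_div, sub_mul, sum_sub_distrib, mul_assoc, ← mul_sum]
    rw [div_eq_one_iff_eq hw', hgram, show (∑ i, q i * p i) = B' from
      sum_congr rfl fun i _ => mul_comm _ _]
    ring
  have huq : ∑ i, u i * q i = 0 := by
    simp only [hu, div_mul_eq_mul_div, ← sum_div, sub_mul, sum_sub_distrib, mul_assoc, ← mul_sum]
    rw [← hB', ← hC', mul_comm B' C', sub_self, zero_div]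
  have hvp : ∑ i, v i * p i = 0 := by
    simp only [hv, div_mul_eq_mul_div, ← sum_div, sub_mul, sum_sub_distrib, mul_assoc, ← mul_sum]
    rw [← hA', show (∑ i, q i * p i) = B' from sum_congr rfl fun i _ => mul_comm _ _,
      mul_comm B' A', sub_self, zero_div]
  have hvq : ∑ i, v i * q i = 1 := by
    simp only [hv, div_mul_eq_mul_div, ← sum_div, sub_mul, sum_sub_distrib, mul_assoc, ← mul_sum]
    rw [div_eq_one_iff_eq hw', hgram, ← hB', ← hC']
    ring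
  have hexp : ∀ a b : Fin N → ℝ, ∑ i, ∑ k, a i * b k * tv p q t₁₁ t₁₂ t₂₂ i k =
      (∑ i, a i * p i) * (∑ i, b i * p i) * t₁₁ +
        ((∑ i, a i * p i) * (∑ i, b i * q i) + (∑ i, a i * q i) * ∑ i, b i * p i) * t₁₂ +
        (∑ i, a i * q i) * (∑ i, b i * q i) * t₂₂ := fun a b => by
    have e : ∀ i k, a i * b k * tv p q t₁₁ t₁₂ t₂₂ i k = (a i * p i) * (b k * p k) * t₁₁ +
        ((a i * p i) * (b k * q k) + (a i * q i) * (b k * p k)) * t₁₂ +
        (a i * q i) * (b k * q k) * t₂₂ := fun i k => by simp only [tv, smul_eq_mul]; ring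
    simp only [e, sum_add_distrib, ← mul_sum, ← sum_mul]
  set L := 2 * B * (B + 1) / w₀
  have hsq : ∀ (r : Fin N → ℝ), (∑ i, r i * r i) ≤ B → ∀ l, |r l| ≤ B + 1 := fun r hr l => by
    have := (single_le_sum (f := fun i => r i * r i) (fun i _ => mul_self_nonneg _)
      (mem_univ l)).trans hr
    rw [abs_le]; constructor <;> nlinarith
  have hcoef : ∀ {a b x y : ℝ}, |a| ≤ B → |b| ≤ B → |x| ≤ B + 1 → |y| ≤ B + 1 →
      |(a * x - b * y) / gram p q| ≤ L := fun {a b x y} ha hb hx hy => by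
    rw [abs_div, abs_of_pos (hw₀.trans_le hw)]
    refine div_le_div₀ (by positivity) ((abs_sub _ _).trans ?_) hw₀ hw
    rw [abs_mul, abs_mul]
    nlinarith [abs_nonneg a, abs_nonneg b, abs_nonneg x, abs_nonneg y]
  have hU : ∀ i, |u i| ≤ L := fun i =>
    hcoef (by rw [abs_of_nonneg hC0]; exact hC) hBabs (hsq p hA i) (hsq q hC i)
  have hV : ∀ i, |v i| ≤ L := fun i =>
    hcoef (by rw [abs_of_nonneg hA0]; exact hA) hBabs (hsq q hC i) (hsq p hA i)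
  have hL : 0 ≤ L := by positivity
  have hbd : ∀ a b : Fin N → ℝ, (∀ i, |a i| ≤ L) → (∀ i, |b i| ≤ L) →
      |∑ i, ∑ k, a i * b k * tv p q t₁₁ t₁₂ t₂₂ i k| ≤ ((N : ℝ) * L) ^ 2 * ν := by
    intro a b ha hb
    refine (abs_sum_le_sum_abs _ _).trans ((sum_le_sum fun i _ => (abs_sum_le_sum_abs _ _).trans
      (sum_le_sum fun k _ => show |_| ≤ L * L * ν from ?_)).trans_eq (by simp; ring))
    rw [abs_mul, abs_mul]
    exact mul_le_mul (mul_le_mul (ha i) (hb k) (abs_nonneg _) hL) (hT i k) (abs_nonneg _)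
      (by positivity)
  refine ⟨?_, ?_, ?_⟩
  · simpa [hexp, hup, huq] using hbd u u hU hU
  · simpa [hexp, hup, huq, hvp, hvq] using hbd u v hU hV
  · simpa [hexp, hvp, hvq] using hbd v v hV hV

/-- Lower bound for the dual norm. -/
theorem nrm2_lower {B η : ℝ} (hA : ∑ i, p i * p i ≤ B) (hC : ∑ i, q i * q i ≤ B)
    (hw : gram p q ≠ 0) (hB : 0 < B) {a b c : ℝ} (ha : 1 / 2 ≤ a) (ha' : a ≤ 3 / 2)
    (hb : |b| ≤ 1 / 4) (hc : 1 / 2 ≤ c) (hc' : c ≤ 3 / 2) {α : ℝ × ℝ} {i : Fin N}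
    (hη : η ≤ cv p q α i ^ 2) :
    η / (18 * B) ≤ nrm2 (tm p q a b c) (cv p q α) := by
  rw [abs_le] at hb
  have hm : 0 < a * c - b ^ 2 := by nlinarith
  rw [nrm2_tm p q hm.ne' hw, div_le_div_iff₀ (by positivity) hm]
  have hp : p i * p i ≤ B := (single_le_sum (f := fun i => p i * p i)
    (fun i _ => mul_self_nonneg _) (mem_univ i)).trans hA
  have hq : q i * q i ≤ B := (single_le_sum (f := fun i => q i * q i)
    (fun i _ => mul_self_nonneg _) (mem_univ i)).trans hC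
  have h1 : cv p q α i ^ 2 ≤ 2 * B * (α.1 ^ 2 + α.2 ^ 2) := by
    have e : cv p q α i = α.1 * p i + α.2 * q i := rfl
    rw [e]
    nlinarith [mul_self_nonneg (α.1 * q i - α.2 * p i),
      mul_le_mul_of_nonneg_left hp (add_nonneg (sq_nonneg α.1) (sq_nonneg α.2)),
      mul_le_mul_of_nonneg_left hq (add_nonneg (sq_nonneg α.1) (sq_nonneg α.2))]
  have h2 : (α.1 ^ 2 + α.2 ^ 2) / 4 ≤ c * α.1 ^ 2 - 2 * b * (α.1 * α.2) + a * α.2 ^ 2 := by
    nlinarith [mul_self_nonneg (α.1 - α.2), mul_self_nonneg (α.1 + α.2), sq_nonneg α.1,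
      sq_nonneg α.2]
  have h3 : a * c - b ^ 2 ≤ 9 / 4 := by nlinarith
  nlinarith [mul_le_mul_of_nonneg_left h3 (sq_nonneg (cv p q α i)), mul_le_mul_of_nonneg_right
    hη hm.le]

end Vale.Agent.P205.Full.Decomp
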