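import Vale.Agent.P205.Full.Stage.Adm
import Vale.Agent.P205.Full.Stage.SolveBd

/-!
# P205 full, module STAGE: geometric facts of an admissible class (helper16)

Everything follows from `h : Adm 𝒞 K B c₀` with no loss of derivatives: the pointwise geometry,
the bounds of the normalised matrices, the normal projection, and the bounds of the covectors of
the phases on their good sets.
-/

open scoped Manifold ContDiff RealInnerProductSpace Matrix Topology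
open Bundle Filter

set_option linter.unusedSectionVars false

namespace Vale.Agent.P205.Full.Stage

open Finset Decomp

noncomputable section

section Pointwise

variable {M : Type} [TopologicalSpace M] [ChartedSpace R2 M] [IsManifold (𝓡 2) ∞ M]
variable {N : ℕ} {V : Frame M N} {x : M} {F : M → R4}

/-- A nonzero second invariant of the pull-back metric gives an injective differential. -/
theorem injective_of_e2_ne_zero {ℓ : M → ℝ} (hℓ : ℓ x ≠ 0) (h : e2 (gmat F V ℓ x) ≠ 0) :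
    Function.Injective (mfderiv (𝓡 2) 𝓘(ℝ, R4) F x) := by
  let L : R2 →ₗ[ℝ] R4 := (mfderiv (𝓡 2) 𝓘(ℝ, R4) F x).toLinearMap
  set u := L (EuclideanSpace.single 0 1) with hu
  set w := L (EuclideanSpace.single 1 1) with hw
  have hD : ∀ j, D V j F x = vx V x j • u + vy V x j • w := fun j => by
    show L (vec2 V x j) = _
    conv_lhs => rw [R2_eq_sum (vec2 V x j)]
    simp [vx, vy, hu, hw]
  have hG : gmat F V ℓ x = tm (vx V x) (vy V x) (⟪u, u⟫ / ℓ x ^ 2) (⟪u, w⟫ / ℓ x ^ 2)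
      (⟪w, w⟫ / ℓ x ^ 2) := by
    ext i k
    simp only [gmat, Matrix.of_apply, pullV, hD, inner_add_left, inner_add_right,
      real_inner_smul_left, real_inner_smul_right, tm_apply, real_inner_comm u w]
    field_simp
    ring
  rw [hG, e2_tm] at h
  have hdet : ⟪u, u⟫ * ⟪w, w⟫ - ⟪u, w⟫ ^ 2 ≠ 0 := by
    intro h0
    refine h (mul_eq_zero_of_left ?_ _)
    field_simp
    linear_combination h0
  show Function.Injective L
  refine (injective_iff_map_eq_zero L).2 fun v hv => ?_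
  have hv' : v 0 • u + v 1 • w = 0 := by
    rw [hu, hw, ← map_smul, ← map_smul, ← map_add, ← R2_eq_sum v, hv]
  have h1 := congrArg (fun z => ⟪u, z⟫) hv'
  have h2 := congrArg (fun z => ⟪w, z⟫) hv'
  simp only [inner_add_right, real_inner_smul_right, inner_zero_right, real_inner_comm u w] at h1 h2
  have e0 : v 0 * (⟪u, u⟫ * ⟪w, w⟫ - ⟪u, w⟫ ^ 2) = 0 := by
    linear_combination ⟪w, w⟫ * h1 - ⟪u, w⟫ * h2
  have e1 : v 1 * (⟪u, u⟫ * ⟪w, w⟫ - ⟪u, w⟫ ^ 2) = 0 := by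
    linear_combination ⟪u, u⟫ * h2 - ⟪u, w⟫ * h1
  ext j
  fin_cases j
  · simpa using (mul_eq_zero.1 e0).resolve_right hdet
  · simpa using (mul_eq_zero.1 e1).resolve_right hdet

/-- The tangential part of a vector, as a rational expression. -/
def tanPart (F : M → R4) (V : Frame M N) (ℓ : M → ℝ) (v : R4) (x : M) : R4 :=
  ∑ k, (pinv (gmat F V ℓ x) *ᵥ fun i => ⟪D V i F x, v⟫ / ℓ x ^ 2) k • D V k F x

/-- The normal projection as a rational expression. -/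
theorem starProjection_eq_sub_tanPart (hs : Submodule.span ℝ (Set.range fun i => V i x) = ⊤)
    (hinj : Function.Injective (mfderiv (𝓡 2) 𝓘(ℝ, R4) F x)) {ℓ : M → ℝ} (hℓ : ℓ x ≠ 0) (v : R4) :
    (tanPlane F x)ᗮ.starProjection v = v - tanPart F V ℓ v x := by
  let L : R2 →ₗ[ℝ] R4 := (mfderiv (𝓡 2) 𝓘(ℝ, R4) F x).toLinearMap
  have hmem : tanPart F V ℓ v x ∈ tanPlane F x :=
    Submodule.sum_mem _ fun k _ => Submodule.smul_mem _ _ (D_mem_tanPlane F k x)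
  let φ : R2 →ₗ[ℝ] ℝ := (1 / ℓ x ^ 2) • (((innerₗ R4).flip v).comp L)
  have hβ : (fun i => ⟪D V i F x, v⟫ / ℓ x ^ 2) = cv (vx V x) (vy V x)
      (φ (EuclideanSpace.single 0 1), φ (EuclideanSpace.single 1 1)) := by
    rw [← cv_of_linear (V := V) (x := x) φ]
    funext i
    show ⟪L (vec2 V x i), v⟫ / ℓ x ^ 2 = (1 / ℓ x ^ 2) * ⟪L (vec2 V x i), v⟫
    ring
  have hi : ∀ i, ⟪D V i F x, tanPart F V ℓ v x⟫ = ⟪D V i F x, v⟫ := fun i => by
    have h := congrFun (gmat_pinv_cv hs hinj ℓ hℓ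
      (φ (EuclideanSpace.single 0 1), φ (EuclideanSpace.single 1 1))) i
    rw [← hβ] at h
    simp only [tanPart, inner_sum, real_inner_smul_right]
    simp only [Matrix.mulVec, dotProduct, gmat, Matrix.of_apply, pullV] at h ⊢
    rw [eq_div_iff (pow_ne_zero 2 hℓ), sum_mul] at h
    refine Eq.trans (sum_congr rfl fun k _ => ?_) h
    field_simp
  have hperp : v - tanPart F V ℓ v x ∈ (tanPlane F x)ᗮ := by
    refine (Submodule.mem_orthogonal _ _).2 fun y hy => ?_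
    obtain ⟨a, rfl⟩ := hy
    have ha : (a : R2) ∈ Submodule.span ℝ (Set.range fun i => vec2 V x i) := by
      have hs' : Submodule.span ℝ (Set.range fun i => vec2 V x i) = (⊤ : Submodule ℝ R2) := hs
      rw [hs']; trivial
    show ⟪L a, v - tanPart F V ℓ v x⟫ = 0
    induction ha using Submodule.span_induction with
    | mem z hz =>
      obtain ⟨i, rfl⟩ := hz
      rw [inner_sub_right]
      exact sub_eq_zero.2 (hi i).symm
    | zero =>
      have h0 : ∀ z : R4, ⟪(0 : R4), z⟫ = 0 := fun z => inner_zero_left z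
      exact (congrArg (fun u : R4 => ⟪u, v - tanPart F V ℓ v x⟫) (L.map_zero)).trans (h0 _)
    | add p q _ _ hp hq =>
      refine (congrArg (fun u : R4 => ⟪u, v - tanPart F V ℓ v x⟫) (L.map_add p q)).trans ?_
      rw [inner_add_left]
      linarith
    | smul r p _ hp =>
      refine (congrArg (fun u : R4 => ⟪u, v - tanPart F V ℓ v x⟫) (L.map_smul r p)).trans ?_
      rw [real_inner_smul_left]
      exact mul_eq_zero_of_right _ hp
  conv_lhs => rw [← sub_add_cancel v (tanPart F V ℓ v x)]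
  rw [map_add, Submodule.starProjection_eq_self_iff.2 hperp,
    (Submodule.starProjection_apply_eq_zero_iff _).2
      (by rwa [Submodule.orthogonal_orthogonal]), add_zero]

/-- The kernel vector of the solve is a positive multiple of the one of the interface. -/
theorem pE_eq_smul_pVec (hV : FrameSmooth V) (hF : ContMDiffAt (𝓡 2) 𝓘(ℝ, R4) ∞ F x)
    (hs : Submodule.span ℝ (Set.range fun i => V i x) = ⊤)
    (hinj : Function.Injective (mfderiv (𝓡 2) 𝓘(ℝ, R4) F x)) {ℓ : M → ℝ} (hℓ : ℓ x ≠ 0)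
    (Y : M → ℝ) :
    pE F V (cov V Y) x = (e2 (gmat F V ℓ x) * ℓ x) • pVec F V ℓ Y x := by
  obtain ⟨A, B, C, hm, hG⟩ := exists_gmat_eq_tm (V := V) hinj ℓ hℓ
  obtain ⟨α, hα⟩ := exists_cov_eq_cv (V := V) (x := x) Y
  obtain ⟨t₁, t₂, t₃, ht⟩ := tensAt_sff' hV hF
  have hw := gram_vxy_ne_zero hs
  have he : e2 (tm (vx V x) (vy V x) A B C) ≠ 0 := by
    rw [e2_tm]; exact mul_ne_zero hm hw
  have ht' : (fun i k => (ℓ x)⁻¹ • sff F V i k x) =
      tv (vx V x) (vy V x) ((ℓ x)⁻¹ • t₁) ((ℓ x)⁻¹ • t₂) ((ℓ x)⁻¹ • t₃) := by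
    funext i k
    rw [show sff F V i k x = tv (vx V x) (vy V x) t₁ t₂ t₃ i k from congrFun (congrFun ht i) k]
    simp only [tv, smul_add, smul_smul]
    match_scalars <;> ring
  simp only [pE, pVec]
  rw [hG, hα, ht', rForm_tm _ _ hm hw, ht, qf_cv, qf_cv, smul_smul]
  have hc : co α α ((ℓ x)⁻¹ • t₁) ((ℓ x)⁻¹ • t₂) ((ℓ x)⁻¹ • t₃) =
      (ℓ x)⁻¹ • co α α t₁ t₂ t₃ := by
    simp only [co]
    match_scalars <;> ring
  rw [hc, smul_smul, smul_smul]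
  congr 1
  field_simp

end Pointwise

variable {N P : ℕ} {𝒞 : Set (Ctx N P)} {K k : ℕ} {B c₀ : ℝ} {S : SetF N P} {μ : Fld N P ℝ}

/-! ## Pointwise geometry -/

theorem Adm.ℓ_pos (h : Adm 𝒞 K B c₀) : ∀ c ∈ 𝒞, ∀ x, 0 < c.ℓ x := fun c hc => (h.data c hc).pos_ℓ

theorem Adm.H_pos (h : Adm 𝒞 K B c₀) : ∀ c ∈ 𝒞, ∀ x, 0 < c.H x := fun c hc => (h.data c hc).pos_H

theorem Adm.σ_pos (h : Adm 𝒞 K B c₀) : ∀ c ∈ 𝒞, ∀ x, 0 < c.σ x := fun c hc => (h.data c hc).pos_σ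

theorem Adm.hWt_pos (h : Adm 𝒞 K B c₀) : ∀ c ∈ 𝒞, ∀ x, 0 < hWt c x :=
  fun c hc x => mul_pos (h.ℓ_pos c hc x) (h.H_pos c hc x)

theorem Adm.smooth_F (h : Adm 𝒞 K B c₀) : ∀ c ∈ 𝒞, ContMDiff (𝓡 2) 𝓘(ℝ, R4) ∞ c.F :=
  fun c hc => (h.data c hc).smooth_F

theorem Adm.spans (h : Adm 𝒞 K B c₀) : ∀ c ∈ 𝒞, FrameSpans c.V := fun c hc x => by
  have hd := h.data c hc
  have hl := hd.pos_ℓ x
  obtain ⟨co⟩ := exists_coord' c.g c.V hl.ne' x
  obtain ⟨hB, -, -, hw⟩ := co.bounds hl (hd.frame_lower x) (hd.frame_upper x)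
  exact co.mem_span hl.ne' (lt_of_lt_of_le (by positivity) hw).ne'

theorem Adm.inj (h : Adm 𝒞 K B c₀) :
    ∀ c ∈ 𝒞, ∀ x, Function.Injective (mfderiv (𝓡 2) 𝓘(ℝ, R4) c.F x) := fun c hc x =>
  injective_of_e2_ne_zero (V := c.V) (h.ℓ_pos c hc x).ne'
    (h.c₀_pos.trans_le (h.e2_lower c hc x)).ne'

theorem Adm.smooth_sff (h : Adm 𝒞 K B c₀) :
    ∀ c ∈ 𝒞, ∀ i k, ContMDiff (𝓡 2) 𝓘(ℝ, R4) ∞ (sff c.F c.V i k) := fun c hc i k =>
  contMDiff_sff c.smooth_V (h.spans c hc) (h.smooth_F c hc) (h.inj c hc) i k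

theorem Adm.tensAt_sff (h : Adm 𝒞 K B c₀) :
    ∀ c ∈ 𝒞, ∀ x, TensAt c.V x (fun i k => sff c.F c.V i k x) := fun c hc x =>
  tensAt_sff' c.smooth_V (h.smooth_F c hc x)

theorem tensAt_resid (c : Ctx N P) (x : c.M) : TensAt c.V x (fun i k => resid c i k x) := by
  have h := (tensAt_gV (V := c.V) (x := x) c.g).add_const_mul (tensAt_pullV (F := c.F)) (-1)
  simp only [neg_mul, one_mul, ← sub_eq_add_neg] at h
  exact h

theorem Adm.smooth_resid (h : Adm 𝒞 K B c₀) :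
    ∀ c ∈ 𝒞, ∀ i k, ContMDiff (𝓡 2) 𝓘(ℝ, ℝ) ∞ (resid c i k) := fun c hc i k x =>
  (contMDiff_gV c.g c.smooth_V i k x).sub (contMDiff_pullV c.smooth_V (h.smooth_F c hc) i k x)

/-! ## Bounds with weights -/

/-- From bounds with a common constant to a uniform bound. -/
theorem ub_of_bd {E : Type} [NormedAddCommGroup E] [NormedSpace ℝ E] {f : Fld N P E} (C : ℝ)
    (hμ : Nonneg 𝒞 μ) (hs : ∀ c ∈ 𝒞, ContMDiff (𝓡 2) 𝓘(ℝ, E) ∞ (f c))
    (hb : ∀ c ∈ 𝒞, Bd c.V k C (μ c) (f c)) : UB 𝒞 k μ f :=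
  ⟨fun c hc x _ => hs c hc x, max C 0, le_max_right _ _, fun c hc =>
    BdOn.mono_const (hb c hc) (le_max_left _ _) fun x _ => hμ c hc x⟩

theorem Adm.ub_ℓ (h : Adm 𝒞 K B c₀) : UB 𝒞 K (fun c => c.ℓ) (fun c => c.ℓ) :=
  ub_of_bd B (fun c hc x => (h.ℓ_pos c hc x).le) (fun c hc => (h.data c hc).smooth_ℓ)
    fun c hc => (h.data c hc).bd_ℓ

theorem Adm.ub_H (h : Adm 𝒞 K B c₀) : UB 𝒞 K (fun c => c.H) (fun c => c.H) :=
  ub_of_bd B (fun c hc x => (h.H_pos c hc x).le) (fun c hc => (h.data c hc).smooth_H)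
    fun c hc => (h.data c hc).bd_H

theorem Adm.ub_σ (h : Adm 𝒞 K B c₀) : UB 𝒞 K (fun c => c.σ) (fun c => c.σ) :=
  ub_of_bd B (fun c hc x => (h.σ_pos c hc x).le) (fun c hc => (h.data c hc).smooth_σ)
    fun c hc => (h.data c hc).bd_σ

theorem Adm.ub_hWt (h : Adm 𝒞 K B c₀) : UB 𝒞 K hWt hWt := UBOn.mul h.ub_ℓ h.ub_H

theorem Adm.ub_inv_ℓ (h : Adm 𝒞 K B c₀) :
    UB 𝒞 K (fun c x => (c.ℓ x)⁻¹) (fun c x => (c.ℓ x)⁻¹) :=
  UBOn.inv_weight h.ub_ℓ fun c hc x _ => h.ℓ_pos c hc x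

theorem Adm.ub_inv_H (h : Adm 𝒞 K B c₀) :
    UB 𝒞 K (fun c x => (c.H x)⁻¹) (fun c x => (c.H x)⁻¹) :=
  UBOn.inv_weight h.ub_H fun c hc x _ => h.H_pos c hc x

theorem Adm.ub_inv_hWt (h : Adm 𝒞 K B c₀) :
    UB 𝒞 K (fun c x => (hWt c x)⁻¹) (fun c x => (hWt c x)⁻¹) :=
  UBOn.inv_weight h.ub_hWt fun c hc x _ => h.hWt_pos c hc x

theorem Adm.ub_inv_σ (h : Adm 𝒞 K B c₀) :
    UB 𝒞 K (fun c x => (c.σ x)⁻¹) (fun c x => (c.σ x)⁻¹) :=
  UBOn.inv_weight h.ub_σ fun c hc x _ => h.σ_pos c hc x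

theorem Adm.ub_sqrt_σ (h : Adm 𝒞 K B c₀) :
    UB 𝒞 K (fun c x => Real.sqrt (c.σ x)) (fun c x => Real.sqrt (c.σ x)) :=
  UBOn.sqrt_weight h.ub_σ fun c hc x _ => h.σ_pos c hc x

theorem Adm.ub_inv_sqrt_σ (h : Adm 𝒞 K B c₀) :
    UB 𝒞 K (fun c x => (Real.sqrt (c.σ x))⁻¹) (fun c x => (Real.sqrt (c.σ x))⁻¹) :=
  UBOn.inv_weight h.ub_sqrt_σ fun c hc x _ => Real.sqrt_pos.2 (h.σ_pos c hc x)

theorem Adm.ub_ε (h : Adm 𝒞 K B c₀) : UB 𝒞 K (fun c _ => c.ε) (fun c _ => c.ε) :=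
  ub_of_bd 1 (fun c hc _ => (h.eps_pos c hc).le) (fun _ _ => contMDiff_const) fun c hc =>
    bdOn_const c.ε fun x _ => by rw [one_mul, Real.norm_eq_abs, abs_of_pos (h.eps_pos c hc)]

theorem Adm.ub_gV (h : Adm 𝒞 K B c₀) (i j : Fin N) :
    UB 𝒞 K (fun c x => c.ℓ x ^ 2) (fun c => gV c.g c.V i j) :=
  ub_of_bd B (fun _ _ _ => sq_nonneg _) (fun c _ => contMDiff_gV c.g c.smooth_V i j)
    fun c hc => (h.data c hc).bd_g i j

theorem Adm.ub_dF (h : Adm 𝒞 K B c₀) (i : Fin N) :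
    UB 𝒞 K (fun c => c.ℓ) (fun c => D c.V i c.F) :=
  ub_of_bd B (fun c hc x => (h.ℓ_pos c hc x).le)
    (fun c hc => contMDiff_D c.smooth_V i (h.smooth_F c hc)) fun c hc => (h.data c hc).bd_dF i

theorem Adm.ub_sff (h : Adm 𝒞 K B c₀) (i j : Fin N) :
    UB 𝒞 K hWt (fun c => sff c.F c.V i j) :=
  ub_of_bd B (fun c hc x => (h.hWt_pos c hc x).le) (fun c hc => h.smooth_sff c hc i j)
    fun c hc => (h.data c hc).bd_sff i j

theorem Adm.ub_resid (h : Adm 𝒞 K B c₀) (i j : Fin N) :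
    UB 𝒞 K (fun c x => c.σ x * c.ℓ x ^ 2) (fun c => resid c i j) := by
  have h1 : UB 𝒞 K (fun c x => c.σ x * c.ℓ x ^ 2)
      (fun c x => gV c.g c.V i j x - pullV c.F c.V i j x - c.σ x * gV c.g c.V i j x) :=
    ub_of_bd 1 (fun c hc x => mul_nonneg (h.σ_pos c hc x).le (sq_nonneg _))
      (fun c hc x => ((contMDiff_gV c.g c.smooth_V i j x).sub
        (contMDiff_pullV c.smooth_V (h.smooth_F c hc) i j x)).sub
          (contMDiffAt_bilin (ContinuousLinearMap.mul ℝ ℝ) ((h.data c hc).smooth_σ x)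
            (contMDiff_gV c.g c.smooth_V i j x)))
      fun c hc => (h.data c hc).bd_res i j
  refine (UBOn.add h1 (UBOn.mul h.ub_σ (h.ub_gV i j))).congr_eq fun c _ => funext fun x => ?_
  simp only [resid]
  ring

/-- The bounds used by the solve. -/
theorem Adm.geom (h : Adm 𝒞 K B c₀) : SolveGeom 𝒞 allM K where
  ℓ_pos := h.ℓ_pos
  H_pos := h.H_pos
  ε_nonneg c hc := (h.eps_pos c hc).le
  ub_ℓ := h.ub_ℓ
  ub_H := h.ub_H
  ub_dF := h.ub_dF
  ub_sff := h.ub_sff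

theorem Adm.geomOn (h : Adm 𝒞 K B c₀) (hk : k ≤ K) (S : SetF N P) : SolveGeom 𝒞 S k where
  ℓ_pos := h.ℓ_pos
  H_pos := h.H_pos
  ε_nonneg c hc := (h.eps_pos c hc).le
  ub_ℓ := (UB.ubOn h.ub_ℓ S).mono_order hk
  ub_H := (UB.ubOn h.ub_H S).mono_order hk
  ub_dF i := (UB.ubOn (h.ub_dF i) S).mono_order hk
  ub_sff i j := (UB.ubOn (h.ub_sff i j) S).mono_order hk

theorem Adm.ub_dF_normalised (h : Adm 𝒞 K B c₀) (i : Fin N) :
    UB 𝒞 K one (fun c x => (c.ℓ x)⁻¹ • D c.V i c.F x) :=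
  (UBOn.smul h.ub_inv_ℓ (h.ub_dF i)).mono_weight zero_le_one fun c hc x _ => by
    simp [one, (h.ℓ_pos c hc x).ne']

theorem Adm.ub_gmat (h : Adm 𝒞 K B c₀) (i j : Fin N) :
    UB 𝒞 K one (fun c x => gmat c.F c.V c.ℓ x i j) :=
  h.geom.ub_gmat i j

theorem Adm.ub_gNorm (h : Adm 𝒞 K B c₀) (i j : Fin N) :
    UB 𝒞 K one (fun c x => gNorm c.g c.V c.ℓ x i j) := by
  refine (((h.ub_gV i j).mul (UBOn.mul h.ub_inv_ℓ h.ub_inv_ℓ)).mono_weight zero_le_one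
    fun c hc x _ => le_of_eq ?_).congr_eq fun c _ => funext fun x => ?_
  · have := (h.ℓ_pos c hc x).ne'
    simp only [one]
    field_simp
  · simp only [gNorm, Matrix.of_apply]
    ring

theorem Adm.exists_e2_gNorm (h : Adm 𝒞 K B c₀) :
    ∃ δ : ℝ, 0 < δ ∧ ∀ c ∈ 𝒞, ∀ x, δ ≤ e2 (gNorm c.g c.V c.ℓ x) := by
  refine ⟨((max B 1) ^ 2)⁻¹, by positivity, fun c hc x => ?_⟩
  have hd := h.data c hc
  obtain ⟨hB, hle⟩ := e2_gNorm_lower c.g (hd.pos_ℓ x) (hd.frame_lower x) (hd.frame_upper x)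
  exact le_trans (inv_anti₀ (by positivity) (pow_le_pow_left₀ hB.le (le_max_left _ _) 2)) hle

theorem Adm.ub_imgProj_gNorm (h : Adm 𝒞 K B c₀) (i j : Fin N) :
    UB 𝒞 K one (fun c x => imgProj (gNorm c.g c.V c.ℓ x) i j) := by
  obtain ⟨δ, hδ, hl⟩ := h.exists_e2_gNorm
  exact UBOn.imgProj_apply h.ub_gNorm hδ (fun c hc x _ => hl c hc x) i j

theorem Adm.ub_pinv_gNorm (h : Adm 𝒞 K B c₀) (i j : Fin N) :
    UB 𝒞 K one (fun c x => pinv (gNorm c.g c.V c.ℓ x) i j) := by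
  obtain ⟨δ, hδ, hl⟩ := h.exists_e2_gNorm
  exact UBOn.pinv_apply h.ub_gNorm hδ (fun c hc x _ => hl c hc x) i j

theorem Adm.ub_imgProj_gmat (h : Adm 𝒞 K B c₀) (i j : Fin N) :
    UB 𝒞 K one (fun c x => imgProj (gmat c.F c.V c.ℓ x) i j) :=
  UBOn.imgProj_apply h.ub_gmat h.c₀_pos (fun c hc x _ => h.e2_lower c hc x) i j

theorem Adm.ub_pinv_gmat (h : Adm 𝒞 K B c₀) (i j : Fin N) :
    UB 𝒞 K one (fun c x => pinv (gmat c.F c.V c.ℓ x) i j) :=
  UBOn.pinv_apply h.ub_gmat h.c₀_pos (fun c hc x _ => h.e2_lower c hc x) i j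

/-! ## The normal projection -/

/-- The normal projection keeps every weight. -/
theorem Adm.ub_normal (h : Adm 𝒞 K B c₀) (hk : k ≤ K) {v : Fld N P R4}
    (hv : UBOn 𝒞 S k μ v) :
    UBOn 𝒞 S k μ (fun c x => (tanPlane c.F x)ᗮ.starProjection (v c x)) := by
  have hG := h.geomOn hk S
  have hp : ∀ i j, UBOn 𝒞 S k one (fun c x => pinv (gmat c.F c.V c.ℓ x) i j) := fun i j =>
    (UB.ubOn (h.ub_pinv_gmat i j) S).mono_order hk
  have hl := hG.ub_ℓ.inv_weight fun c hc x _ => h.ℓ_pos c hc x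
  have hβ : ∀ i, UBOn 𝒞 S k (fun c x => μ c x * (c.ℓ x)⁻¹)
      (fun c x => ⟪D c.V i c.F x, v c x⟫ / c.ℓ x ^ 2) := fun i => by
    refine ((((hG.ub_dF i).inner hv).mul (hl.mul hl)).mono_weight zero_le_one
      fun c hc x _ => le_of_eq ?_).congr_eq fun c _ => funext fun x => by ring
    have := (h.ℓ_pos c hc x).ne'
    field_simp
  have ht : UBOn 𝒞 S k μ (fun c x => tanPart c.F c.V c.ℓ (v c x) x) := by
    refine ((UBOn.sum univ fun j _ => ((UBOn.sum univ fun i _ => (hp j i).one_mul (hβ i)).smul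
      (hG.ub_dF j))).mono_weight zero_le_one fun c hc x _ => le_of_eq ?_).congr_eq
      fun c _ => funext fun x => rfl
    have := (h.ℓ_pos c hc x).ne'
    field_simp
  exact (hv.sub ht).congr fun c hc x _ => Eventually.of_forall fun y =>
    (starProjection_eq_sub_tanPart (h.spans c hc y) (h.inj c hc y) (h.ℓ_pos c hc y).ne' _).symm

/-! ## The covectors of the phases -/

theorem Adm.ub_cov (h : Adm 𝒞 K B c₀) (q : Fin (qn P)) (i : Fin N) :
    UBOn 𝒞 (fun c => c.good q) K one (fun c x => cov c.V (c.ph q) x i) :=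
  h.nice.bd_ph q i

theorem Adm.ub_pE (h : Adm 𝒞 K B c₀) (q : Fin (qn P)) :
    UBOn 𝒞 (fun c => c.good q) K hWt (fun c => pE c.F c.V (cov c.V (c.ph q))) :=
  (h.geomOn le_rfl _).ub_pE (a := fun c => cov c.V (c.ph q)) (h.ub_cov q)

/-- Lower bound of the kernel vector. -/
theorem Adm.pE_lower (h : Adm 𝒞 K B c₀) :
    ∀ c ∈ 𝒞, ∀ q, ∀ x ∈ c.good q,
      c₀ ^ 2 * hWt c x ≤ ‖pE c.F c.V (cov c.V (c.ph q)) x‖ := fun c hc q x hx => by
  have hl := h.ℓ_pos c hc x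
  have he := h.e2_lower c hc x
  rw [pE_eq_smul_pVec c.smooth_V (h.smooth_F c hc x) (h.spans c hc x) (h.inj c hc x) hl.ne',
    norm_smul, Real.norm_eq_abs, abs_mul, abs_of_pos hl, abs_of_pos (h.c₀_pos.trans_le he)]
  have hP : c₀ * c.H x ≤ ‖pVec c.F c.V c.ℓ (c.ph q) x‖ := h.lower_P c hc (qix P q).1 x hx
  calc c₀ ^ 2 * hWt c x = (c₀ * c.ℓ x) * (c₀ * c.H x) := by simp only [hWt]; ring
    _ ≤ _ := mul_le_mul (mul_le_mul_of_nonneg_right he hl.le) hP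
        (mul_nonneg h.c₀_pos.le (h.H_pos c hc x).le)
        (mul_nonneg (h.c₀_pos.trans_le he).le hl.le)

theorem Adm.pE_ne_zero (h : Adm 𝒞 K B c₀) :
    ∀ c ∈ 𝒞, ∀ q, ∀ x ∈ c.good q, pE c.F c.V (cov c.V (c.ph q)) x ≠ 0 := fun c hc q x hx h0 => by
  have h1 := h.pE_lower c hc q x hx
  rw [h0, norm_zero] at h1
  exact absurd h1 (not_le.2 (mul_pos (pow_pos h.c₀_pos 2) (h.hWt_pos c hc x)))

/-- Lower bound of the length of the covector. -/
theorem Adm.exists_cov_lower (h : Adm 𝒞 K B c₀) :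
    ∃ c₁ : ℝ, 0 < c₁ ∧ ∀ c ∈ 𝒞, ∀ q, ∀ x ∈ c.good q,
      c₁ ≤ cov c.V (c.ph q) x ⬝ᵥ cov c.V (c.ph q) x := by
  choose C hC0 hC using fun i j => UBOn.norm_le (h.ub_pinv_gmat i j)
  set T : ℝ := ∑ i, ∑ j, C i j with hT
  have hT0 : 0 ≤ T := sum_nonneg fun i _ => sum_nonneg fun j _ => hC0 i j
  refine ⟨c₀ / (T + 1), div_pos h.c₀_pos (by linarith), fun c hc q x hx => ?_⟩
  have hlow : c₀ ≤ nrm2 (gmat c.F c.V c.ℓ x) (cov c.V (c.ph q) x) :=
    h.lower_nrm c hc (qix P q).1 x hx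
  set a := cov c.V (c.ph q) x
  set G := pinv (gmat c.F c.V c.ℓ x) with hG
  set A := a ⬝ᵥ a with hA
  have hA0 : 0 ≤ A := sum_nonneg fun i _ => mul_self_nonneg (a i)
  have hsq : ∀ i, a i ^ 2 ≤ A := fun i => by
    rw [sq]
    exact single_le_sum (f := fun i => a i * a i) (fun i _ => mul_self_nonneg (a i)) (mem_univ i)
  have hb : nrm2 (gmat c.F c.V c.ℓ x) a ≤ T * A := by
    simp only [nrm2, sharp, ← hG, dotProduct, Matrix.mulVec, mul_sum, hT, sum_mul]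
    refine sum_le_sum fun i _ => sum_le_sum fun j _ => ?_
    calc a i * (G i j * a j) ≤ |a i * (G i j * a j)| := le_abs_self _
      _ = |G i j| * (|a i| * |a j|) := by rw [abs_mul, abs_mul]; ring
      _ ≤ C i j * A := by
        refine mul_le_mul ?_ ?_ (by positivity) (hC0 i j)
        · simpa [one] using hC i j c hc x (Set.mem_univ x)
        · nlinarith [sq_abs (a i), sq_abs (a j), hsq i, hsq j, sq_nonneg (|a i| - |a j|)]
  rw [div_le_iff₀ (by linarith)]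
  nlinarith

theorem Adm.cov_ne_zero (h : Adm 𝒞 K B c₀) :
    ∀ c ∈ 𝒞, ∀ q, ∀ x ∈ c.good q, cov c.V (c.ph q) x ≠ 0 := fun c hc q x hx h0 => by
  obtain ⟨c₁, hc₁, hl⟩ := h.exists_cov_lower
  have h1 := hl c hc q x hx
  rw [h0, zero_dotProduct] at h1
  exact absurd h1 (not_le.2 hc₁)

end

end Vale.Agent.P205.Full.Stage
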