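import Vale.Agent.P205.Full.Stmts

/-!
# Module STAGE: shared definitions (frozen interface, helper55)

All matrices are indexed by the frame and normalised by `ℓ²`.
-/

open scoped Manifold ContDiff RealInnerProductSpace Matrix
open Bundle

namespace Vale.Agent.P205.Full.Stage

/-! ## Plane algebra (S2) -/

section
variable {N : ℕ} {W : Type} [AddCommGroup W] [Module ℝ W]

/-- `e₂` of the eigenvalues; for psd rank 2 it is the product of the two nonzero ones. -/
noncomputable def e2 (G : Matrix (Fin N) (Fin N) ℝ) : ℝ :=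
  (G.trace ^ 2 - (G * G).trace) / 2

/-- Projector onto the image of a psd rank-2 matrix. -/
noncomputable def imgProj (G : Matrix (Fin N) (Fin N) ℝ) : Matrix (Fin N) (Fin N) ℝ :=
  (e2 G)⁻¹ • (G.trace • G - G * G)

/-- Pseudo-inverse of a psd rank-2 matrix. -/
noncomputable def pinv (G : Matrix (Fin N) (Fin N) ℝ) : Matrix (Fin N) (Fin N) ℝ :=
  (e2 G)⁻¹ • (G.trace • imgProj G - G)

/-- `α♯`. -/
noncomputable def sharp (G : Matrix (Fin N) (Fin N) ℝ) (α : Fin N → ℝ) : Fin N → ℝ :=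
  pinv G *ᵥ α

/-- `|α|²`. -/
noncomputable def nrm2 (G : Matrix (Fin N) (Fin N) ℝ) (α : Fin N → ℝ) : ℝ :=
  α ⬝ᵥ sharp G α

/-- The component of a symmetric form on the kernel direction of `α`:
`|α|² tr_G E - E(α♯,α♯)`; it works also for forms with values in a vector space. -/
noncomputable def rForm (G : Matrix (Fin N) (Fin N) ℝ) (α : Fin N → ℝ)
    (E : Fin N → Fin N → W) : W :=
  nrm2 G α • (∑ i, ∑ k, pinv G i k • E i k)
    - ∑ i, ∑ k, (sharp G α i * sharp G α k) • E i k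

/-- `Z` with `E i k = α i * Z k + α k * Z i` whenever `rForm G α E = 0`. -/
noncomputable def solveZ (G : Matrix (Fin N) (Fin N) ℝ) (α : Fin N → ℝ)
    (E : Fin N → Fin N → ℝ) : Fin N → ℝ :=
  fun k => (nrm2 G α)⁻¹ * ((∑ i, sharp G α i * E i k)
    - α k * (∑ i, ∑ l, sharp G α i * sharp G α l * E i l) / (2 * nrm2 G α))

end

section
variable {M : Type} [TopologicalSpace M] [ChartedSpace R2 M] [IsManifold (𝓡 2) ∞ M]
variable {N P : ℕ}

/-- Normalised pull-back matrix of `F`. -/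
noncomputable def gmat (F : M → R4) (V : Frame M N) (ℓ : M → ℝ) (x : M) :
    Matrix (Fin N) (Fin N) ℝ :=
  Matrix.of fun i k => pullV F V i k x / ℓ x ^ 2

/-- Covector of a function in the frame. -/
noncomputable def cov (V : Frame M N) (Y : M → ℝ) (x : M) : Fin N → ℝ :=
  fun i => D V i Y x

/-- The vector `P = h(e,e)` for `e` in the kernel of `dY` (normalised; even in `e`). -/
noncomputable def pVec (F : M → R4) (V : Frame M N) (ℓ : M → ℝ) (Y : M → ℝ) (x : M) : R4 :=
  rForm (gmat F V ℓ x) (cov V Y x) (fun i k => (ℓ x)⁻¹ • sff F V i k x)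

/-- Decomposition indices: a triple of phases and a slot. -/
abbrev DIdx (P : ℕ) := (Fin P × Fin P × Fin P) × Fin 3

/-- The phase attached to an index. -/
def DIdx.phase (q : DIdx P) : Fin P :=
  ![q.1.1, q.1.2.1, q.1.2.2] q.2

/-- **S3.** Smooth linear positive decomposition along phases with non-vanishing `P`. -/
def DecompProp : Prop :=
  ∀ (N P K : ℕ), ∃ K' : ℕ, ∀ B : ℝ, ∃ C c δ : ℝ, 0 < C ∧ 0 < c ∧ 0 < δ ∧
    ∀ (M : Type) [TopologicalSpace M] [T2Space M] [CompactSpace M] [ChartedSpace R2 M]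
      [IsManifold (𝓡 2) ∞ M] (g : Metric M) (V : Frame M N) (F : M → R4)
      (ℓ H σ : M → ℝ) (Y χ : Fin P → M → ℝ),
      StageData g V F ℓ H σ Y χ K' B δ → (∀ x, σ x ≤ δ) →
      ∃ (ρ : DIdx P → M → ℝ) (L : DIdx P → Fin N → Fin N → M → ℝ),
        (∀ q, ContMDiff (𝓡 2) 𝓘(ℝ, ℝ) ∞ (ρ q)) ∧
        (∀ q i k, ContMDiff (𝓡 2) 𝓘(ℝ, ℝ) ∞ (L q i k)) ∧
        (∀ q, Bd V K C (fun _ => 1) (ρ q)) ∧
        (∀ q i k, Bd V K C (fun _ => 1) (L q i k)) ∧
        (∀ q, tsupport (ρ q) ⊆ tsupport (χ q.phase)) ∧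
        (∀ q, ∀ x ∈ tsupport (ρ q),
          c ≤ nrm2 (gmat F V ℓ x) (cov V (Y q.phase) x) ∧
          c * H x ≤ ‖pVec F V ℓ (Y q.phase) x‖ ∧
          c ≤ ∑ i, ∑ k, L q i k x * (gV g V i k x / ℓ x ^ 2)) ∧
        (∀ x (Φ : TangentSpace (𝓡 2) x → TangentSpace (𝓡 2) x → ℝ),
          (∀ u v, Φ u v = Φ v u) → (∀ u v w, Φ (u + v) w = Φ u w + Φ v w) →
          (∀ (a : ℝ) u v, Φ (a • u) v = a * Φ u v) →
          ∀ i k, ∑ q, ρ q x ^ 2 * (∑ j, ∑ l, L q j l x * Φ (V j x) (V l x)) *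
              (cov V (Y q.phase) x i * cov V (Y q.phase) x k) / 2 = Φ (V i x) (V k x))

end

/-! ## Trigonometric fields (S4) -/

section
variable {M : Type} [TopologicalSpace M] [ChartedSpace R2 M] [IsManifold (𝓡 2) ∞ M]
variable {E : Type} [NormedAddCommGroup E] [NormedSpace ℝ E]
variable {N Q : ℕ}

/-- Coefficients: for each multi-index a cosine (`false`) and a sine (`true`) coefficient. -/
abbrev TF (M : Type) (Q : ℕ) (E : Type) := (Fin Q → ℤ) → Bool → M → E

/-- Multi-indices of degree at most `L`. -/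
noncomputable def box (Q L : ℕ) : Finset (Fin Q → ℤ) :=
  Fintype.piFinset fun _ => Finset.Icc (-(L : ℤ)) (L : ℤ)

/-- The coefficients live in the box of size `L`. -/
def TF.deg (A : TF M Q E) (L : ℕ) : Prop :=
  ∀ m, m ∉ box Q L → A m = 0

/-- Phase of a multi-index: `∑ m_q R^q Y_q / ε`. -/
noncomputable def phase (R ε : ℝ) (Y : Fin Q → M → ℝ) (m : Fin Q → ℤ) : M → ℝ :=
  fun x => (∑ q, (m q : ℝ) * R ^ (q : ℕ) * Y q x) / ε

/-- Evaluation. -/
noncomputable def TF.eval (A : TF M Q E) (L : ℕ) (R ε : ℝ) (Y : Fin Q → M → ℝ) : M → E :=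
  fun x => ∑ m ∈ box Q L, (Real.cos (phase R ε Y m x) • A m false x
    + Real.sin (phase R ε Y m x) • A m true x)

/-- Support invariant: coefficients are supported in the good set of every index occurring
in the multi-index (this is closed under products). -/
def TF.supported (A : TF M Q E) (Good : Fin Q → Set M) : Prop :=
  ∀ m q, m q ≠ 0 → ∀ b, tsupport (A m b) ⊆ Good q

end

end Vale.Agent.P205.Full.Stage
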