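import Vale.Agent.P205.Full.Stage.Interface
import Vale.Agent.P205.Full.Stage.Calculus

/-!
# P205 full, module STAGE: uniform families (helper80)

`Ctx N P` bundles one datum of the stage lemma. A field is a family `∀ c, c.M → E`, and
`UBOn 𝒞 S k μ f` says that it has all derivatives up to order `k` bounded by a constant times `μ`
on `S`, with one constant for all data in `𝒞`.
-/

open scoped Manifold ContDiff RealInnerProductSpace Topology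
open Bundle Filter

set_option linter.unusedSectionVars false

namespace Vale.Agent.P205.Full.Stage

/-- One datum of the stage lemma, with the output of the decomposition. -/
structure Ctx (N P : ℕ) : Type 1 where
  /-- The surface. -/
  M : Type
  [top : TopologicalSpace M]
  [t2 : T2Space M]
  [cpt : CompactSpace M]
  [chart : ChartedSpace R2 M]
  [mfd : IsManifold (𝓡 2) ∞ M]
  /-- The target metric. -/
  g : Metric M
  /-- The frame. -/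
  V : Frame M N
  smooth_V : FrameSmooth V
  /-- The approximate immersion. -/
  F : M → R4
  /-- Length scale. -/
  ℓ : M → ℝ
  /-- Size of the second fundamental form. -/
  H : M → ℝ
  /-- Slack. -/
  σ : M → ℝ
  /-- Phases. -/
  Y : Fin P → M → ℝ
  /-- Cutoffs. -/
  χ : Fin P → M → ℝ
  /-- Inverse frequency. -/
  ε : ℝ
  /-- Cutoffs of the decomposition. -/
  ρ : DIdx P → M → ℝ
  /-- Linear maps of the decomposition. -/
  L : DIdx P → Fin N → Fin N → M → ℝ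

attribute [instance] Ctx.top Ctx.t2 Ctx.cpt Ctx.chart Ctx.mfd

/-- Number of phases: four normal directions for every index of the decomposition. -/
abbrev qn (P : ℕ) : ℕ := Fintype.card (DIdx P × Fin 4)

/-- The index attached to a phase. -/
noncomputable def qix (P : ℕ) : Fin (qn P) ≃ DIdx P × Fin 4 :=
  (Fintype.equivFin (DIdx P × Fin 4)).symm

variable {N P : ℕ}

/-- The phase functions. -/
noncomputable def Ctx.ph (c : Ctx N P) (q : Fin (qn P)) : c.M → ℝ := c.Y ((qix P q).1.phase)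

/-- The good set of a phase. -/
noncomputable def Ctx.good (c : Ctx N P) (q : Fin (qn P)) : Set c.M :=
  tsupport (c.ρ (qix P q).1)

/-- Families of fields. -/
abbrev Fld (N P : ℕ) (E : Type) : Type 1 := ∀ c : Ctx N P, c.M → E

/-- Families of sets. -/
abbrev SetF (N P : ℕ) : Type 1 := ∀ c : Ctx N P, Set c.M

/-- The weight `1`. -/
def one : Fld N P ℝ := fun _ _ => 1

/-- The full sets. -/
def allM : SetF N P := fun _ => Set.univ

/-- Weights are nonnegative. -/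
def Nonneg (𝒞 : Set (Ctx N P)) (μ : Fld N P ℝ) : Prop := ∀ c ∈ 𝒞, ∀ x, 0 ≤ μ c x

/-- Uniform bounds on a family of sets. -/
structure UBOn {E : Type} [NormedAddCommGroup E] [NormedSpace ℝ E] (𝒞 : Set (Ctx N P))
    (S : SetF N P) (k : ℕ) (μ : Fld N P ℝ) (f : Fld N P E) : Prop where
  smooth : ∀ c ∈ 𝒞, ∀ x ∈ S c, ContMDiffAt (𝓡 2) 𝓘(ℝ, E) ∞ (f c) x
  bound : ∃ C, 0 ≤ C ∧ ∀ c ∈ 𝒞, BdOn c.V (S c) k C (μ c) (f c)

/-- Uniform bounds everywhere. -/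
def UB {E : Type} [NormedAddCommGroup E] [NormedSpace ℝ E] (𝒞 : Set (Ctx N P)) (k : ℕ)
    (μ : Fld N P ℝ) (f : Fld N P E) : Prop :=
  UBOn 𝒞 allM k μ f

theorem nonneg_one (𝒞 : Set (Ctx N P)) : Nonneg 𝒞 (one : Fld N P ℝ) := fun _ _ _ => zero_le_one

theorem Nonneg.mul {𝒞 : Set (Ctx N P)} {μ ν : Fld N P ℝ} (h : Nonneg 𝒞 μ) (h' : Nonneg 𝒞 ν) :
    Nonneg 𝒞 (fun c x => μ c x * ν c x) :=
  fun c hc x => mul_nonneg (h c hc x) (h' c hc x)

section Algebra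

variable {E E' G : Type} [NormedAddCommGroup E] [NormedSpace ℝ E]
  [NormedAddCommGroup E'] [NormedSpace ℝ E'] [NormedAddCommGroup G] [NormedSpace ℝ G]
variable {𝒞 : Set (Ctx N P)} {S T : SetF N P} {k l : ℕ} {μ ν : Fld N P ℝ} {f g : Fld N P E}

theorem UB.ubOn (h : UB 𝒞 k μ f) (S : SetF N P) : UBOn 𝒞 S k μ f :=
  ⟨fun c hc x _ => h.smooth c hc x (Set.mem_univ x),
    h.bound.imp fun _ hC => ⟨hC.1, fun c hc => (hC.2 c hc).mono_set (Set.subset_univ _)⟩⟩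

theorem UB.contMDiff (h : UB 𝒞 k μ f) {c : Ctx N P} (hc : c ∈ 𝒞) :
    ContMDiff (𝓡 2) 𝓘(ℝ, E) ∞ (f c) :=
  fun x => h.smooth c hc x (Set.mem_univ x)

theorem UBOn.norm_le (h : UBOn 𝒞 S k μ f) :
    ∃ C, 0 ≤ C ∧ ∀ c ∈ 𝒞, ∀ x ∈ S c, ‖f c x‖ ≤ C * μ c x :=
  h.bound.imp fun _ hC => ⟨hC.1, fun c hc _ hx => (hC.2 c hc).norm_le hx⟩

theorem UBOn.mono_set (h : UBOn 𝒞 S k μ f) (hTS : ∀ c ∈ 𝒞, T c ⊆ S c) : UBOn 𝒞 T k μ f :=
  ⟨fun c hc x hx => h.smooth c hc x (hTS c hc hx),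
    h.bound.imp fun _ hC => ⟨hC.1, fun c hc => (hC.2 c hc).mono_set (hTS c hc)⟩⟩

theorem UBOn.mono_order (h : UBOn 𝒞 S k μ f) (hl : l ≤ k) : UBOn 𝒞 S l μ f :=
  ⟨h.smooth, h.bound.imp fun _ hC => ⟨hC.1, fun c hc => (hC.2 c hc).mono_order hl⟩⟩

/-- Change of weight. -/
theorem UBOn.mono_weight (h : UBOn 𝒞 S k μ f) {a : ℝ} (ha : 0 ≤ a)
    (hμ : ∀ c ∈ 𝒞, ∀ x ∈ S c, μ c x ≤ a * ν c x) : UBOn 𝒞 S k ν f := by
  obtain ⟨C, hC0, hC⟩ := h.bound
  exact ⟨h.smooth, C * a, mul_nonneg hC0 ha, fun c hc => (hC c hc).mono_weight hC0 (hμ c hc)⟩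

theorem UBOn.congr (h : UBOn 𝒞 S k μ f) (hfg : ∀ c ∈ 𝒞, ∀ x ∈ S c, f c =ᶠ[𝓝 x] g c) :
    UBOn 𝒞 S k μ g :=
  ⟨fun c hc x hx => (h.smooth c hc x hx).congr_of_eventuallyEq (hfg c hc x hx).symm,
    h.bound.imp fun _ hC => ⟨hC.1, fun c hc => (hC.2 c hc).congr (hfg c hc)⟩⟩

theorem UBOn.congr_eq (h : UBOn 𝒞 S k μ f) (hfg : ∀ c ∈ 𝒞, f c = g c) : UBOn 𝒞 S k μ g :=
  h.congr fun c hc _ _ => by rw [hfg c hc]

theorem UBOn.zero : UBOn 𝒞 S k μ (fun _ _ => (0 : E)) :=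
  ⟨fun _ _ _ _ => contMDiffAt_const, 0, le_rfl, fun _ _ w _ x _ => by
    rw [DW_zero, norm_zero, zero_mul]⟩

theorem UBOn.add (h₁ : UBOn 𝒞 S k μ f) (h₂ : UBOn 𝒞 S k μ g) :
    UBOn 𝒞 S k μ (fun c x => f c x + g c x) := by
  obtain ⟨C, hC0, hC⟩ := h₁.bound
  obtain ⟨C', hC0', hC'⟩ := h₂.bound
  exact ⟨fun c hc x hx => (h₁.smooth c hc x hx).add (h₂.smooth c hc x hx), C + C', by positivity,
    fun c hc => BdOn.add c.smooth_V (h₁.smooth c hc) (h₂.smooth c hc) (hC c hc) (hC' c hc)⟩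

theorem UBOn.clm (h : UBOn 𝒞 S k μ f) (A : E →L[ℝ] E') :
    UBOn 𝒞 S k μ (fun c x => A (f c x)) := by
  obtain ⟨C, hC0, hC⟩ := h.bound
  exact ⟨fun c hc x hx => A.contDiff.contDiffAt.comp_contMDiffAt (h.smooth c hc x hx), ‖A‖ * C,
    by positivity, fun c hc => BdOn.clm c.smooth_V A (h.smooth c hc) (hC c hc)⟩

theorem UBOn.neg (h : UBOn 𝒞 S k μ f) : UBOn 𝒞 S k μ (fun c x => -f c x) :=
  h.clm (-ContinuousLinearMap.id ℝ E)

theorem UBOn.sub (h₁ : UBOn 𝒞 S k μ f) (h₂ : UBOn 𝒞 S k μ g) :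
    UBOn 𝒞 S k μ (fun c x => f c x - g c x) := by
  simpa only [sub_eq_add_neg] using h₁.add h₂.neg

theorem UBOn.const_smul (h : UBOn 𝒞 S k μ f) (r : ℝ) :
    UBOn 𝒞 S k μ (fun c x => r • f c x) :=
  h.clm (r • ContinuousLinearMap.id ℝ E)

theorem UBOn.const_mul {a : Fld N P ℝ} (h : UBOn 𝒞 S k μ a) (r : ℝ) :
    UBOn 𝒞 S k μ (fun c x => r * a c x) :=
  h.const_smul r

theorem UBOn.sum {ι : Type*} (s : Finset ι) {u : ι → Fld N P E}
    (h : ∀ i ∈ s, UBOn 𝒞 S k μ (u i)) : UBOn 𝒞 S k μ (fun c x => ∑ i ∈ s, u i c x) := by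
  classical
  induction s using Finset.induction_on with
  | empty => simpa only [Finset.sum_empty] using UBOn.zero
  | insert a s ha ih =>
    simpa only [Finset.sum_insert ha] using (h a (Finset.mem_insert_self a s)).add
      (ih fun i hi => h i (Finset.mem_insert_of_mem hi))

theorem ubOn_const (e : E) : UBOn 𝒞 S k (one : Fld N P ℝ) (fun _ _ => e) :=
  ⟨fun _ _ _ _ => contMDiffAt_const, ‖e‖, norm_nonneg e, fun _ _ => bdOn_const_one e⟩

theorem UBOn.pi {ι : Type} [Fintype ι] {u : ι → Fld N P E} (hμ : Nonneg 𝒞 μ)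
    (h : ∀ i, UBOn 𝒞 S k μ (u i)) : UBOn 𝒞 S k μ (fun c x i => u i c x) := by
  choose C hC0 hC using fun i => (h i).bound
  refine ⟨fun c hc x hx => contMDiffAt_pi_space.2 fun i => (h i).smooth c hc x hx, ∑ i, C i,
    Finset.sum_nonneg fun i _ => hC0 i, fun c hc => ?_⟩
  exact bdOn_pi c.smooth_V (fun i => (h i).smooth c hc)
    (fun x _ => mul_nonneg (Finset.sum_nonneg fun i _ => hC0 i) (hμ c hc x))
    fun i => (hC i c hc).mono_const
      (Finset.single_le_sum (fun j _ => hC0 j) (Finset.mem_univ i)) fun x _ => hμ c hc x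

theorem UBOn.prodMk {g : Fld N P E'} (hμ : Nonneg 𝒞 μ) (h₁ : UBOn 𝒞 S k μ f)
    (h₂ : UBOn 𝒞 S k μ g) : UBOn 𝒞 S k μ (fun c x => (f c x, g c x)) := by
  obtain ⟨C, hC0, hC⟩ := h₁.bound
  obtain ⟨C', hC0', hC'⟩ := h₂.bound
  exact ⟨fun c hc x hx => (h₁.smooth c hc x hx).prodMk_space (h₂.smooth c hc x hx), C + C',
    by positivity, fun c hc => BdOn.prodMk c.smooth_V (h₁.smooth c hc) (h₂.smooth c hc)
      ((hC c hc).mono_const (by linarith) fun x _ => hμ c hc x)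
      ((hC' c hc).mono_const (by linarith) fun x _ => hμ c hc x)⟩

/-- Weights multiply in bilinear expressions. -/
theorem UBOn.bilin {a : Fld N P E} {b : Fld N P E'} (A : E →L[ℝ] E' →L[ℝ] G)
    (h₁ : UBOn 𝒞 S k μ a) (h₂ : UBOn 𝒞 S k ν b) :
    UBOn 𝒞 S k (fun c x => μ c x * ν c x) (fun c x => A (a c x) (b c x)) := by
  obtain ⟨C, hC0, hC⟩ := h₁.bound
  obtain ⟨C', hC0', hC'⟩ := h₂.bound
  exact ⟨fun c hc x hx => contMDiffAt_bilin A (h₁.smooth c hc x hx) (h₂.smooth c hc x hx),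
    2 ^ k * ‖A‖ * C * C', by positivity, fun c hc => BdOn.bilin c.smooth_V A
      (fun u v => A.le_opNorm₂ u v) (norm_nonneg A) (h₁.smooth c hc) (h₂.smooth c hc)
      (hC c hc) (hC' c hc)⟩

theorem UBOn.smul {a : Fld N P ℝ} (h₁ : UBOn 𝒞 S k μ a) (h₂ : UBOn 𝒞 S k ν f) :
    UBOn 𝒞 S k (fun c x => μ c x * ν c x) (fun c x => a c x • f c x) :=
  UBOn.bilin (ContinuousLinearMap.lsmul ℝ ℝ : ℝ →L[ℝ] E →L[ℝ] E) h₁ h₂

theorem UBOn.mul {a b : Fld N P ℝ} (h₁ : UBOn 𝒞 S k μ a) (h₂ : UBOn 𝒞 S k ν b) :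
    UBOn 𝒞 S k (fun c x => μ c x * ν c x) (fun c x => a c x * b c x) :=
  h₁.smul h₂

theorem UBOn.inner {H : Type} [NormedAddCommGroup H] [InnerProductSpace ℝ H]
    {u v : Fld N P H} (h₁ : UBOn 𝒞 S k μ u) (h₂ : UBOn 𝒞 S k ν v) :
    UBOn 𝒞 S k (fun c x => μ c x * ν c x) (fun c x => ⟪u c x, v c x⟫) :=
  UBOn.bilin (innerSL ℝ : H →L[ℝ] H →L[ℝ] ℝ) h₁ h₂

/-- A bounded factor does not change the weight. -/
theorem UBOn.smul_one {a : Fld N P ℝ} (h₁ : UBOn 𝒞 S k one a) (h₂ : UBOn 𝒞 S k μ f) :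
    UBOn 𝒞 S k μ (fun c x => a c x • f c x) :=
  (h₁.smul h₂).mono_weight zero_le_one fun c _ x _ => by simp [one]

theorem UBOn.mul_one {a b : Fld N P ℝ} (h₁ : UBOn 𝒞 S k μ a) (h₂ : UBOn 𝒞 S k one b) :
    UBOn 𝒞 S k μ (fun c x => a c x * b c x) :=
  (h₁.mul h₂).mono_weight zero_le_one fun c _ x _ => by simp [one]

theorem UBOn.one_mul {a b : Fld N P ℝ} (h₁ : UBOn 𝒞 S k one a) (h₂ : UBOn 𝒞 S k μ b) :
    UBOn 𝒞 S k μ (fun c x => a c x * b c x) :=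
  h₁.smul_one h₂

theorem UBOn.deriv (h : UBOn 𝒞 S (k + 1) μ f) (i : Fin N) :
    UBOn 𝒞 S k μ (fun c => D c.V i (f c)) :=
  ⟨fun c hc x hx => contMDiffAt_D c.smooth_V i (h.smooth c hc x hx),
    h.bound.imp fun _ hC => ⟨hC.1, fun c hc => (hC.2 c hc).deriv i⟩⟩

/-- A field bounded on a set containing its support is bounded everywhere. -/
theorem UBOn.extend (h : UBOn 𝒞 S k μ f) (hμ : Nonneg 𝒞 μ)
    (hs : ∀ c ∈ 𝒞, tsupport (f c) ⊆ S c) : UB 𝒞 k μ f :=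
  ⟨fun c hc x _ => contMDiff_of_tsupport (fun y hy => h.smooth c hc y (hs c hc hy)) x,
    h.bound.imp fun _ hC => ⟨hC.1, fun c hc => (hC.2 c hc).bd_of_tsupport_subset (hs c hc)
      fun x => mul_nonneg hC.1 (hμ c hc x)⟩⟩

/-- A field times a supported scalar. -/
theorem UBOn.smul_supported {a : Fld N P ℝ} (ha : UB 𝒞 k μ a)
    (hs : ∀ c ∈ 𝒞, tsupport (a c) ⊆ S c) (hf : UBOn 𝒞 S k ν f) (hμ : Nonneg 𝒞 μ)
    (hν : Nonneg 𝒞 ν) : UB 𝒞 k (fun c x => μ c x * ν c x) (fun c x => a c x • f c x) :=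
  ((ha.ubOn S).smul hf).extend (hμ.mul hν)
    fun c hc => (tsupport_smul_subset_left (a c) (f c)).trans (hs c hc)

/-- Composition with a map smooth near a closed set. -/
theorem UBOn.comp [ProperSpace E] (h : UBOn 𝒞 S k one f) {φ : E → E'} {U A : Set E}
    (hU : IsOpen U) (hφ : ContDiffOn ℝ ∞ φ U) (hA : IsClosed A) (hAU : A ⊆ U)
    (hfA : ∀ c ∈ 𝒞, ∀ x ∈ S c, f c x ∈ A) :
    UBOn 𝒞 S k one (fun c x => φ (f c x)) := by
  obtain ⟨C, -, hC⟩ := h.bound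
  obtain ⟨C', hC0', hC'⟩ := exists_bdOn_comp N k C hU hφ
    (S := A ∩ Metric.closedBall 0 C) ((isCompact_closedBall (0 : E) C).inter_left hA)
    (Set.inter_subset_left.trans hAU)
  have hin : ∀ c ∈ 𝒞, ∀ x ∈ S c, f c x ∈ A ∩ Metric.closedBall 0 C := fun c hc x hx =>
    ⟨hfA c hc x hx, mem_closedBall_zero_iff.2 (((hC c hc).norm_le hx).trans_eq (_root_.mul_one C))⟩
  exact ⟨fun c hc x hx => (hφ.contDiffAt (hU.mem_nhds (hAU (hfA c hc x hx)))).comp_contMDiffAt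
      (h.smooth c hc x hx), C', hC0',
    fun c hc => hC' c.M c.V (S c) (f c) c.smooth_V (h.smooth c hc) (hin c hc) (hC c hc)⟩

/-- Composition with a map smooth everywhere. -/
theorem UBOn.comp_contDiff [ProperSpace E] (h : UBOn 𝒞 S k one f) {φ : E → E'}
    (hφ : ContDiff ℝ ∞ φ) : UBOn 𝒞 S k one (fun c x => φ (f c x)) :=
  h.comp isOpen_univ hφ.contDiffOn isClosed_univ Set.Subset.rfl fun _ _ _ _ => Set.mem_univ _

/-- Reciprocal of a field bounded below. -/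
theorem UBOn.inv_of_lower {a : Fld N P ℝ} (h : UBOn 𝒞 S k one a) {δ : ℝ} (hδ : 0 < δ)
    (hl : ∀ c ∈ 𝒞, ∀ x ∈ S c, δ ≤ |a c x|) :
    UBOn 𝒞 S k one (fun c x => (a c x)⁻¹) :=
  h.comp (φ := fun t : ℝ => t⁻¹) (U := {0}ᶜ) (A := {t | δ ≤ |t|}) isOpen_compl_singleton
    (contDiffOn_inv ℝ) (isClosed_le continuous_const continuous_abs)
    (fun t ht h0 => by
      rw [Set.mem_singleton_iff.1 h0, Set.mem_ofPred_eq, abs_zero] at ht
      linarith) hl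

/-- Reciprocal of a weight. -/
theorem UBOn.inv_weight {a : Fld N P ℝ} (h : UBOn 𝒞 S k a a)
    (hp : ∀ c ∈ 𝒞, ∀ x ∈ S c, 0 < a c x) :
    UBOn 𝒞 S k (fun c x => (a c x)⁻¹) (fun c x => (a c x)⁻¹) := by
  obtain ⟨C, -, hC⟩ := h.bound
  obtain ⟨C', hC1, hC'⟩ := exists_bdOn_inv N k C
  exact ⟨fun c hc x hx => (contDiffAt_inv ℝ (hp c hc x hx).ne').comp_contMDiffAt
      (h.smooth c hc x hx), C', zero_le_one.trans hC1,
    fun c hc => hC' c.M c.V (S c) (a c) c.smooth_V (h.smooth c hc) (hp c hc) (hC c hc)⟩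

/-- Square root of a weight. -/
theorem UBOn.sqrt_weight {a : Fld N P ℝ} (h : UBOn 𝒞 S k a a)
    (hp : ∀ c ∈ 𝒞, ∀ x ∈ S c, 0 < a c x) :
    UBOn 𝒞 S k (fun c x => Real.sqrt (a c x)) (fun c x => Real.sqrt (a c x)) := by
  obtain ⟨C, -, hC⟩ := h.bound
  obtain ⟨C', hC1, hC'⟩ := exists_bdOn_sqrt N k C
  exact ⟨fun c hc x hx => (Real.contDiffAt_sqrt (hp c hc x hx).ne').comp_contMDiffAt
      (h.smooth c hc x hx), C', zero_le_one.trans hC1,
    fun c hc => hC' c.M c.V (S c) (a c) c.smooth_V (h.smooth c hc) (hp c hc) (hC c hc)⟩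

end Algebra

end Vale.Agent.P205.Full.Stage
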