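import Vale.Agent.P205.Full.Stage.StepCoef

/-!
# P205 full, module S5: the state of the iteration, the base state and one step

After `n` steps the perturbation is `v₀ + W₁` with `W₁` of size `√s w₀`, and the residual is a mean
of size `s^((n+1)/2) σ ℓ²` plus waves of size `s^(n/2) A' ℓ²`. One step gains `√s`, doubles the
degree and loses one derivative.
-/

open scoped Manifold ContDiff RealInnerProductSpace Matrix Topology
open Bundle Filter

set_option linter.unusedSectionVars false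

noncomputable section

namespace Vale.Agent.P205.Full.Stage

variable {N P : ℕ}

/-- The residual as a family. -/
def resF (W : Fld N P R4) : Fld N P (MatF N) := fun c x => resW c (W c) x

/-- The state after `n` steps. -/
structure State (𝒞 : Set (Ctx N P)) (R : ℝ) (u : Fin (qn P) → Fld N P R4) (Ld k n : ℕ)
    (W : Fld N P R4) : Prop where
  wave : ∃ W₁, Osc 𝒞 R Ld k (ampW 0) W₁ ∧
    ∀ c ∈ 𝒞, ∀ x, W c x = ampWave R bAmp u c x + W₁ c x
  res : ∃ E O, UB 𝒞 k (meanW n) E ∧ Osc 𝒞 R Ld k (oscF n) O ∧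
    ∀ c ∈ 𝒞, ∀ x, resF W c x = E c x + O c x

theorem tensAt_resW (c : Ctx N P) (W : c.M → R4) (x : c.M) :
    TensAt c.V x (resW c W x) := by
  have h := (tensAt_gV (V := c.V) (x := x) c.g).add_const_mul
    (tensAt_pullV (V := c.V) (x := x) (F := fun y => c.F y + W y)) (-1)
  have e : (fun i k => gV c.g c.V i k x + -1 * pullV (fun y => c.F y + W y) c.V i k x) =
      resW c W x := by
    funext i k; simp only [resW]; ring
  rwa [e] at h

theorem lin_add_left {M : Type} [TopologicalSpace M] [ChartedSpace R2 M]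
    [IsManifold (𝓡 2) ∞ M] {V : Frame M N} {U W δ : M → R4} {x : M}
    (hU : MDifferentiableAt (𝓡 2) 𝓘(ℝ, R4) U x) (hW : MDifferentiableAt (𝓡 2) 𝓘(ℝ, R4) W x)
    (i k : Fin N) :
    lin (fun y => U y + W y) V δ i k x = lin U V δ i k x + lin W V δ i k x := by
  simp only [lin, D_add hU hW, inner_add_left]
  ring

variable {𝒞 : Set (Ctx N P)} {R B : ℝ} {L Ld K k : ℕ}
variable {u : Fin (qn P) → Fld N P R4}

theorem StepHyp.nn_w0W (h : StepHyp 𝒞 R L K B u) : Nonneg 𝒞 w0W :=
  fun c hc x => (h.small c hc x).w0W_pos.le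

theorem StepHyp.nn_ampW (h : StepHyp 𝒞 R L K B u) (n : ℕ) : Nonneg 𝒞 (ampW n) :=
  fun c hc x => ((h.small c hc x).ampW_pos n).le

theorem StepHyp.nn_compW (h : StepHyp 𝒞 R L K B u) (n : ℕ) : Nonneg 𝒞 (compW n) :=
  fun c hc x => ((h.small c hc x).compW_pos n).le

/-- The base wave has full size. -/
theorem StepHyp.osc_base (h : StepHyp 𝒞 R L K B u) (hk : k ≤ K) (hL : 1 ≤ Ld) :
    Osc 𝒞 R Ld k w0W (ampWave R bAmp u) :=
  (h.osc_ampWave (h.ampOK_bAmp hk) hk hL).mono_weight zero_le_one fun c _ x => by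
    rw [one_mul]; exact le_rfl

/-- **The base state.** -/
theorem StepHyp.base (h : StepHyp 𝒞 R L K B u) (hk : k + 1 ≤ K) :
    ∃ W, State 𝒞 R u 2 k 0 W := by
  obtain ⟨X, l, hX, hl, hlin⟩ := h.solve_amp hk (h.ampOK_bAmp hk) (A := B + 1)
    (ν' := ampW 0) (μ' := oscF 0) (by linarith [h.B_nonneg])
    (fun c hc x => by
      have s := h.small c hc x
      calc c.ε * c.H x * (c.ε * c.ℓ x * sqrtσ c x) ≤ rW c x * B * w0W c x :=
            mul_le_mul_of_nonneg_right (mul_le_mul s.ε_le_rW s.Hle s.Hpos.le s.rW_pos.le)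
              s.w0W_pos.le
        _ ≤ (B + 1) * ampW 0 c x := by
            simp only [ampW, zero_add, pow_one]
            linarith [mul_pos s.rW_pos s.w0W_pos])
    (fun c hc x => by
      have s := h.small c hc x
      have h1 := mul_le_mul_of_nonneg_right (sq_mul_le_oscW (ε := c.ε) (H := c.H x) s.σpos.le)
        (sq_nonneg (c.ℓ x))
      have h2 := s.oscF_pos 0
      simp only [sqrtσ, oscF, pow_zero, one_mul] at h1 h2 ⊢
      nlinarith [h.B_nonneg])
  set v : Fld N P R4 := ampWave R bAmp u with hv_def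
  have hv1 : Osc 𝒞 R 1 (k + 1) w0W v := h.osc_base hk le_rfl
  choose M O hM hO heq using fun i j =>
    h.gram_amp hk (h.ampOK_bAmp hk) (h.ampOK_bAmp hk) i j
  set M' : Fld N P (MatF N) := fun c x i j => M i j c x with hM'
  set O' : Fld N P (MatF N) := fun c x i j => O i j c x with hO'
  have hMu : UB 𝒞 k (meanW 0) M' := UBOn.of_entries fun i j =>
    (hM i j).mono_weight zero_le_one fun c hc x _ => by
      have s := h.small c hc x
      rw [one_mul]
      show c.ε * c.ℓ x ^ 2 * (Real.sqrt (c.σ x) * Real.sqrt (c.σ x)) ≤ _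
      rw [Real.mul_self_sqrt s.σpos.le, meanW, zero_add, pow_one]
      nlinarith [mul_le_mul_of_nonneg_right s.ε_le_rW (mul_nonneg (sq_nonneg (c.ℓ x)) s.σpos.le)]
  have hOu : Osc 𝒞 R 2 k (oscF 0) O' := Osc.of_entries fun i j =>
    (hO i j).mono_weight zero_le_one fun c hc x => by
      have s := h.small c hc x
      rw [one_mul]
      show c.ℓ x ^ 2 * (Real.sqrt (c.σ x) * Real.sqrt (c.σ x)) ≤ _
      rw [Real.mul_self_sqrt s.σpos.le, oscF, pow_zero, one_mul, mul_comm]
      exact mul_le_mul_of_nonneg_right (sigma_le_oscW s.Hpos) (sq_nonneg _)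
  have tX : Trig 𝒞 R 2 k (meanW 0) (linM v X) :=
    (trig_linM h.nice (by omega) h.nn_w0W (h.nn_ampW 0) hv1 hX).mono_weight zero_le_one
      fun c hc x => by
        have := (h.small c hc x).εpos.ne'
        simp only [prodW, ampW, meanW, w0W, waveW, zero_add, pow_one, one_mul]
        refine le_of_eq ?_
        field_simp
        rw [Real.sq_sqrt (h.small c hc x).σpos.le]
        ring
  have tQ : Trig 𝒞 R 2 k (meanW 0) (quadM X) :=
    (trig_quadM h.nice (by omega) (h.nn_ampW 0) hX).mono_weight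
      zero_le_two fun c hc x => by
        have s := h.small c hc x
        refine (s.amp_amp 0 0).trans ?_
        rw [pow_zero, one_mul]
        simp only [meanW, zero_add]
        rw [pow_succ' (rW c x) 1, pow_one]
        nlinarith [mul_le_mul_of_nonneg_right s.rW_le_two
          (mul_nonneg (mul_nonneg s.rW_pos.le s.σpos.le) (sq_nonneg (c.ℓ x)))]
  obtain ⟨T₀, T₁, hT₀, hT₁, eT⟩ := tX.add' tQ (h := fun c x => linM v X c x + quadM X c x)
    fun _ _ _ => rfl
  refine ⟨fun c x => v c x + X c x, ⟨X, (hX.mono_order k.le_succ).mono_L one_le_two,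
    fun _ _ _ => rfl⟩, fun c x => -(M' c x + T₀ c x), fun c x => -(l c x + O' c x + T₁ c x),
    (hMu.add hT₀).neg, ?_, fun c hc x => ?_⟩
  · exact (Osc.add _ _ (Osc.add _ _ (hl.mono_L one_le_two) hOu)
      (hT₁.mono_weight zero_le_two fun c hc x => (h.small c hc x).mean_le_osc 0)).neg
  · have hF := mdiffAt_of_smoothAt (h.smooth_F c hc x)
    have hv := mdiffAt_of_smoothAt (hv1.contMDiff h.nice hc x)
    have hXd := mdiffAt_of_smoothAt (hX.contMDiff h.nice hc x)
    have hW : MDifferentiableAt (𝓡 2) 𝓘(ℝ, R4) (fun y => v c y + X c y) x := hv.add hXd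
    funext i j
    show resW c (fun y => v c y + X c y) x i j =
      -(M' c x i j + T₀ c x i j) + -(l c x i j + O' c x i j + T₁ c x i j)
    rw [resW_eq c hF hW, pullV_add hv hXd]
    have e1 : lin c.F c.V (fun y => v c y + X c y) i j x = l c x i j :=
      congrFun (congrFun (hlin c hc x) i) j
    have e2 : pullV (v c) c.V i j x =
        resW c (fun _ => 0) x i j + (M i j c x + O i j c x) := by
      rw [← h.meanI_base hc x i j]; exact heq i j c hc x
    have e3 : lin (v c) c.V (X c) i j x + pullV (X c) c.V i j x = T₀ c x i j + T₁ c x i j :=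
      congrFun (congrFun (eT c hc x) i) j
    rw [resW_zero] at e2
    simp only [hM', hO']
    linarith

/-- **One step.** -/
theorem StepHyp.step (h : StepHyp 𝒞 R L K B u) (hk : k + 1 ≤ K) (h1 : 1 ≤ Ld) (hL : Ld ≤ L)
    {n : ℕ} {W : Fld N P R4} (hs : State 𝒞 R u Ld (k + 1) n W) :
    ∃ W', State 𝒞 R u (Ld + Ld) k (n + 1) W' := by
  obtain ⟨⟨W₁, hW₁, eW⟩, E, O, hE, hO, eR⟩ := hs
  set Ep : Fld N P (MatF N) := projF E with hEp
  have hEpu : UB 𝒞 (k + 1) (meanW n) Ep := h.ub_projF hk hE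
  have eR' : ∀ c ∈ 𝒞, ∀ x, resF W c x = Ep c x + projF O c x := fun c hc x => by
    have hp := projTens_eq_self c.g c.ℓ (h.small c hc x).ℓpos.ne' (h.spans c hc x)
      (tensAt_resW c (W c) x)
    show resW c (W c) x = _
    rw [← hp, show resW c (W c) x = E c x + O c x from eR c hc x, projTens_add]
    rfl
  obtain ⟨δ₁, l₁, hδ₁, hl₁, elin₁⟩ := h.solve_osc hk hL n hO
  have hγ : AmpOK 𝒞 (k + 1) (coefW n) (dAmp Ep) := h.ampOK_dAmp hk n hEpu
  have hamp : ∀ c : Ctx N P, ∀ x, c.ε * c.ℓ x * coefW n c x = ampW n c x := fun c x => by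
    simp only [coefW, ampW, w0W, waveW]; ring
  obtain ⟨X, l₀, hX, hl₀, elin₀⟩ := h.solve_amp hk hγ (A := B + 1)
    (ν' := compW n) (μ' := oscF (n + 1)) (by linarith [h.B_nonneg])
    (fun c hc x => by
      rw [hamp]
      exact ((h.small c hc x).amp_tangential n).trans
        (mul_le_mul_of_nonneg_right (by linarith) ((h.small c hc x).compW_pos n).le))
    (fun c hc x => by
      rw [hamp]
      exact ((h.small c hc x).amp_leftover n).trans
        (le_mul_of_one_le_left ((h.small c hc x).oscF_pos _).le (by linarith [h.B_nonneg])))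
  set v : Fld N P R4 := ampWave R bAmp u with hv_def
  set d₀ : Fld N P R4 := ampWave R (dAmp Ep) u with hd₀
  have hv : Osc 𝒞 R Ld (k + 1) w0W v := h.osc_base hk h1
  have hd : Osc 𝒞 R Ld (k + 1) (ampW n) d₀ :=
    (h.osc_ampWave hγ hk h1).mono_weight zero_le_one fun c _ x => by rw [one_mul, hamp]
  set Y : Fld N P R4 := fun c x => X c x + δ₁ c x with hY_def
  have hY : Osc 𝒞 R Ld (k + 1) (compW n) Y := .add _ _ (hX.mono_L h1) hδ₁
  have hca : ∀ c ∈ 𝒞, ∀ x, compW n c x ≤ 2 * ampW n c x := fun c hc x => by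
    have s := h.small c hc x
    calc compW n c x = rW c x * ampW n c x := by simp only [compW, ampW, pow_succ]; ring
      _ ≤ _ := mul_le_mul_of_nonneg_right s.rW_le_two (s.ampW_pos n).le
  set δ : Fld N P R4 := fun c x => d₀ c x + Y c x with hδ_def
  have hδ : Osc 𝒞 R Ld (k + 1) (ampW n) δ := .add _ _ hd (hY.mono_weight zero_le_two hca)
  have ta : Trig 𝒞 R (Ld + Ld) k (meanW (n + 1)) (linM v Y) :=
    (trig_linM h.nice (by omega) h.nn_w0W (h.nn_compW n) hv hY).mono_weight zero_le_one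
      fun c hc x => by rw [one_mul]; exact ((h.small c hc x).wave_comp n).le
  have tb : Trig 𝒞 R (Ld + Ld) k (meanW (n + 1)) (linM W₁ δ) :=
    (trig_linM h.nice (by omega) (h.nn_ampW 0) (h.nn_ampW n) hW₁ hδ).mono_weight
      (a := 2 ^ 0) (by positivity) fun c hc x => (h.small c hc x).amp_amp 0 n
  have tq : Trig 𝒞 R (Ld + Ld) k (meanW (n + 1)) (quadM δ) :=
    (trig_quadM h.nice (by omega) (h.nn_ampW n) hδ).mono_weight
      (a := 2 ^ n) (by positivity) fun c hc x => (h.small c hc x).amp_amp n n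
  obtain ⟨T₀, T₁, hT₀, hT₁, eT⟩ := (ta.add' tb (h := fun c x => linM v Y c x + linM W₁ δ c x)
    fun _ _ _ => rfl).add' tq (h := fun c x => linM v Y c x + linM W₁ δ c x + quadM δ c x)
    fun _ _ _ => rfl
  choose M Og hM hOg heq using fun i j => h.gram_amp hk (h.ampOK_bAmp hk) hγ i j
  set M' : Fld N P (MatF N) := fun c x i j => M i j c x + M j i c x with hM'
  set O' : Fld N P (MatF N) := fun c x i j => Og i j c x + Og j i c x with hO'
  have hMu : UB 𝒞 k (meanW (n + 1)) M' := UBOn.of_entries fun i j =>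
    ((hM i j).add (hM j i)).mono_weight zero_le_one fun c hc x _ => by
      rw [one_mul]; exact (h.small c hc x).cross_amp n
  have hOu : Osc 𝒞 R (Ld + Ld) k (oscF (n + 1)) O' := Osc.of_entries fun i j =>
    ((Osc.add _ _ (hOg i j) (hOg j i)).mono_L (by omega)).mono_weight zero_le_one fun c hc x => by
      rw [one_mul]; exact (h.small c hc x).cross_osc n
  refine ⟨fun c x => W c x + δ c x, ⟨fun c x => W₁ c x + δ c x, ?_, fun c hc x => ?_⟩,
    fun c x => -(M' c x + T₀ c x), fun c x => -(l₀ c x + l₁ c x + O' c x + T₁ c x),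
    (hMu.add hT₀).neg, ?_, fun c hc x => ?_⟩
  · refine ((Osc.add _ _ hW₁ (hδ.mono_weight (a := 2 ^ n) (by positivity) fun c hc x => ?_)
      ).mono_order k.le_succ).mono_L (by omega)
    have s := h.small c hc x
    simp only [ampW]
    rw [← mul_assoc]
    refine mul_le_mul_of_nonneg_right ?_ s.w0W_pos.le
    simpa using s.pow_mono (show 0 + 1 ≤ n + 1 by omega)
  · show W c x + δ c x = _
    rw [eW c hc x, add_assoc]
  · refine ((Osc.add _ _ (Osc.add _ _ (Osc.add _ _ (hl₀.mono_L (by omega))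
      (hl₁.mono_L (by omega))) hOu) (hT₁.mono_weight zero_le_two
      fun c hc x => (h.small c hc x).mean_le_osc (n + 1)))).neg
  · have md : ∀ {f : Fld N P R4} {μ : Fld N P ℝ} {l a : ℕ}, Osc 𝒞 R l a μ f →
        MDifferentiableAt (𝓡 2) 𝓘(ℝ, R4) (f c) x :=
      fun hf => mdiffAt_of_smoothAt (hf.contMDiff h.nice hc x)
    have hF := mdiffAt_of_smoothAt (h.smooth_F c hc x)
    have hWf : W c = fun y => v c y + W₁ c y := funext fun y => eW c hc y
    have hWd : MDifferentiableAt (𝓡 2) 𝓘(ℝ, R4) (W c) x := by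
      rw [hWf]; exact (md hv).add (md hW₁)
    funext i j
    show resW c (fun y => W c y + δ c y) x i j =
      -(M' c x i j + T₀ c x i j) + -(l₀ c x i j + l₁ c x i j + O' c x i j + T₁ c x i j)
    rw [resW_add c hF hWd (md hδ)]
    have e1 : resW c (W c) x i j = Ep c x i j + projF O c x i j :=
      congrFun (congrFun (eR' c hc x) i) j
    have e2 : lin c.F c.V (δ c) i j x = l₀ c x i j + (projF O c x i j + l₁ c x i j) := by
      have a0 : lin c.F c.V (fun y => d₀ c y + X c y) i j x = l₀ c x i j :=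
        congrFun (congrFun (elin₀ c hc x) i) j
      have a1 : lin c.F c.V (δ₁ c) i j x = projF O c x i j + l₁ c x i j :=
        congrFun (congrFun (elin₁ c hc x) i) j
      have hs : δ c = fun y => (d₀ c y + X c y) + δ₁ c y := funext fun y => by
        simp only [hδ_def, hY_def]; abel
      rw [hs, lin_add (U := fun y => d₀ c y + X c y) ((md hd).add (md hX)) (md hδ₁), a0, a1]
    have e3 : lin (W c) c.V (δ c) i j x =
        lin (v c) c.V (d₀ c) i j x + lin (v c) c.V (Y c) i j x + lin (W₁ c) c.V (δ c) i j x := by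
      rw [hWf, lin_add_left (md hv) (md hW₁)]
      congr 1
      exact lin_add (md hd) (md hY) i j
    have e4 : lin (v c) c.V (d₀ c) i j x = Ep c x i j + (M' c x i j + O' c x i j) := by
      rw [show Ep c x i j = projF E c x i j from rfl,
        ← h.meanI_corr hc x (h.tensAt_projF E hc x) i j]
      show ⟪D c.V i (v c) x, D c.V j (d₀ c) x⟫ + ⟪D c.V j (v c) x, D c.V i (d₀ c) x⟫ = _
      rw [heq i j c hc x, heq j i c hc x]
      simp only [hM', hO', hEp]
      ring
    have e5 : lin (v c) c.V (Y c) i j x + lin (W₁ c) c.V (δ c) i j x + pullV (δ c) c.V i j x =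
        T₀ c x i j + T₁ c x i j := congrFun (congrFun (eT c hc x) i) j
    linarith

/-- **The iteration.** -/
theorem StepHyp.iterate (h : StepHyp 𝒞 R L K B u) :
    ∀ (n k : ℕ), k + n + 1 ≤ K → 2 ^ n ≤ L → ∃ W, State 𝒞 R u (2 ^ (n + 1)) k n W := by
  intro n
  induction n with
  | zero => exact fun k hk _ => by simpa using h.base (k := k) (by omega)
  | succ n ih =>
    intro k hk hL
    have hle : 2 ^ n ≤ 2 ^ (n + 1) := Nat.pow_le_pow_right two_pos n.le_succ
    obtain ⟨W, hW⟩ := ih (k + 1) (by omega) (hle.trans hL)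
    obtain ⟨W', hW'⟩ := h.step (k := k) (by omega) (Nat.one_le_two_pow) hL hW
    exact ⟨W', by rwa [pow_succ _ (n + 1), mul_two]⟩

/-- **The series**: `2 m` steps give the bounds of the stage lemma. -/
theorem StepHyp.series (h : StepHyp 𝒞 R L K B u) (m j : ℕ) (hK : j + 2 * m + 1 ≤ K)
    (hL : 2 ^ (2 * m) ≤ L) :
    ∃ (W : Fld N P R4) (C : ℝ), 0 < C ∧ ∀ c ∈ 𝒞,
      ContMDiff (𝓡 2) 𝓘(ℝ, R4) ∞ (fun y => c.F y + W c y) ∧
      (∀ w : List (Fin N), w.length ≤ j → ∀ x,
        ‖DW c.V w (W c) x‖ ≤ C * (1 / c.ε) ^ w.length * (c.ε * c.ℓ x * Real.sqrt (c.σ x))) ∧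
      (∀ i k, ∀ w : List (Fin N), w.length ≤ j → ∀ x,
        ‖DW c.V w (fun y => gV c.g c.V i k y - pullV (fun z => c.F z + W c z) c.V i k y) x‖ ≤
          C * (1 / c.ε) ^ w.length * (c.ε + Real.sqrt (c.σ x) / (c.ε * c.H x)) ^ m *
            (c.ℓ x ^ 2 * Real.sqrt (c.σ x) * (Real.sqrt (c.σ x) + c.ε * c.H x))) := by
  obtain ⟨W, ⟨W₁, hW₁, eW⟩, E, O, hE, hO, eR⟩ := h.iterate (2 * m) j hK hL
  have hWo : Osc 𝒞 R (2 ^ (2 * m + 1)) j w0W W :=
    Osc.add' (h.osc_base (by omega) Nat.one_le_two_pow)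
      (hW₁.mono_weight zero_le_two fun c hc x => by
        have s := h.small c hc x
        simp only [ampW, zero_add, pow_one]
        exact mul_le_mul_of_nonneg_right s.rW_le_two s.w0W_pos.le) eW
  set G : Fld N P ℝ := fun c x => (c.ε + Real.sqrt (c.σ x) / (c.ε * c.H x)) ^ m *
    (c.ℓ x ^ 2 * Real.sqrt (c.σ x) * (Real.sqrt (c.σ x) + c.ε * c.H x)) with hG
  have hGn : Nonneg 𝒞 G := fun c hc x => by
    have s := h.small c hc x
    exact le_trans (s.oscF_pos _).le (s.oscF_le m)
  have hR : Trig 𝒞 R (2 ^ (2 * m + 1)) j G (resF W) :=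
    ⟨E, O, hE.mono_weight zero_le_two fun c hc x _ => (h.small c hc x).meanW_le m,
      hO.mono_weight zero_le_one fun c hc x => by rw [one_mul]; exact (h.small c hc x).oscF_le m,
      eR⟩
  obtain ⟨C, hC0, hC⟩ := Trig.DW_le h.nice h.nn_w0W (j := j) (by omega) (Trig.of_osc hWo)
  choose D' hD0 hD using fun i k =>
    Trig.DW_le h.nice hGn (j := j) (by omega) (hR.clm (entryL i k))
  have hS : 0 ≤ ∑ i, ∑ k, D' i k :=
    Finset.sum_nonneg fun i _ => Finset.sum_nonneg fun k _ => hD0 i k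
  refine ⟨W, C + (∑ i, ∑ k, D' i k) + 1, by linarith,
    fun c hc => ⟨fun x => (h.smooth_F c hc x).add (hWo.contMDiff h.nice hc x),
      fun w hw x => ?_, fun i k w hw x => ?_⟩⟩
  · refine (hC c hc w hw x).trans ?_
    have := h.nn_w0W c hc x
    have := (h.small c hc x).εpos
    show C * (1 / c.ε) ^ w.length * w0W c x ≤ _ * w0W c x
    gcongr
    linarith
  · have h1 : ‖DW c.V w (fun y => gV c.g c.V i k y - pullV (fun z => c.F z + W c z) c.V i k y) x‖ ≤
        D' i k * (1 / c.ε) ^ w.length * G c x := hD i k c hc w hw x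
    refine h1.trans ?_
    have := hGn c hc x
    have := (h.small c hc x).εpos
    rw [mul_assoc _ ((c.ε + Real.sqrt (c.σ x) / (c.ε * c.H x)) ^ m)]
    show D' i k * (1 / c.ε) ^ w.length * G c x ≤ _ * G c x
    gcongr
    have h2 := (Finset.single_le_sum (fun l _ => hD0 i l) (Finset.mem_univ k)).trans
      (Finset.single_le_sum (f := fun i => ∑ k, D' i k)
        (fun i _ => Finset.sum_nonneg fun k _ => hD0 i k) (Finset.mem_univ i))
    linarith

end Vale.Agent.P205.Full.Stage
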