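import Vale.Agent.P205.Full.Stage.StepOsc

/-!
# P205 full, module S5 (part): the amplitude waves

`ampWave R β u = Σ_q sin θ_q • (ε ℓ R^(-q) β_q u_q)`. Its first order term is removed by tangential
fields, and the mean of the product of two such waves is computed exactly.
-/

open scoped Manifold ContDiff RealInnerProductSpace Matrix Topology
open Bundle Filter

set_option linter.unusedSectionVars false

noncomputable section

namespace Vale.Agent.P205.Full.Stage

variable {N P : ℕ}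

/-- The multi-index of a single phase. -/
def qv (q : Fin (qn P)) : Fin (qn P) → ℤ := Pi.single q 1

theorem qv_mem_box (q : Fin (qn P)) {L : ℕ} (hL : 1 ≤ L) : qv q ∈ box (qn P) L :=
  mem_box.2 fun q' => by
    rcases eq_or_ne q' q with rfl | h
    · rw [qv, Pi.single_eq_same, abs_one]; exact_mod_cast hL
    · simp [qv, Pi.single_eq_of_ne h]

theorem qv_ne_zero (q : Fin (qn P)) : qv q ≠ 0 := fun h => by
  simpa [qv] using congrFun h q

theorem qv_injective : Function.Injective (qv : Fin (qn P) → Fin (qn P) → ℤ) := fun q q' h => by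
  by_contra hne
  simpa [qv, Pi.single_eq_of_ne hne] using congrFun h q

theorem qv_add_ne_zero (q q' : Fin (qn P)) : qv q + qv q' ≠ 0 := fun h => by
  have h1 := congrFun h q
  rcases eq_or_ne q q' with rfl | hne
  · simp [qv] at h1
  · simp [qv, Pi.single_eq_of_ne hne] at h1

theorem mem_goodM_qv {c : Ctx N P} {q : Fin (qn P)} {x : c.M} :
    x ∈ goodM (qv q) c ↔ x ∈ c.good q := by
  refine ⟨fun h => h q (by simp [qv]), fun h q' hq' => ?_⟩
  rcases eq_or_ne q' q with rfl | hne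
  · exact h
  · simp [qv, Pi.single_eq_of_ne hne] at hq'

theorem mcov_qv (R : ℝ) (c : Ctx N P) (q : Fin (qn P)) (i : Fin N) (x : c.M) :
    mcov R c (qv q) i x = R ^ (q : ℕ) * D c.V i (c.ph q) x := by
  rw [mcov, Finset.sum_eq_single q (fun q' _ h => by simp [qv, Pi.single_eq_of_ne h])
    (fun h => absurd (Finset.mem_univ q) h)]
  simp [qv]

/-- The coefficient of an amplitude wave. -/
def ampA (R : ℝ) (β : Fin (qn P) → Fld N P ℝ) (u : Fin (qn P) → Fld N P R4) (q : Fin (qn P)) :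
    Fld N P R4 :=
  fun c x => (c.ε * c.ℓ x * (R ^ (q : ℕ))⁻¹ * β q c x) • u q c x

/-- An amplitude wave. -/
def ampWave (R : ℝ) (β : Fin (qn P) → Fld N P ℝ) (u : Fin (qn P) → Fld N P R4) : Fld N P R4 :=
  fun c x => ∑ q, wave R (qv q) true (ampA R β u q) c x

/-- The main coefficient of its derivative. -/
def mainA (β : Fin (qn P) → Fld N P ℝ) (u : Fin (qn P) → Fld N P R4) (q : Fin (qn P))
    (i : Fin N) : Fld N P R4 :=
  fun c x => (c.ℓ x * (β q c x * D c.V i (c.ph q) x)) • u q c x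

/-- The hypotheses on the amplitudes. -/
structure AmpOK (𝒞 : Set (Ctx N P)) (k : ℕ) (ν : Fld N P ℝ) (β : Fin (qn P) → Fld N P ℝ) :
    Prop where
  nonneg : Nonneg 𝒞 ν
  supp : ∀ q, ∀ c ∈ 𝒞, tsupport (β q c) ⊆ c.good q
  ub : ∀ q, UB 𝒞 k ν (β q)

variable {𝒞 : Set (Ctx N P)} {R B : ℝ} {L K k : ℕ} {μ ν ν' μ' : Fld N P ℝ}
variable {u : Fin (qn P) → Fld N P R4} {β γ : Fin (qn P) → Fld N P ℝ}

theorem AmpOK.mono {l : ℕ} (hβ : AmpOK 𝒞 k ν β) (hl : l ≤ k) : AmpOK 𝒞 l ν β :=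
  ⟨hβ.nonneg, hβ.supp, fun q => UBOn.mono_order (hβ.ub q) hl⟩

theorem AmpOK.eq_zero (hβ : AmpOK 𝒞 k ν β) {c : Ctx N P} (hc : c ∈ 𝒞) {q : Fin (qn P)}
    {x : c.M} (hx : x ∉ c.good q) : β q c x = 0 :=
  image_eq_zero_of_notMem_tsupport fun h => hx (hβ.supp q c hc h)

section
variable (h : StepHyp 𝒞 R L K B u) (hβ : AmpOK 𝒞 k ν β) (hk : k ≤ K)
include h hβ hk

/-- A scalar multiple of a normal direction supported in its good set. -/
theorem StepHyp.ub_dir (q : Fin (qn P)) {f : Fld N P ℝ} (hμ : Nonneg 𝒞 μ)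
    (hf : UB 𝒞 k μ f) (hs : ∀ c ∈ 𝒞, tsupport (f c) ⊆ c.good q) :
    UB 𝒞 k μ (fun c x => f c x • u q c x) ∧
      Supp 𝒞 (qv q) (fun c x => f c x • u q c x) := by
  refine ⟨(UBOn.smul_supported hf hs ((h.ub_u q).mono_order hk) hμ (nonneg_one 𝒞)).mono_weight
    zero_le_one fun c _ x _ => by simp [one], fun c hc x hx => mem_goodM_qv.2 ?_⟩
  exact hs c hc (tsupport_smul_subset_left (f c) (u q c) hx)

theorem StepHyp.ub_ampA (q : Fin (qn P)) :
    UB 𝒞 k (fun c x => c.ε * c.ℓ x * ν c x) (ampA R β u q) ∧ Supp 𝒞 (qv q) (ampA R β u q) := by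
  have hw : Nonneg 𝒞 (fun c x => c.ε * c.ℓ x * ν c x) := fun c hc x =>
    mul_nonneg (mul_nonneg (h.small c hc x).εpos.le (h.small c hc x).ℓpos.le) (hβ.nonneg c hc x)
  have hf : UB 𝒞 k (fun c x => c.ε * c.ℓ x * ν c x)
      (fun c x => c.ε * c.ℓ x * (R ^ (q : ℕ))⁻¹ * β q c x) :=
    ((((ub_ctxConst (fun c => c.ε) (fun c hc => (h.nice.eps_pos c hc).le) allM).mul
      (UBOn.mono_order h.geom.ub_ℓ hk)).mul (hβ.ub q)).const_mul (R ^ (q : ℕ))⁻¹).congr_eq
        fun c _ => funext fun x => by ring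
  refine h.ub_dir hβ hk q hw hf fun c hc => subset_trans ?_ (hβ.supp q c hc)
  exact tsupport_mul_subset_right (f := fun x => c.ε * c.ℓ x * (R ^ (q : ℕ))⁻¹)

theorem StepHyp.ub_mainA (q : Fin (qn P)) (i : Fin N) :
    UB 𝒞 k (fun c x => c.ℓ x * ν c x) (mainA β u q i) ∧ Supp 𝒞 (qv q) (mainA β u q i) := by
  have hw : Nonneg 𝒞 (fun c x => c.ℓ x * ν c x) := fun c hc x =>
    mul_nonneg (h.small c hc x).ℓpos.le (hβ.nonneg c hc x)
  have hsup : ∀ c ∈ 𝒞, tsupport (fun x => β q c x * D c.V i (c.ph q) x) ⊆ c.good q :=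
    fun c hc => (tsupport_mul_subset_left).trans (hβ.supp q c hc)
  have h1 : UB 𝒞 k ν (fun c x => β q c x * D c.V i (c.ph q) x) :=
    (((hβ.ub q).ubOn (fun c => c.good q)).mul_one ((h.nice.bd_ph q i).mono_order hk)).extend
      hβ.nonneg hsup
  exact h.ub_dir hβ hk q hw ((UBOn.mono_order h.geom.ub_ℓ hk).mul h1) fun c hc =>
    (tsupport_mul_subset_right).trans (hsup c hc)

theorem StepHyp.osc_ampWave {L' : ℕ} (hL : 1 ≤ L') :
    Osc 𝒞 R L' k (fun c x => c.ε * c.ℓ x * ν c x) (ampWave R β u) :=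
  Osc.sum Finset.univ fun q _ =>
    .wave (qv q) true _ (qv_mem_box q hL) (qv_ne_zero q) (h.ub_ampA hβ hk q).2
      (h.ub_ampA hβ hk q).1

end

theorem qf_const_smul (a : Fin N → ℝ) (r : ℝ) {W : Type} [NormedAddCommGroup W] [NormedSpace ℝ W]
    (T : Fin N → Fin N → W) :
    Decomp.qf (r • a) (r • a) T = r ^ 2 • Decomp.qf a a T := by
  simp only [Decomp.qf, Pi.smul_apply, smul_eq_mul, smul_sub, smul_smul, Finset.smul_sum,
    Finset.mul_sum]
  congr 1
  · refine Finset.sum_congr rfl fun k _ => ?_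
    congr 1
    exact Finset.sum_congr rfl fun i _ => by ring
  · exact Finset.sum_congr rfl fun i _ => Finset.sum_congr rfl fun k _ => by
      congr 1; ring

/-- **The first order term of an amplitude wave is removed tangentially.** -/
theorem StepHyp.solve_amp (h : StepHyp 𝒞 R L K B u) (hk : k + 1 ≤ K)
    (hβ : AmpOK 𝒞 (k + 1) ν β) {A : ℝ} (hA : 0 ≤ A)
    (hν : ∀ c ∈ 𝒞, ∀ x, c.ε * c.H x * (c.ε * c.ℓ x * ν c x) ≤ A * ν' c x)
    (hμ : ∀ c ∈ 𝒞, ∀ x, c.ℓ x * (c.ε * c.H x * (c.ε * c.ℓ x * ν c x)) ≤ A * μ' c x) :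
    ∃ X l, Osc 𝒞 R 1 (k + 1) ν' X ∧ Osc 𝒞 R 1 k μ' l ∧
      ∀ c ∈ 𝒞, ∀ x, linM baseF (fun c x => ampWave R β u c x + X c x) c x = l c x := by
  obtain ⟨δ, hδ, hd⟩ := h.dominance
  obtain ⟨δ', hδ', he⟩ := h.e2_lower
  have hA' : ∀ q, UB 𝒞 (k + 1) (fun c x => c.ε * c.ℓ x * ν c x) (ampA R β u q) :=
    fun q => (h.ub_ampA hβ hk q).1
  have hsA : ∀ q, Supp 𝒞 (qv q) (ampA R β u q) := fun q => (h.ub_ampA hβ hk q).2
  set a : Fin (qn P) → Fld N P (MatF N) := fun q c x i j =>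
    ⟪sff c.F c.V i j x, (2 : ℝ) • ampA R β u q c x⟫ with ha_def
  have ha : ∀ q, UB 𝒞 (k + 1) (fun c x => hWt c x * (c.ε * c.ℓ x * ν c x)) (a q) := fun q =>
    UBOn.of_entries (f := a q) fun i j =>
      UBOn.inner (UBOn.mono_order (h.geom.ub_sff i j) hk) ((hA' q).const_smul 2)
  have hs : ∀ q, Supp 𝒞 (qv q) (a q) := fun q => (hsA q).map fun c _ x e => by
    funext i j; simp [ha_def, e]
  have hnormal : ∀ q, ∀ c ∈ 𝒞, ∀ y, ampA R β u q c y ∈ (tanPlane c.F y)ᗮ := fun q c hc y => by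
    by_cases hy : y ∈ c.good q
    · exact Submodule.smul_mem _ _ (h.u_normal c hc q y hy)
    · simp [ampA, hβ.eq_zero hc hy]
  have hq : ∀ q, ∀ c ∈ 𝒞, ∀ x,
      Decomp.qf (mVecF R (qv q) c x) (mVecF R (qv q) c x) (fun i j => a q c x i j) = 0 := by
    intro q c hc x
    have e : mVecF R (qv q) c x = (R ^ (q : ℕ)) • cov c.V (c.ph q) x := funext fun i => by
      simp [mVecF, mcov_qv, cov]
    simp only [ha_def]
    rw [← inner_qf, e, qf_const_smul, real_inner_smul_left]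
    by_cases hx : x ∈ c.good q
    · simp only [ampA, real_inner_smul_right]
      have := h.u_perp c hc q x hx
      simp only [pE] at this
      rw [this]; ring
    · simp [ampA, hβ.eq_zero hc hx]
  have hwt : Nonneg 𝒞 (fun c x => c.ε * (hWt c x * (c.ε * c.ℓ x * ν c x)) * (c.ℓ x)⁻¹) :=
    fun c hc x => by
      have := (h.small c hc x).εpos
      have := (h.small c hc x).ℓpos
      have := (h.small c hc x).Hpos
      have := hβ.nonneg c hc x
      simp only [hWt]
      positivity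
  have hone : ∀ q, ∃ δw lw, Osc 𝒞 R 1 (k + 1) ν' δw ∧ Osc 𝒞 R 1 k μ' lw ∧
      ∀ c ∈ 𝒞, ∀ x, linM baseF δw c x = wave R (qv q) true (a q) c x + lw c x := by
    intro q
    obtain ⟨hv, hx⟩ := (h.geom.mono hk : SolveGeom 𝒞 (goodM (qv q)) (k + 1)).ub_tangential
      (E := fun i j c x => a q c x i j) (fun i => supp_mcov h.nice hk i)
      (fun i j => (UBOn.entry (ha q) i j).mono_set fun _ _ => Set.subset_univ _) (hq q) hδ hδ'
      (fun c hc x hx => (hd _ (qv_mem_box q h.L_pos) (qv_ne_zero q) c hc x hx).1)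
      fun c hc x _ => (he c hc x).2
    refine h.mode_osc hk (qv_mem_box q h.L_pos) (qv_ne_zero q) (qv_mem_box q le_rfl) (hs q) (ha q)
      (fun c hc x => (tensAt_sff' c.smooth_V (h.smooth_F c hc x)).inner_right _)
      (ν := ν') (UBOn.zero.congr_eq fun c hc => (hv c hc).symm)
      (hx.extend hwt fun c hc => ((hs q).map fun c _ x e => by
        simp [xF, xSol, eRest, vSol, Decomp.qf, e, zSol_zero]) c hc)
      hA (fun c hc x => ?_) (fun c hc x => ?_) true
    · refine le_of_eq_of_le ?_ (hν c hc x)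
      have := (h.small c hc x).ℓpos.ne'
      simp only [hWt]
      field_simp
    · refine le_of_eq_of_le ?_ (hμ c hc x)
      have := (h.small c hc x).ℓpos.ne'
      simp only [hWt]
      field_simp
  choose δw lw hδw hlw heq using hone
  refine ⟨fun c x => ∑ q, δw q c x, fun c x => ∑ q, lw q c x, Osc.sum _ fun q _ => hδw q,
    Osc.sum _ fun q _ => hlw q, fun c hc x => ?_⟩
  have hw1 : ∀ q, MDifferentiableAt (𝓡 2) 𝓘(ℝ, R4)
      (wave R (qv q) true (ampA R β u q) c) x := fun q =>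
    mdiffAt_of_smoothAt (contMDiff_wave h.nice (hA' q) hc R (qv q) true x)
  have hw2 : ∀ q, MDifferentiableAt (𝓡 2) 𝓘(ℝ, R4) (δw q c) x := fun q =>
    mdiffAt_of_smoothAt ((hδw q).contMDiff h.nice hc x)
  funext i j
  show lin c.F c.V (fun y => (∑ q, wave R (qv q) true (ampA R β u q) c y) + ∑ q, δw q c y) i j x =
    (∑ q, lw q c x) i j
  have hlin : lin c.F c.V (fun y => (∑ q, wave R (qv q) true (ampA R β u q) c y)
      + ∑ q, δw q c y) i j x =
      ∑ q, (lin c.F c.V (wave R (qv q) true (ampA R β u q) c) i j x +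
        lin c.F c.V (δw q c) i j x) := by
    rw [lin_add (mdiffAt_sum _ fun q _ => hw1 q) (mdiffAt_sum _ fun q _ => hw2 q)]
    simp only [lin, D_sum _ (fun q _ => hw1 q), D_sum _ (fun q _ => hw2 q), inner_sum,
      Finset.sum_add_distrib]
  rw [hlin, Finset.sum_apply, Finset.sum_apply]
  refine Finset.sum_congr rfl fun q _ => ?_
  have e1 : lin c.F c.V (wave R (qv q) true (ampA R β u q) c) i j x =
      -(wave R (qv q) true (a q) c x i j) := by
    show lin c.F c.V (fun y => Real.sin (mphase R c (qv q) y) • ampA R β u q c y) i j x =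
      -(Real.sin (mphase R c (qv q) x) * a q c x i j)
    have hf : MDifferentiableAt (𝓡 2) 𝓘(ℝ, ℝ) (fun y => Real.sin (mphase R c (qv q) y)) x :=
      mdiffAt_of_smoothAt (Real.contDiff_sin.contDiffAt.comp_contMDiffAt
        (contMDiff_mphase h.nice hc R (qv q) x))
    rw [lin_smul_normal c.smooth_V (h.smooth_F c hc x) hf (UB.contMDiff (hA' q) hc x)
      (Eventually.of_forall (hnormal q c hc))]
    simp only [ha_def, real_inner_smul_right]
    ring
  have e2 : lin c.F c.V (δw q c) i j x = wave R (qv q) true (a q) c x i j + lw q c x i j :=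
    congrFun (congrFun (heq q c hc x) i) j
  rw [e1, e2]
  ring

/-! ## The mean of a product -/

/-- The mean of the product of two amplitude waves. -/
def meanI (β γ : Fin (qn P) → Fld N P ℝ) (u : Fin (qn P) → Fld N P R4) (i j : Fin N) :
    Fld N P ℝ :=
  fun c x => (1 / 2) * ∑ q, ⟪mainA β u q i c x, mainA γ u q j c x⟫

theorem D_ampWave (h : StepHyp 𝒞 R L K B u) (hk : k ≤ K) (hβ : AmpOK 𝒞 k ν β) {c : Ctx N P}
    (hc : c ∈ 𝒞) (i : Fin N) (x : c.M) :
    D c.V i (ampWave R β u c) x =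
      (∑ q, wave R (qv q) false (mainA β u q i) c x) +
        ∑ q, wave R (qv q) true (fun c => D c.V i (ampA R β u q c)) c x := by
  have hd : ∀ q, MDifferentiableAt (𝓡 2) 𝓘(ℝ, R4) (wave R (qv q) true (ampA R β u q) c) x :=
    fun q => mdiffAt_of_smoothAt (contMDiff_wave h.nice (h.ub_ampA hβ hk q).1 hc R (qv q) true x)
  show D c.V i (fun y => ∑ q, wave R (qv q) true (ampA R β u q) c y) x = _
  rw [D_sum _ fun q _ => hd q, ← Finset.sum_add_distrib]
  refine Finset.sum_congr rfl fun q _ => ?_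
  have hε := (h.nice.eps_pos c hc).ne'
  have hR : R ^ (q : ℕ) ≠ 0 := pow_ne_zero _ h.R_pos.ne'
  have e := eps_D_wave h.nice (h.ub_ampA hβ hk q).1 hc R (qv q) true i x
  have e' : D c.V i (wave R (qv q) true (ampA R β u q) c) x =
      c.ε⁻¹ • (c.ε • D c.V i (wave R (qv q) true (ampA R β u q) c) x) :=
    (inv_smul_smul₀ hε _).symm
  rw [e', e, smul_add]
  simp only [wave, sg, mcov_qv, ampA, mainA, Bool.not_true, smul_smul]
  congr 1
  · congr 1
    field_simp
  · congr 1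
    field_simp

/-- The product of two main parts: a mean only on the diagonal. -/
theorem main_pair (h : StepHyp 𝒞 R L K B u) (hk : k ≤ K) (hβ : AmpOK 𝒞 k ν β)
    (hγ : AmpOK 𝒞 k ν' γ) (q q' : Fin (qn P)) (i j : Fin N) :
    ∃ O : Fld N P ℝ, Osc 𝒞 R 2 k (fun c x => c.ℓ x ^ 2 * (ν c x * ν' c x)) O ∧
      ∀ c ∈ 𝒞, ∀ x, ⟪wave R (qv q) false (mainA β u q i) c x,
        wave R (qv q') false (mainA γ u q' j) c x⟫ =
        (if q = q' then (1 / 2) * ⟪mainA β u q i c x, mainA γ u q' j c x⟫ else 0) + O c x := by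
  obtain ⟨ha, hsa⟩ := h.ub_mainA hβ hk q i
  obtain ⟨hb, hsb⟩ := h.ub_mainA hγ hk q' j
  set p : Fld N P ℝ := fun c x => (1 / 2) * ⟪mainA β u q i c x, mainA γ u q' j c x⟫ with hp
  have hpu : UB 𝒞 k (fun c x => c.ℓ x ^ 2 * (ν c x * ν' c x)) p :=
    ((UBOn.inner ha hb).const_mul (1 / 2)).mono_weight zero_le_one fun c _ x _ => by
      rw [one_mul]; exact le_of_eq (by ring)
  have hps : ∀ n : Fin (qn P) → ℤ, (∀ r, qv q r = 0 → qv q' r = 0 → n r = 0) → Supp 𝒞 n p := by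
    intro n hn c hc x hx r hr
    by_cases h1 : qv q r = 0
    · exact (hsb.map (a' := p) fun c _ x e => by simp [hp, e]) c hc hx r fun h2 => hr (hn r h1 h2)
    · exact (hsa.map (a' := p) fun c _ x e => by simp [hp, e]) c hc hx r h1
  have hw1 : Osc 𝒞 R 2 k (fun c x => c.ℓ x ^ 2 * (ν c x * ν' c x))
      (wave R (qv q + qv q') false p) :=
    .wave _ _ _ (add_mem_box (L := 1) (L' := 1) (qv_mem_box q le_rfl) (qv_mem_box q' le_rfl))
      (qv_add_ne_zero q q') (hps _ fun r h1 h2 => by simp [h1, h2]) hpu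
  have hprod : ∀ (c : Ctx N P) (x : c.M), ⟪wave R (qv q) false (mainA β u q i) c x,
      wave R (qv q') false (mainA γ u q' j) c x⟫ =
      wave R (qv q + qv q') false p c x + wave R (qv q - qv q') false p c x := by
    intro c x
    simp only [wave, hp, real_inner_smul_left, real_inner_smul_right, smul_eq_mul]
    rw [show mphase R c (qv q + qv q') x = mphase R c (qv q) x + mphase R c (qv q') x from
        phase_add _ _ _ _ _ _,
      show mphase R c (qv q - qv q') x = mphase R c (qv q) x - mphase R c (qv q') x from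
        phase_sub _ _ _ _ _ _]
    simp only [tw, Real.cos_add, Real.cos_sub]
    ring
  by_cases hq : q = q'
  · refine ⟨_, hw1, fun c _ x => ?_⟩
    rw [if_pos hq, hprod, hq, sub_self]
    have e : mphase R c (0 : Fin (qn P) → ℤ) x = 0 := phase_zero _ _ _ x
    simp only [wave, e, tw, Real.cos_zero, one_smul]
    rw [hp, hq]
    exact add_comm _ _
  · refine ⟨_, .add _ _ hw1 (.wave _ false p
      (sub_mem_box (L := 1) (L' := 1) (qv_mem_box q le_rfl) (qv_mem_box q' le_rfl))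
      (fun e => hq (qv_injective (sub_eq_zero.1 e))) (hps _ fun r h1 h2 => by simp [h1, h2]) hpu),
      fun c _ x => ?_⟩
    rw [if_neg hq, hprod, zero_add]

/-- **The product of two amplitude waves.** -/
theorem StepHyp.gram_amp (h : StepHyp 𝒞 R L K B u) (hk : k + 1 ≤ K)
    (hβ : AmpOK 𝒞 (k + 1) ν β) (hγ : AmpOK 𝒞 (k + 1) ν' γ) (i j : Fin N) :
    ∃ M O : Fld N P ℝ, UB 𝒞 k (fun c x => c.ε * c.ℓ x ^ 2 * (ν c x * ν' c x)) M ∧
      Osc 𝒞 R 2 k (fun c x => c.ℓ x ^ 2 * (ν c x * ν' c x)) O ∧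
      ∀ c ∈ 𝒞, ∀ x, ⟪D c.V i (ampWave R β u c) x, D c.V j (ampWave R γ u c) x⟫ =
        meanI β γ u i j c x + (M c x + O c x) := by
  have hk' : k ≤ K := by omega
  have main : ∀ {ν : Fld N P ℝ} {β : Fin (qn P) → Fld N P ℝ}, AmpOK 𝒞 (k + 1) ν β → ∀ i,
      Osc 𝒞 R 1 k (fun c x => c.ℓ x * ν c x)
        (fun c x => ∑ q, wave R (qv q) false (mainA β u q i) c x) ∧
      Osc 𝒞 R 1 k (fun c x => c.ε * c.ℓ x * ν c x)
        (fun c x => ∑ q, wave R (qv q) true (fun c => D c.V i (ampA R β u q c)) c x) := by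
    intro ν β hβ i
    refine ⟨Osc.sum _ fun q _ => ?_, Osc.sum _ fun q _ => ?_⟩
    · exact .wave _ _ _ (qv_mem_box q le_rfl) (qv_ne_zero q)
        (h.ub_mainA (hβ.mono k.le_succ) hk' q i).2 (h.ub_mainA (hβ.mono k.le_succ) hk' q i).1
    · exact .wave _ _ _ (qv_mem_box q le_rfl) (qv_ne_zero q)
        (fun c hc => (tsupport_DW_subset (V := c.V) [i]).trans ((h.ub_ampA hβ hk q).2 c hc))
        ((h.ub_ampA hβ hk q).1.deriv i)
  obtain ⟨hP, hS⟩ := main hβ i
  obtain ⟨hP', hS'⟩ := main hγ j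
  have t1 : Trig 𝒞 R (1 + 1) k (fun c x => c.ε * c.ℓ x ^ 2 * (ν c x * ν' c x)) _ :=
    (Osc.trig_mul (innerSL ℝ : R4 →L[ℝ] R4 →L[ℝ] ℝ) hP hS').mono_weight zero_le_one
      fun c _ x => by rw [one_mul]; exact le_of_eq (by ring)
  have t2 : Trig 𝒞 R (1 + 1) k (fun c x => c.ε * c.ℓ x ^ 2 * (ν c x * ν' c x)) _ :=
    (Osc.trig_mul (innerSL ℝ : R4 →L[ℝ] R4 →L[ℝ] ℝ) hS hP').mono_weight zero_le_one
      fun c _ x => by rw [one_mul]; exact le_of_eq (by ring)
  have t3 : Trig 𝒞 R (1 + 1) k (fun c x => c.ε * c.ℓ x ^ 2 * (ν c x * ν' c x)) _ :=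
    (Osc.trig_mul (innerSL ℝ : R4 →L[ℝ] R4 →L[ℝ] ℝ) hS hS').mono_weight zero_le_one
      fun c hc x => by
        have h1 := hβ.nonneg c hc x
        have h2 := hγ.nonneg c hc x
        have h3 := (h.small c hc x).εle
        have h4 := (h.small c hc x).εpos
        have h5 : 0 ≤ c.ε * c.ℓ x ^ 2 * (ν c x * ν' c x) := by positivity
        have h6 := mul_le_of_le_one_left h5 h3
        linarith
  obtain ⟨M, O₁, hM, hO₁, e⟩ := ((t1.add' t2 fun _ _ _ => rfl).add' t3 fun _ _ _ => rfl)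
  choose O₂ hO₂ e₂ using fun q q' => main_pair h hk' (hβ.mono k.le_succ) (hγ.mono k.le_succ) q q' i j
  refine ⟨M, fun c x => O₁ c x + ∑ q, ∑ q', O₂ q q' c x, hM,
    .add _ _ (hO₁.mono_weight zero_le_one fun c hc x => ?_)
      (Osc.sum _ fun q _ => Osc.sum _ fun q' _ => hO₂ q q'), fun c hc x => ?_⟩
  · have h1 := hβ.nonneg c hc x
    have h2 := hγ.nonneg c hc x
    have h5 : 0 ≤ c.ℓ x ^ 2 * (ν c x * ν' c x) := by positivity
    have h6 := mul_le_of_le_one_left h5 (h.small c hc x).εle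
    linarith
  · have e0 := e c hc x
    replace e0 : ⟪∑ q, wave R (qv q) false (mainA β u q i) c x,
          ∑ q, wave R (qv q) true (fun c => D c.V j (ampA R γ u q c)) c x⟫ +
        ⟪∑ q, wave R (qv q) true (fun c => D c.V i (ampA R β u q c)) c x,
          ∑ q, wave R (qv q) false (mainA γ u q j) c x⟫ +
        ⟪∑ q, wave R (qv q) true (fun c => D c.V i (ampA R β u q c)) c x,
          ∑ q, wave R (qv q) true (fun c => D c.V j (ampA R γ u q c)) c x⟫ =
        M c x + O₁ c x := e0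
    rw [D_ampWave h hk hβ hc i x, D_ampWave h hk hγ hc j x, inner_add_left, inner_add_right,
      inner_add_right]
    have hpp : ⟪∑ q, wave R (qv q) false (mainA β u q i) c x,
        ∑ q, wave R (qv q) false (mainA γ u q j) c x⟫ =
        meanI β γ u i j c x + ∑ q, ∑ q', O₂ q q' c x := by
      rw [sum_inner]
      simp only [inner_sum, e₂ _ _ c hc x, Finset.sum_add_distrib, Finset.sum_ite_eq,
        Finset.mem_univ, if_true, meanI, Finset.mul_sum]
    rw [hpp]
    show _ = meanI β γ u i j c x + (M c x + (O₁ c x + ∑ q, ∑ q', O₂ q q' c x))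
    linarith

end Vale.Agent.P205.Full.Stage
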