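import Vale.Agent.P205.Full.Stage.StepAmp

/-!
# P205 full, module S5 (part): the amplitudes

`bAmp = ρ √(L T)` for the slack tensor `T` gives waves whose mean product is exactly the slack;
`dAmp E = ρ L(E / ℓ²) / (2 √(L T))` changes the mean by exactly the tensor `E`.
-/

open scoped Manifold ContDiff RealInnerProductSpace Matrix Topology
open Bundle Filter

set_option linter.unusedSectionVars false

noncomputable section

namespace Vale.Agent.P205.Full.Stage

variable {N P : ℕ}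

/-- The decomposition coefficient of a tensor in units of `ℓ²`. -/
def unitCoef (E : Fld N P (MatF N)) (p : DIdx P) : Fld N P ℝ :=
  fun c x => ∑ j, ∑ l, c.L p j l x * (E c x j l / c.ℓ x ^ 2)

/-- The amplitude of the base wave. -/
def bAmp (q : Fin (qn P)) : Fld N P ℝ :=
  fun c x => c.ρ (qix P q).1 x * Real.sqrt (slackCoef c (qix P q).1 x)

/-- The correction of the amplitude. -/
def dAmp (E : Fld N P (MatF N)) (q : Fin (qn P)) : Fld N P ℝ :=
  fun c x => c.ρ (qix P q).1 x *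
    (unitCoef E (qix P q).1 c x * (2 * Real.sqrt (slackCoef c (qix P q).1 x))⁻¹)

/-- The size of the base amplitude. -/
def sqrtσ : Fld N P ℝ := fun c x => Real.sqrt (c.σ x)

variable {𝒞 : Set (Ctx N P)} {R B : ℝ} {L K k : ℕ} {μ : Fld N P ℝ}
variable {u : Fin (qn P) → Fld N P R4}

theorem TensAt.const_mul {M : Type} [TopologicalSpace M] [ChartedSpace R2 M]
    [IsManifold (𝓡 2) ∞ M] {V : Frame M N} {x : M} {E : Fin N → Fin N → ℝ} (h : TensAt V x E)
    (r : ℝ) : TensAt V x (fun i k => r * E i k) := by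
  obtain ⟨a, b, d, rfl⟩ := h
  refine ⟨r * a, r * b, r * d, funext fun i => funext fun k => ?_⟩
  simp only [Decomp.tv, smul_eq_mul]
  ring

theorem tensAt_slack (c : Ctx N P) (x : c.M) :
    TensAt c.V x (resW c (fun _ => 0) x) := by
  have h := (tensAt_gV (V := c.V) (x := x) c.g).add_const_mul
    (tensAt_pullV (V := c.V) (x := x) (F := c.F)) (-1)
  have e : (fun i k => gV c.g c.V i k x + -1 * pullV c.F c.V i k x) =
      resW c (fun _ => 0) x := by
    funext i k; rw [resW_zero]; ring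
  rwa [e] at h

section
variable (h : StepHyp 𝒞 R L K B u) (hk : k ≤ K)
include h hk

theorem StepHyp.ub_unitCoef {E : Fld N P (MatF N)} (hE : UB 𝒞 k μ E) (p : DIdx P) :
    UB 𝒞 k (fun c x => μ c x * ((c.ℓ x)⁻¹ * (c.ℓ x)⁻¹)) (unitCoef E p) := by
  have hi : UB 𝒞 k (fun c x => (c.ℓ x)⁻¹) (fun c x => (c.ℓ x)⁻¹) :=
    (UBOn.mono_order h.geom.ub_ℓ hk).inv_weight fun c hc x _ => (h.small c hc x).ℓpos
  refine UBOn.sum _ fun j _ => UBOn.sum _ fun l _ => ?_
  exact ((UBOn.mono_order (h.ub_L p j l) hk).one_mul ((UBOn.entry hE j l).mul (hi.mul hi))).congr_eq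
    fun c _ => funext fun x => by ring

theorem StepHyp.ub_slackCoef (p : DIdx P) :
    UB 𝒞 k (fun c => c.σ) (fun c x => slackCoef c p x) := by
  refine (h.ub_unitCoef hk (μ := fun c x => c.σ x * c.ℓ x ^ 2)
    (E := fun c x => resW c (fun _ => 0) x)
    (UBOn.of_entries fun i j => UBOn.mono_order (h.ub_slack i j) hk) p).mono_weight zero_le_one
    fun c hc x _ => le_of_eq ?_
  have := (h.small c hc x).ℓpos.ne'
  rw [one_mul]
  field_simp

/-- Square root and inverse square root of the slack coefficient on the good set. -/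
theorem StepHyp.ub_sqrt_slack (p : DIdx P) :
    UBOn 𝒞 (fun c => tsupport (c.ρ p)) k sqrtσ
        (fun c x => Real.sqrt (slackCoef c p x)) ∧
      UBOn 𝒞 (fun c => tsupport (c.ρ p)) k (fun c x => (Real.sqrt (c.σ x))⁻¹)
        (fun c x => (Real.sqrt (slackCoef c p x))⁻¹) := by
  obtain ⟨δ, hδ, hlo⟩ := h.slack_lower
  obtain ⟨C, hC0, hC⟩ := UBOn.norm_le (h.ub_slackCoef hk p)
  have hpos : ∀ c ∈ 𝒞, ∀ x ∈ tsupport (c.ρ p), 0 < slackCoef c p x := fun c hc x hx =>
    (mul_pos hδ (h.small c hc x).σpos).trans_le (hlo c hc p x hx)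
  have hself : UBOn 𝒞 (fun c => tsupport (c.ρ p)) k (fun c x => slackCoef c p x)
      (fun c x => slackCoef c p x) :=
    ((h.ub_slackCoef hk p).ubOn _).mono_weight (inv_nonneg.2 hδ.le) fun c hc x hx => by
      rw [inv_mul_eq_div, le_div_iff₀ hδ, mul_comm]
      exact hlo c hc p x hx
  have hs := hself.sqrt_weight hpos
  refine ⟨hs.mono_weight (Real.sqrt_nonneg C) fun c hc x _ => ?_,
    (hs.inv_weight fun c hc x hx => Real.sqrt_pos.2 (hpos c hc x hx)).mono_weight
      (a := (Real.sqrt δ)⁻¹) (by positivity) fun c hc x hx => ?_⟩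
  · show Real.sqrt (slackCoef c p x) ≤ Real.sqrt C * Real.sqrt (c.σ x)
    rw [← Real.sqrt_mul hC0]
    exact Real.sqrt_le_sqrt ((le_abs_self _).trans (hC c hc x trivial))
  · rw [← mul_inv, ← Real.sqrt_mul hδ.le]
    exact inv_anti₀ (Real.sqrt_pos.2 (mul_pos hδ (h.small c hc x).σpos))
      (Real.sqrt_le_sqrt (hlo c hc p x hx))

theorem StepHyp.ampOK_bAmp : AmpOK 𝒞 k (sqrtσ : Fld N P ℝ) bAmp where
  nonneg c _ x := Real.sqrt_nonneg _
  supp q c _ := tsupport_mul_subset_left
  ub q := (UBOn.smul_supported (UBOn.mono_order (h.ub_ρ (qix P q).1) hk) (fun c _ => le_rfl)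
    (h.ub_sqrt_slack hk (qix P q).1).1 (nonneg_one 𝒞)
    (fun c _ x => Real.sqrt_nonneg _)).mono_weight zero_le_one fun c _ x _ => by simp [one]

theorem StepHyp.ampOK_dAmp (n : ℕ) {E : Fld N P (MatF N)} (hE : UB 𝒞 k (meanW n) E) :
    AmpOK 𝒞 k (coefW n : Fld N P ℝ) (dAmp E) where
  nonneg c hc x := ((h.small c hc x).coefW_pos n).le
  supp q c _ := tsupport_mul_subset_left
  ub q := by
    have h1 : UBOn 𝒞 (fun c => tsupport (c.ρ (qix P q).1)) k (coefW n)
        (fun c x => unitCoef E (qix P q).1 c x *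
          (2 * Real.sqrt (slackCoef c (qix P q).1 x))⁻¹) :=
      ((((h.ub_unitCoef hk hE _).ubOn _).mul (h.ub_sqrt_slack hk _).2).const_mul (1 / 2)
        |>.mono_weight zero_le_one fun c hc x _ => le_of_eq (by
          have := (h.small c hc x).ℓpos.ne'
          have hs := (Real.sqrt_pos.2 (h.small c hc x).σpos).ne'
          simp only [meanW, coefW, one_mul]
          field_simp
          rw [Real.sq_sqrt (h.small c hc x).σpos.le])).congr_eq
        fun c _ => funext fun x => by rw [mul_inv]; ring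
    exact (UBOn.smul_supported (UBOn.mono_order (h.ub_ρ (qix P q).1) hk) (fun c _ => le_rfl) h1
      (nonneg_one 𝒞) (fun c hc x => ((h.small c hc x).coefW_pos n).le)).mono_weight zero_le_one
      fun c _ x _ => by simp [one]

end

/-- The mean of a product, by indices of the decomposition. -/
theorem StepHyp.meanI_eq (h : StepHyp 𝒞 R L K B u) {β γ : Fin (qn P) → Fld N P ℝ}
    {f g : DIdx P → Fld N P ℝ} (hβ : ∀ q c x, β q c x = c.ρ (qix P q).1 x * f (qix P q).1 c x)
    (hγ : ∀ q c x, γ q c x = c.ρ (qix P q).1 x * g (qix P q).1 c x) {c : Ctx N P} (hc : c ∈ 𝒞)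
    (x : c.M) (i j : Fin N) :
    meanI β γ u i j c x = c.ℓ x ^ 2 * ∑ p, c.ρ p x ^ 2 * (f p c x * g p c x) *
      (cov c.V (c.Y p.phase) x i * cov c.V (c.Y p.phase) x j) / 2 := by
  have e : ∀ q, ⟪mainA β u q i c x, mainA γ u q j c x⟫ =
      c.ℓ x ^ 2 * (c.ρ (qix P q).1 x ^ 2 * (f (qix P q).1 c x * g (qix P q).1 c x) *
        (cov c.V (c.Y (qix P q).1.phase) x i * cov c.V (c.Y (qix P q).1.phase) x j)) *
      ⟪u q c x, u q c x⟫ := fun q => by
    simp only [mainA, real_inner_smul_left, real_inner_smul_right, hβ, hγ, Ctx.ph, cov]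
    ring
  simp only [meanI, e]
  rw [← Equiv.sum_comp (qix P).symm, Fintype.sum_prod_type, Finset.mul_sum, Finset.mul_sum]
  refine Finset.sum_congr rfl fun p _ => ?_
  simp only [Equiv.apply_symm_apply, ← Finset.mul_sum]
  by_cases hp : x ∈ tsupport (c.ρ p)
  · rw [h.u_sum c hc p x hp]
    ring
  · rw [image_eq_zero_of_notMem_tsupport hp]
    ring

/-- **The base amplitude realises the slack.** -/
theorem StepHyp.meanI_base (h : StepHyp 𝒞 R L K B u) {c : Ctx N P} (hc : c ∈ 𝒞) (x : c.M)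
    (i j : Fin N) : meanI bAmp bAmp u i j c x = resW c (fun _ => 0) x i j := by
  obtain ⟨δ, hδ, hlo⟩ := h.slack_lower
  have hℓ := (h.small c hc x).ℓpos.ne'
  rw [h.meanI_eq (β := bAmp) (γ := bAmp) (f := fun p c x => Real.sqrt (slackCoef c p x))
    (g := fun p c x => Real.sqrt (slackCoef c p x)) (fun _ _ _ => rfl) (fun _ _ _ => rfl) hc x i j]
  have hT := (tensAt_slack c x).const_mul (c.ℓ x ^ 2)⁻¹
  have e := DecAt.sum_eq (h.dec c hc x) hT i j
  have e' : ∀ p, c.ρ p x ^ 2 * (Real.sqrt (slackCoef c p x) * Real.sqrt (slackCoef c p x)) =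
      c.ρ p x ^ 2 * ∑ a, ∑ l, c.L p a l x * ((c.ℓ x ^ 2)⁻¹ * resW c (fun _ => 0) x a l) := by
    intro p
    by_cases hp : x ∈ tsupport (c.ρ p)
    · rw [Real.mul_self_sqrt ((mul_nonneg hδ.le (h.small c hc x).σpos.le).trans (hlo c hc p x hp))]
      refine congrArg (fun t => c.ρ p x ^ 2 * t) ?_
      simp only [slackCoef, div_eq_inv_mul]
    · simp [image_eq_zero_of_notMem_tsupport hp]
  simp only [e']
  rw [e]
  field_simp

/-- **The correction of the amplitude realises any tensor.** -/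
theorem StepHyp.meanI_corr (h : StepHyp 𝒞 R L K B u) {E : Fld N P (MatF N)} {c : Ctx N P}
    (hc : c ∈ 𝒞) (x : c.M) (hE : TensAt c.V x (E c x)) (i j : Fin N) :
    meanI bAmp (dAmp E) u i j c x + meanI bAmp (dAmp E) u j i c x = E c x i j := by
  obtain ⟨δ, hδ, hlo⟩ := h.slack_lower
  have hℓ := (h.small c hc x).ℓpos.ne'
  have key : ∀ a b, meanI bAmp (dAmp E) u a b c x = E c x a b / 2 := by
    intro a b
    rw [h.meanI_eq (β := bAmp) (γ := dAmp E) (f := fun p c x => Real.sqrt (slackCoef c p x))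
      (g := fun p c x => unitCoef E p c x * (2 * Real.sqrt (slackCoef c p x))⁻¹)
      (fun _ _ _ => rfl) (fun _ _ _ => rfl) hc x a b]
    have e := DecAt.sum_eq (h.dec c hc x) (hE.const_mul (c.ℓ x ^ 2)⁻¹) a b
    have e' : ∀ p, c.ρ p x ^ 2 * (Real.sqrt (slackCoef c p x) *
        (unitCoef E p c x * (2 * Real.sqrt (slackCoef c p x))⁻¹)) =
        (c.ρ p x ^ 2 * ∑ a, ∑ l, c.L p a l x * ((c.ℓ x ^ 2)⁻¹ * E c x a l)) / 2 := by
      intro p
      by_cases hp : x ∈ tsupport (c.ρ p)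
      · have := (Real.sqrt_pos.2
          ((mul_pos hδ (h.small c hc x).σpos).trans_le (hlo c hc p x hp))).ne'
        simp only [unitCoef, div_eq_inv_mul]
        field_simp
      · simp [image_eq_zero_of_notMem_tsupport hp]
    simp only [e']
    rw [show E c x a b / 2 = c.ℓ x ^ 2 * (((c.ℓ x ^ 2)⁻¹ * E c x a b) / 2) by field_simp, ← e,
      Finset.sum_div]
    congr 1
    exact Finset.sum_congr rfl fun p _ => by ring
  rw [key, key, TensAt.symm hE j i]
  ring

end Vale.Agent.P205.Full.Stage
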