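import Vale.Agent.P205.Full.Stage.StepHyp

/-!
# P205 full, module S5 (part): products of waves and the solve of an oscillatory residual
-/

open scoped Manifold ContDiff RealInnerProductSpace Matrix Topology
open Bundle Filter

set_option linter.unusedSectionVars false

noncomputable section

namespace Vale.Agent.P205.Full.Stage

variable {N P : ℕ}

/-- Symmetric tensors in frame components. -/
abbrev MatF (N : ℕ) : Type := Fin N → Fin N → ℝ

/-- The entry `(i, k)`. -/
def entryL (i k : Fin N) : MatF N →L[ℝ] ℝ :=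
  (ContinuousLinearMap.proj (R := ℝ) (φ := fun _ : Fin N => ℝ) k).comp
    (ContinuousLinearMap.proj (R := ℝ) (φ := fun _ : Fin N => Fin N → ℝ) i)

/-- The matrix with one entry. -/
def singleL (i k : Fin N) : ℝ →L[ℝ] MatF N :=
  ContinuousLinearMap.toSpanSingleton ℝ (Pi.single i (Pi.single k (1 : ℝ)))

@[simp] theorem entryL_apply (i k : Fin N) (a : MatF N) : entryL i k a = a i k := rfl

theorem sum_singleL (a : MatF N) : ∑ i, ∑ k, singleL i k (a i k) = a := by
  funext i k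
  simp [singleL, Finset.sum_apply, Pi.single_apply, ContinuousLinearMap.toSpanSingleton_apply,
    apply_ite (fun f : Fin N → ℝ => f k), Finset.sum_ite_eq]

/-- The base map. -/
def baseF : Fld N P R4 := fun c => c.F

/-- The linearisation at `U` in the direction `W`. -/
def linM (U W : Fld N P R4) : Fld N P (MatF N) :=
  fun c x i k => lin (U c) c.V (W c) i k x

/-- The quadratic part. -/
def quadM (W : Fld N P R4) : Fld N P (MatF N) := fun c x i k => pullV (W c) c.V i k x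

/-- The projection on tensors. -/
def projF (a : Fld N P (MatF N)) : Fld N P (MatF N) :=
  fun c x => projTens c.g c.V c.ℓ x (a c x)

variable {𝒞 : Set (Ctx N P)} {R B : ℝ} {L L' K k : ℕ} {μ ν μ' ν' : Fld N P ℝ}
variable {u : Fin (qn P) → Fld N P R4}

section Entries

variable {S : SetF N P} {f : Fld N P (MatF N)}

theorem UBOn.of_entries (h : ∀ i j, UBOn 𝒞 S k μ (fun c x => f c x i j)) : UBOn 𝒞 S k μ f :=
  (UBOn.sum Finset.univ fun i _ => UBOn.sum Finset.univ fun j _ =>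
    (h i j).clm (singleL i j)).congr_eq fun _ _ => funext fun _ => sum_singleL _

theorem Osc.of_entries (h : ∀ i j, Osc 𝒞 R L k μ (fun c x => f c x i j)) : Osc 𝒞 R L k μ f :=
  .congr _ _ (Osc.sum Finset.univ fun i _ => Osc.sum Finset.univ fun j _ =>
    (h i j).clm (singleL i j)) fun _ _ => funext fun _ => sum_singleL _

theorem Trig.of_entries (h : ∀ i j, Trig 𝒞 R L k μ (fun c x => f c x i j)) :
    Trig 𝒞 R L k μ f :=
  (Trig.sum Finset.univ fun i _ => Trig.sum Finset.univ fun j _ =>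
    (h i j).clm (singleL i j)).congr fun _ _ _ => sum_singleL _

theorem UBOn.entry (h : UBOn 𝒞 S k μ f) (i j : Fin N) :
    UBOn 𝒞 S k μ (fun c x => f c x i j) :=
  h.clm (entryL i j)

end Entries

/-- A constant of the datum bounds itself. -/
theorem ub_ctxConst (φ : Ctx N P → ℝ) (h : ∀ c ∈ 𝒞, 0 ≤ φ c) (S : SetF N P) :
    UBOn 𝒞 S k (fun c _ => φ c) (fun c _ => φ c) :=
  ⟨fun _ _ _ _ => contMDiffAt_const, 1, zero_le_one, fun c hc =>
    bdOn_const (φ c) fun _ _ => by rw [one_mul, Real.norm_eq_abs, abs_of_nonneg (h c hc)]⟩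

/-- The weight of a product of two derivatives. -/
def prodW (μ ν : Fld N P ℝ) : Fld N P ℝ := fun c x => μ c x * ν c x / c.ε ^ 2

/-- A product of two derivatives of waves. -/
theorem trig_inner_D (hn : Nice 𝒞 K) (hk : k ≤ K) {U W : Fld N P R4}
    (hμ : Nonneg 𝒞 μ) (hν : Nonneg 𝒞 ν)
    (hU : Osc 𝒞 R L (k + 1) μ U) (hW : Osc 𝒞 R L' (k + 1) ν W) (i j : Fin N) :
    Trig 𝒞 R (L + L') k (prodW μ ν)
      (fun c x => ⟪D c.V i (U c) x, D c.V j (W c) x⟫) := by
  have h := Trig.bilin_left (ContinuousLinearMap.lsmul ℝ ℝ : ℝ →L[ℝ] ℝ →L[ℝ] ℝ)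
    (ub_ctxConst (fun c => (c.ε ^ 2)⁻¹) (fun c hc => by have := hn.eps_pos c hc; positivity) allM)
    (Osc.trig_mul (innerSL ℝ : R4 →L[ℝ] R4 →L[ℝ] ℝ) (hU.deriv hn hk hμ i) (hW.deriv hn hk hν j))
  refine (h.mono_weight zero_le_one fun c _ x => le_of_eq ?_).congr fun c hc x => ?_
  · simp only [prodW]; ring
  · have := (hn.eps_pos c hc).ne'
    show (c.ε ^ 2)⁻¹ * ⟪c.ε • D c.V i (U c) x, c.ε • D c.V j (W c) x⟫ = _
    rw [real_inner_smul_left, real_inner_smul_right]
    field_simp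

theorem trig_linM (hn : Nice 𝒞 K) (hk : k ≤ K) {U W : Fld N P R4}
    (hμ : Nonneg 𝒞 μ) (hν : Nonneg 𝒞 ν)
    (hU : Osc 𝒞 R L (k + 1) μ U) (hW : Osc 𝒞 R L' (k + 1) ν W) :
    Trig 𝒞 R (L + L') k (prodW μ ν) (linM U W) :=
  Trig.of_entries fun i j =>
    (trig_inner_D hn hk hμ hν hU hW i j).add' (trig_inner_D hn hk hμ hν hU hW j i) fun _ _ _ => rfl

theorem trig_quadM (hn : Nice 𝒞 K) (hk : k ≤ K) {W : Fld N P R4} (hν : Nonneg 𝒞 ν)
    (hW : Osc 𝒞 R L (k + 1) ν W) :
    Trig 𝒞 R (L + L) k (prodW ν ν) (quadM W) :=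
  Trig.of_entries fun i j => (trig_inner_D hn hk hν hν hW hW i j).congr fun _ _ _ => rfl

section Projection

theorem projTens_add {M : Type} [TopologicalSpace M] [ChartedSpace R2 M]
    [IsManifold (𝓡 2) ∞ M] (g : Metric M) (V : Frame M N) (ℓ : M → ℝ) (x : M) (A C : MatF N) :
    projTens g V ℓ x (A + C) = projTens g V ℓ x A + projTens g V ℓ x C := by
  funext i j
  simp only [projTens, Pi.add_apply, ← Finset.sum_add_distrib]
  exact Finset.sum_congr rfl fun p _ => Finset.sum_congr rfl fun q _ => by ring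

theorem projTens_smul {M : Type} [TopologicalSpace M] [ChartedSpace R2 M]
    [IsManifold (𝓡 2) ∞ M] (g : Metric M) (V : Frame M N) (ℓ : M → ℝ) (x : M) (r : ℝ)
    (A : MatF N) : projTens g V ℓ x (r • A) = r • projTens g V ℓ x A := by
  funext i j
  simp only [projTens, Pi.smul_apply, smul_eq_mul, Finset.mul_sum]
  exact Finset.sum_congr rfl fun p _ => Finset.sum_congr rfl fun q _ => by ring

theorem projTens_zero {M : Type} [TopologicalSpace M] [ChartedSpace R2 M]
    [IsManifold (𝓡 2) ∞ M] (g : Metric M) (V : Frame M N) (ℓ : M → ℝ) (x : M) :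
    projTens g V ℓ x (0 : MatF N) = 0 := by
  funext i j
  simp [projTens]

theorem StepHyp.ub_projF (h : StepHyp 𝒞 R L K B u) {a : Fld N P (MatF N)} {S : SetF N P}
    (hk : k ≤ K) (ha : UBOn 𝒞 S k μ a) : UBOn 𝒞 S k μ (projF a) := by
  obtain ⟨δ, hδ, hl⟩ := h.e2_lower
  exact UBOn.of_entries (f := projF a) fun i j =>
    UBOn.projTens (E := fun p q c x => a c x p q)
      (fun p q => (UB.ubOn (h.ub_gNorm p q) S).mono_order hk) hδ (fun c hc x _ => (hl c hc x).1)
      (fun p q => ha.entry p q) i j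

theorem StepHyp.tensAt_projF (h : StepHyp 𝒞 R L K B u) (a : Fld N P (MatF N)) {c : Ctx N P}
    (hc : c ∈ 𝒞) (x : c.M) : TensAt c.V x (projF a c x) :=
  tensAt_projTens c.g c.ℓ (h.small c hc x).ℓpos.ne' (h.spans c hc x) _

end Projection

/-! ## One mode -/

theorem SolveGeom.mono {S : SetF N P} (h : SolveGeom 𝒞 allM K) (hk : k ≤ K) :
    SolveGeom 𝒞 S k :=
  ⟨h.ℓ_pos, h.H_pos, h.ε_nonneg, (UB.ubOn h.ub_ℓ S).mono_order hk,
    (UB.ubOn h.ub_H S).mono_order hk, fun i => (UB.ubOn (h.ub_dF i) S).mono_order hk,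
    fun i j => (UB.ubOn (h.ub_sff i j) S).mono_order hk⟩

theorem cov_mY (hn : Nice 𝒞 K) {c : Ctx N P} (hc : c ∈ 𝒞) (R : ℝ) (m : Fin (qn P) → ℤ) :
    cov c.V (mY R c m) = mVecF R m c := by
  funext x i
  have hd : ∀ q, MDifferentiableAt (𝓡 2) 𝓘(ℝ, ℝ)
      (fun y => ((m q : ℝ) * R ^ (q : ℕ)) • c.ph q y) x := fun q =>
    mdiffAt_of_smoothAt ((((m q : ℝ) * R ^ (q : ℕ)) • ContinuousLinearMap.id ℝ ℝ).contDiff
      |>.contDiffAt.comp_contMDiffAt (hn.smooth_ph c hc q x))
  have e : mY R c m = fun y => ∑ q, ((m q : ℝ) * R ^ (q : ℕ)) • c.ph q y := rfl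
  simp only [cov, e]
  rw [D_sum _ fun q _ => hd q]
  simp only [mVecF, mcov]
  refine Finset.sum_congr rfl fun q _ => ?_
  rw [D_const_smul _ (mdiffAt_of_smoothAt (hn.smooth_ph c hc q x)), smul_eq_mul]

theorem contMDiff_mY (hn : Nice 𝒞 K) {c : Ctx N P} (hc : c ∈ 𝒞) (R : ℝ) (m : Fin (qn P) → ℤ) :
    ContMDiff (𝓡 2) 𝓘(ℝ, ℝ) ∞ (mY R c m) := fun x =>
  contMDiffAt_finsetSum fun q _ =>
    (((m q : ℝ) * R ^ (q : ℕ)) • ContinuousLinearMap.id ℝ ℝ).contDiff.contDiffAt.comp_contMDiffAt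
      (hn.smooth_ph c hc q x)

/-- The mode of a coefficient is admissible. -/
theorem StepHyp.modeData (h : StepHyp 𝒞 R L K B u) {m : Fin (qn P) → ℤ} (hm : m ∈ box (qn P) L)
    (h0 : m ≠ 0) {a : Fld N P (MatF N)} (hs : Supp 𝒞 m a) (ha : UB 𝒞 k μ a) {c : Ctx N P}
    (hc : c ∈ 𝒞) :
    ModeData c.F c.V c.ℓ (mY R c m) (fun i j x => a c x i j) := by
  obtain ⟨δ, hδ, hd⟩ := h.dominance
  refine ⟨c.smooth_V, h.spans c hc, contMDiff_mY h.nice hc R m, UB.contMDiff h.geom.ub_ℓ hc,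
    fun x => (h.small c hc x).ℓpos.ne', h.inj c hc, fun i j => UB.contMDiff (h.geom.ub_sff i j) hc,
    h.smooth_F c hc, fun i j => UB.contMDiff (f := fun c x => a c x i j) (ha.entry i j) hc,
    fun i j x hx => ?_⟩
  have hx' : x ∈ goodM m c :=
    hs c hc (tsupport_comp_subset (g := fun v : MatF N => v i j) rfl (a c) hx)
  obtain ⟨h1, h2⟩ := hd m hm h0 c hc x hx'
  rw [cov_mY h.nice hc]
  refine ⟨fun e => ?_, Or.inr fun e => ?_⟩
  · rw [e, zero_dotProduct] at h1
    exact absurd h1 (not_le.2 hδ)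
  · have h3 : pEF (mVecF R m) c x = 0 := e
    rw [h3, norm_zero] at h2
    exact absurd h2 (not_le.2 (mul_pos hδ (h.geom.hWt_pos c hc x)))

/-- The linearisation of a supported field is supported. -/
theorem supp_linM {m : Fin (qn P) → ℤ} {X : Fld N P R4} (hs : Supp 𝒞 m X) :
    Supp 𝒞 m (linM baseF X) := fun c hc => by
  refine subset_trans ?_ (hs c hc)
  refine closure_minimal (fun x hx => ?_) (isClosed_tsupport _)
  by_contra hx'
  apply hx
  funext i j
  have e := notMem_tsupport_iff_eventuallyEq.1 hx'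
  have hD : ∀ l, D c.V l (X c) x = 0 := fun l => by
    rw [D_congr e, show (0 : c.M → R4) = fun _ => (0 : R4) from rfl, D_const]
  simp [linM, lin, hD]

/-- The linearisation of a bounded field. -/
theorem StepHyp.ub_linM (h : StepHyp 𝒞 R L K B u) (hk : k ≤ K) {X : Fld N P R4}
    (hX : UB 𝒞 (k + 1) ν X) :
    UB 𝒞 k (fun c x => c.ℓ x * ν c x) (linM baseF X) :=
  UBOn.of_entries (f := linM baseF X) fun i j =>
    (UBOn.inner ((h.geom.ub_dF i).mono_order hk) (hX.deriv j)).add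
      (UBOn.inner ((h.geom.ub_dF j).mono_order hk) (hX.deriv i))

/-- A solved mode gives a wave and a leftover with the amplitude derivative only. -/
theorem StepHyp.mode_osc (h : StepHyp 𝒞 R L K B u) (hk : k + 1 ≤ K) {m : Fin (qn P) → ℤ}
    (hm : m ∈ box (qn P) L) (h0 : m ≠ 0) (hmb : m ∈ box (qn P) L') {a : Fld N P (MatF N)}
    (hs : Supp 𝒞 m a) (ha : UB 𝒞 (k + 1) μ a) (hT : ∀ c ∈ 𝒞, ∀ x, TensAt c.V x (a c x))
    (hv : UB 𝒞 (k + 1) ν (vF (mVecF R m) fun i j c x => a c x i j))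
    (hx : UB 𝒞 (k + 1) ν' (xF (mVecF R m) fun i j c x => a c x i j))
    {A : ℝ} (hA : 0 ≤ A) (hν : ∀ c ∈ 𝒞, ∀ x, ν' c x ≤ A * ν c x)
    (hμ : ∀ c ∈ 𝒞, ∀ x, c.ℓ x * ν' c x ≤ A * μ' c x) (b : Bool) :
    ∃ δ l, Osc 𝒞 R L' (k + 1) ν δ ∧ Osc 𝒞 R L' k μ' l ∧
      ∀ c ∈ 𝒞, ∀ x, linM baseF δ c x = wave R m b a c x + l c x := by
  set E : Fin N → Fin N → Fld N P ℝ := fun i j c x => a c x i j with hE
  set v := vF (mVecF R m) E with hvdef
  set X := xF (mVecF R m) E with hXdef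
  have hsv : Supp 𝒞 m v := hs.map fun c _ x e => by
    simp [hvdef, vF, vSol, Decomp.qf, hE, e]
  have hsX : Supp 𝒞 m X := hs.map fun c _ x e => by
    simp [hXdef, xF, xSol, eRest, vSol, Decomp.qf, hE, e, zSol_zero]
  have hx' : UB 𝒞 (k + 1) ν X := hx.mono_weight hA fun c hc x _ => hν c hc x
  have hl : UB 𝒞 k μ' (linM baseF X) :=
    (h.ub_linM (by omega) hx).mono_weight hA fun c hc x _ => hμ c hc x
  have key : ∀ c ∈ 𝒞, ∀ x i j,
      (lin c.F c.V (fun y => Real.cos (mY R c m y / c.ε) • v c y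
          + Real.sin (mY R c m y / c.ε) • X c y) i j x =
        Real.cos (mY R c m x / c.ε) * a c x i j
          + Real.sin (mY R c m x / c.ε) * lin c.F c.V (X c) i j x) ∧
      (lin c.F c.V (fun y => Real.sin (mY R c m y / c.ε) • v c y
          + (-Real.cos (mY R c m y / c.ε)) • X c y) i j x =
        Real.sin (mY R c m x / c.ε) * a c x i j
          - Real.cos (mY R c m x / c.ε) * lin c.F c.V (X c) i j x) := by
    intro c hc x i j
    have hd := h.modeData hm h0 hs ha hc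
    have hsff := tensAt_sff' (x := x) c.smooth_V (h.smooth_F c hc x)
    have h1 := hd.lin_eq (ε := c.ε) (h.small c hc x).εpos.ne' (hT c hc x) hsff i j
    have h2 := hd.lin_eq_sin (ε := c.ε) (h.small c hc x).εpos.ne' (hT c hc x) hsff i j
    rw [cov_mY h.nice hc] at h1 h2
    exact ⟨h1, h2⟩
  cases b
  · refine ⟨fun c x => wave R m false v c x + wave R m true X c x, wave R m true (linM baseF X),
      .add _ _ (.wave m false v hmb h0 hsv hv) (.wave m true X hmb h0 hsX hx'),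
      .wave m true _ hmb h0 (supp_linM hsX) hl, fun c hc x => ?_⟩
    funext i j
    exact (key c hc x i j).1
  · refine ⟨fun c x => wave R m true v c x + wave R m false (fun c x => -X c x) c x,
      wave R m false (fun c x => -linM baseF X c x),
      .add _ _ (.wave m true v hmb h0 hsv hv)
        (.wave m false _ hmb h0 (hsX.map fun c _ x e => by rw [e, neg_zero]) hx'.neg),
      .wave m false _ hmb h0 ((supp_linM hsX).map fun c _ x e => by rw [e, neg_zero]) hl.neg,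
      fun c hc x => ?_⟩
    funext i j
    show lin c.F c.V (fun y => Real.sin (mY R c m y / c.ε) • v c y
        + Real.cos (mY R c m y / c.ε) • -X c y) i j x =
      Real.sin (mY R c m x / c.ε) * a c x i j
        + Real.cos (mY R c m x / c.ε) * -lin c.F c.V (X c) i j x
    simp only [smul_neg, ← neg_smul, mul_neg, ← sub_eq_add_neg]
    exact (key c hc x i j).2

/-- A mode of the oscillatory residual. -/
theorem StepHyp.solve_wave (h : StepHyp 𝒞 R L K B u) (hk : k + 1 ≤ K) (n : ℕ)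
    {m : Fin (qn P) → ℤ} (hm : m ∈ box (qn P) L) (h0 : m ≠ 0) (hmb : m ∈ box (qn P) L')
    {a : Fld N P (MatF N)} (hs : Supp 𝒞 m a) (ha : UB 𝒞 (k + 1) (oscF n) a)
    (hT : ∀ c ∈ 𝒞, ∀ x, TensAt c.V x (a c x)) (b : Bool) :
    ∃ δ l, Osc 𝒞 R L' (k + 1) (compW n) δ ∧ Osc 𝒞 R L' k (oscF (n + 1)) l ∧
      ∀ c ∈ 𝒞, ∀ x, linM baseF δ c x = wave R m b a c x + l c x := by
  obtain ⟨δ, hδ, hd⟩ := h.dominance
  obtain ⟨δ', hδ', he⟩ := h.e2_lower
  have hG : SolveGeom 𝒞 (goodM m) (k + 1) := h.geom.mono hk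
  obtain ⟨hv, hx⟩ := hG.ub_solve (E := fun i j c x => a c x i j)
    (fun i => supp_mcov h.nice hk i) (fun i j => (UBOn.entry ha i j).mono_set fun _ _ => Set.subset_univ _)
    hδ hδ hδ' (fun c hc x hx => (hd m hm h0 c hc x hx).2)
    (fun c hc x hx => (hd m hm h0 c hc x hx).1) fun c hc x _ => (he c hc x).2
  have hw : Nonneg 𝒞 (fun c x => oscF n c x * (hWt c x)⁻¹) := fun c hc x =>
    mul_nonneg ((h.small c hc x).oscF_pos n).le (inv_nonneg.2 (h.geom.hWt_pos c hc x).le)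
  have hw' : Nonneg 𝒞 (fun c x => c.ε * oscF n c x * (c.ℓ x)⁻¹) := fun c hc x =>
    mul_nonneg (mul_nonneg (h.small c hc x).εpos.le ((h.small c hc x).oscF_pos n).le)
      (inv_nonneg.2 (h.small c hc x).ℓpos.le)
  refine h.mode_osc hk hm h0 hmb hs ha hT (ν := compW n)
    ((hv.extend hw fun c hc => ((hs.map fun c _ x e => by
      simp [vF, vSol, Decomp.qf, e]) c hc)).mono_weight zero_le_one fun c hc x _ => ?_)
    (hx.extend hw' fun c hc => ((hs.map fun c _ x e => by
      simp [xF, xSol, eRest, vSol, Decomp.qf, e, zSol_zero]) c hc))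
    (A := B + 1) (by linarith [h.B_nonneg]) (fun c hc x => ?_) (fun c hc x => ?_) b
  · rw [one_mul, ← (h.small c hc x).osc_normal n, div_eq_mul_inv]
    rfl
  · refine ((le_of_eq (div_eq_mul_inv _ _).symm).trans ((h.small c hc x).osc_tangential n)).trans
      (mul_le_mul_of_nonneg_right (by linarith) ((h.small c hc x).compW_pos n).le)
  · have hℓ := (h.small c hc x).ℓpos.ne'
    rw [show c.ℓ x * (c.ε * oscF n c x * (c.ℓ x)⁻¹) = c.ε * oscF n c x by field_simp]
    exact ((h.small c hc x).osc_leftover n).trans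
      (le_mul_of_one_le_left ((h.small c hc x).oscF_pos _).le (by linarith [h.B_nonneg]))

theorem lin_zero_field {c : Ctx N P} (i j : Fin N) (x : c.M) :
    lin c.F c.V (fun _ => (0 : R4)) i j x = 0 := by
  simp [lin]

/-- **The oscillatory residual is removed**, up to the next size. -/
theorem StepHyp.solve_osc (h : StepHyp 𝒞 R L K B u) (hk : k + 1 ≤ K) (hL : L' ≤ L) (n : ℕ)
    {O : Fld N P (MatF N)} (hO : Osc 𝒞 R L' (k + 1) (oscF n) O) :
    ∃ δ l, Osc 𝒞 R L' (k + 1) (compW n) δ ∧ Osc 𝒞 R L' k (oscF (n + 1)) l ∧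
      ∀ c ∈ 𝒞, ∀ x, linM baseF δ c x = projF O c x + l c x := by
  induction hO with
  | zero =>
    refine ⟨fun _ _ => 0, fun _ _ => 0, .zero, .zero, fun c _ x => ?_⟩
    funext i j
    have := congrFun (congrFun (projTens_zero c.g c.V c.ℓ x) i) j
    simp only [linM, baseF, projF, lin_zero_field, Pi.zero_apply, add_zero] at this ⊢
    exact this.symm
  | wave m b a hm h0 hs ha =>
    obtain ⟨δ, l, hδ, hl, e⟩ := h.solve_wave hk n (box_mono hL hm) h0 hm (a := projF a)
      (hs.map fun c _ x e => by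
        show projTens c.g c.V c.ℓ x (a c x) = 0
        rw [e, projTens_zero])
      (h.ub_projF hk ha) (fun c hc x => h.tensAt_projF a hc x) b
    refine ⟨δ, l, hδ, hl, fun c hc x => (e c hc x).trans ?_⟩
    simp only [wave, projF, projTens_smul]
  | add f g hf hg ihf ihg =>
    obtain ⟨δ, l, hδ, hl, e⟩ := ihf
    obtain ⟨δ', l', hδ', hl', e'⟩ := ihg
    refine ⟨_, _, .add _ _ hδ hδ', .add _ _ hl hl', fun c hc x => ?_⟩
    have h1 : linM baseF (fun c x => δ c x + δ' c x) c x =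
        linM baseF δ c x + linM baseF δ' c x := funext fun i => funext fun j =>
      lin_add (mdiffAt_of_smoothAt (hδ.contMDiff h.nice hc x))
        (mdiffAt_of_smoothAt (hδ'.contMDiff h.nice hc x)) i j
    rw [h1, e c hc x, e' c hc x]
    show _ = projTens c.g c.V c.ℓ x (f c x + g c x) + _
    rw [projTens_add]
    simp only [projF]
    abel
  | congr f g _ he ih =>
    obtain ⟨δ, l, hδ, hl, e⟩ := ih
    exact ⟨δ, l, hδ, hl, fun c hc x => by rw [e c hc x, projF, projF, he c hc]⟩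

end Vale.Agent.P205.Full.Stage
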