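import Vale.Agent.P205.Full.Stage.CalculusBd

/-!
# P205 full, module S5 (part): the weights of the iteration

* `sGain = ε + √σ / (ε H)`, the gain of one step (its square root);
* `oscW = σ + ε² H √σ`, the size of the oscillatory residual;
* `waveW = ε ℓ √σ`, the size of a wave.
They bound their own word derivatives, uniformly in `ε`.
-/

open scoped Manifold ContDiff Topology
open Bundle Filter

namespace Vale.Agent.P205.Full.Stage

noncomputable section

/-- The gain of a step. -/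
def sGain (ε σ H : ℝ) : ℝ := ε + Real.sqrt σ / (ε * H)

/-- The size of the oscillatory residual, in units of `ℓ²`. -/
def oscW (ε σ H : ℝ) : ℝ := σ + ε ^ 2 * H * Real.sqrt σ

/-- The size of a wave. -/
def waveW (ε ℓ σ : ℝ) : ℝ := ε * ℓ * Real.sqrt σ

variable {ε σ H ℓ : ℝ}

theorem le_sGain (hε : 0 < ε) (hH : 0 < H) : ε ≤ sGain ε σ H := by
  unfold sGain
  have : 0 ≤ Real.sqrt σ / (ε * H) := by positivity
  linarith

theorem sGain_pos (hε : 0 < ε) (hH : 0 < H) : 0 < sGain ε σ H := hε.trans_le (le_sGain hε hH)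

theorem sGain_le {δ : ℝ} (hε : 0 < ε) (hH : 0 < H) (h : Real.sqrt σ ≤ δ * ε * H) :
    sGain ε σ H ≤ ε + δ := by
  unfold sGain
  have : Real.sqrt σ / (ε * H) ≤ δ := by rw [div_le_iff₀ (by positivity)]; linarith
  linarith

/-- A normal correction of the oscillatory residual gains the factor `sGain`. -/
theorem oscW_div (hε : 0 < ε) (hH : 0 < H) (hσ : 0 < σ) :
    oscW ε σ H / (ε * H) = sGain ε σ H * Real.sqrt σ := by
  unfold oscW sGain
  field_simp
  linear_combination -(Real.mul_self_sqrt hσ.le)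

theorem oscW_pos (hH : 0 < H) (hσ : 0 < σ) : 0 < oscW ε σ H := by
  unfold oscW; positivity

theorem sigma_le_oscW (hH : 0 < H) : σ ≤ oscW ε σ H := by
  unfold oscW
  have : 0 ≤ ε ^ 2 * H * Real.sqrt σ := by positivity
  linarith

/-- The amplitude part of the first order term of a wave. -/
theorem sq_mul_le_oscW (hσ : 0 ≤ σ) : ε ^ 2 * H * Real.sqrt σ ≤ oscW ε σ H := by
  unfold oscW; linarith

/-- The oscillatory size fits in the weight of the statement. -/
theorem oscW_le (hε : 0 < ε) (hε1 : ε ≤ 1) (hH : 0 < H) (hσ : 0 ≤ σ) :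
    oscW ε σ H ≤ Real.sqrt σ * (Real.sqrt σ + ε * H) := by
  unfold oscW
  rw [mul_add, Real.mul_self_sqrt hσ]
  have : ε ^ 2 ≤ ε := by nlinarith
  have := mul_le_mul_of_nonneg_right this (mul_nonneg hH.le (Real.sqrt_nonneg σ))
  nlinarith

/-- The mean size fits in the weight of the statement. -/
theorem sigma_le_weight (hε : 0 < ε) (hH : 0 < H) (hσ : 0 ≤ σ) :
    σ ≤ Real.sqrt σ * (Real.sqrt σ + ε * H) := by
  rw [mul_add, Real.mul_self_sqrt hσ]
  have : 0 ≤ Real.sqrt σ * (ε * H) := by positivity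
  linarith

section

variable {M : Type} [TopologicalSpace M] [ChartedSpace R2 M] [IsManifold (𝓡 2) ∞ M]
variable {N K : ℕ} {V : Frame M N} {s : Set M}

/-- A sum of two nonnegative weights bounds its derivatives. -/
theorem bdOn_self_add (hV : FrameSmooth V) {f g : M → ℝ} {Cf Cg : ℝ}
    (hf : ∀ x ∈ s, ContMDiffAt (𝓡 2) 𝓘(ℝ, ℝ) ∞ f x)
    (hg : ∀ x ∈ s, ContMDiffAt (𝓡 2) 𝓘(ℝ, ℝ) ∞ g x)
    (hf0 : ∀ x ∈ s, 0 ≤ f x) (hg0 : ∀ x ∈ s, 0 ≤ g x)
    (bf : BdOn V s K Cf f f) (bg : BdOn V s K Cg g g) :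
    BdOn V s K (max Cf Cg) (fun y => f y + g y) (fun y => f y + g y) := fun w hw x hx => by
  rw [DW_add hV w (hf x hx) (hg x hx)]
  refine (norm_add_le _ _).trans ?_
  rw [mul_add]
  exact add_le_add
    ((bf w hw x hx).trans (mul_le_mul_of_nonneg_right (le_max_left _ _) (hf0 x hx)))
    ((bg w hw x hx).trans (mul_le_mul_of_nonneg_right (le_max_right _ _) (hg0 x hx)))

/-- A positive constant multiple of a weight bounds its derivatives. -/
theorem bdOn_self_const_mul (hV : FrameSmooth V) {f : M → ℝ} {C c : ℝ} (hc : 0 ≤ c)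
    (hf : ∀ x ∈ s, ContMDiffAt (𝓡 2) 𝓘(ℝ, ℝ) ∞ f x) (bf : BdOn V s K C f f) :
    BdOn V s K C (fun y => c * f y) (fun y => c * f y) := fun w hw x hx => by
  have e : (fun y => c * f y) = fun y => c • f y := rfl
  rw [e, DW_const_smul hV c w (hf x hx), norm_smul, Real.norm_eq_abs, abs_of_nonneg hc]
  simp only [smul_eq_mul]
  rw [← mul_assoc, mul_comm C c, mul_assoc]
  exact mul_le_mul_of_nonneg_left (bf w hw x hx) hc

end

/-- The weights of the iteration bound their own derivatives, with constants free of `ε`. -/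
theorem exists_bdOn_weights (N K : ℕ) (B : ℝ) :
    ∃ C : ℝ, ∀ (M : Type) [TopologicalSpace M] [ChartedSpace R2 M] [IsManifold (𝓡 2) ∞ M]
      (V : Frame M N) (ℓ H σ : M → ℝ) (ε : ℝ), FrameSmooth V → 0 < ε →
      ContMDiff (𝓡 2) 𝓘(ℝ, ℝ) ∞ ℓ → ContMDiff (𝓡 2) 𝓘(ℝ, ℝ) ∞ H →
      ContMDiff (𝓡 2) 𝓘(ℝ, ℝ) ∞ σ → (∀ x, 0 < ℓ x) → (∀ x, 0 < H x) → (∀ x, 0 < σ x) →
      Bd V K B ℓ ℓ → Bd V K B H H → Bd V K B σ σ →
      Bd V K C (fun y => sGain ε (σ y) (H y)) (fun y => sGain ε (σ y) (H y)) ∧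
        Bd V K C (fun y => oscW ε (σ y) (H y)) (fun y => oscW ε (σ y) (H y)) ∧
        Bd V K C (fun y => waveW ε (ℓ y) (σ y)) (fun y => waveW ε (ℓ y) (σ y)) ∧
        Bd V K C (fun y => Real.sqrt (σ y)) (fun y => Real.sqrt (σ y)) ∧
        Bd V K C (fun y => Real.sqrt (sGain ε (σ y) (H y)))
          (fun y => Real.sqrt (sGain ε (σ y) (H y))) := by
  obtain ⟨Cs, hCs1, hCs⟩ := exists_bdOn_sqrt N K B
  obtain ⟨Ci, hCi1, hCi⟩ := exists_bdOn_inv N K B
  set C1 : ℝ := max 1 (max B (max Cs Ci)) with hC1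
  set C2 : ℝ := 2 ^ K * C1 * C1 with hC2
  set C3 : ℝ := max C1 C2 with hC3
  obtain ⟨Cg, hCg1, hCg⟩ := exists_bdOn_sqrt N K (max C3 1)
  refine ⟨max (max C3 1) (max (max C1 C3) Cg),
    fun M _ _ _ V ℓ H σ ε hV hε hℓs hHs hσs hℓ hH hσ bℓ bH bσ => ?_⟩
  have u : ∀ x ∈ (Set.univ : Set M), ContMDiffAt (𝓡 2) 𝓘(ℝ, ℝ) ∞ σ x := fun x _ => hσs x
  have sq : ∀ x, ContMDiffAt (𝓡 2) 𝓘(ℝ, ℝ) ∞ (fun y => Real.sqrt (σ y)) x := fun x =>
    ContDiffAt.comp_contMDiffAt (Real.contDiffAt_sqrt (hσ x).ne') (hσs x)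
  have inv : ∀ x, ContMDiffAt (𝓡 2) 𝓘(ℝ, ℝ) ∞ (fun y => (H y)⁻¹) x := fun x =>
    ContDiffAt.comp_contMDiffAt (contDiffAt_inv ℝ (hH x).ne') (hHs x)
  have bs : Bd V K C1 (fun y => Real.sqrt (σ y)) (fun y => Real.sqrt (σ y)) :=
    (hCs M V Set.univ σ hV u (fun x _ => hσ x) bσ).mono_const
      (le_max_of_le_right (le_max_of_le_right (le_max_left _ _))) fun x _ => Real.sqrt_nonneg _
  have bi : Bd V K C1 (fun y => (H y)⁻¹) (fun y => (H y)⁻¹) :=
    (hCi M V Set.univ H hV (fun x _ => hHs x) (fun x _ => hH x) bH).mono_const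
      (le_max_of_le_right (le_max_of_le_right (le_max_right _ _)))
      fun x _ => (inv_pos.2 (hH x)).le
  have bℓ' : Bd V K C1 ℓ ℓ :=
    bℓ.mono_const (le_max_of_le_right (le_max_left _ _)) fun x _ => (hℓ x).le
  have bH' : Bd V K C1 H H :=
    bH.mono_const (le_max_of_le_right (le_max_left _ _)) fun x _ => (hH x).le
  have bσ' : Bd V K C1 σ σ :=
    bσ.mono_const (le_max_of_le_right (le_max_left _ _)) fun x _ => (hσ x).le
  have bprod : ∀ {f g : M → ℝ}, (∀ x, ContMDiffAt (𝓡 2) 𝓘(ℝ, ℝ) ∞ f x) →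
      (∀ x, ContMDiffAt (𝓡 2) 𝓘(ℝ, ℝ) ∞ g x) → Bd V K C1 f f → Bd V K C1 g g →
      Bd V K C2 (fun y => f y * g y) (fun y => f y * g y) := fun hf hg b1 b2 =>
    BdOn.mul hV (fun x _ => hf x) (fun x _ => hg x) b1 b2
  have mulAt : ∀ {f g : M → ℝ} (x : M), ContMDiffAt (𝓡 2) 𝓘(ℝ, ℝ) ∞ f x →
      ContMDiffAt (𝓡 2) 𝓘(ℝ, ℝ) ∞ g x → ContMDiffAt (𝓡 2) 𝓘(ℝ, ℝ) ∞ (fun y => f y * g y) x :=
    fun x hf hg => contMDiffAt_bilin (ContinuousLinearMap.mul ℝ ℝ) hf hg
  have sg : ∀ x, ContMDiffAt (𝓡 2) 𝓘(ℝ, ℝ) ∞ (fun y => ε⁻¹ * (Real.sqrt (σ y) * (H y)⁻¹)) x :=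
    fun x => mulAt x contMDiffAt_const (mulAt x (sq x) (inv x))
  have hs0 : Bd V K (max C3 1) (fun y => sGain ε (σ y) (H y))
      (fun y => sGain ε (σ y) (H y)) := by
    have e : (fun y => sGain ε (σ y) (H y)) =
        fun y => ε + ε⁻¹ * (Real.sqrt (σ y) * (H y)⁻¹) := by
      funext y; rw [sGain, div_eq_mul_inv, mul_inv]; ring
    have bc : Bd V K 1 (fun _ : M => ε) (fun _ => ε) :=
      bdOn_const ε fun x _ => by rw [Real.norm_eq_abs, abs_of_pos hε, one_mul]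
    rw [e]
    refine (bdOn_self_add hV (fun x _ => contMDiffAt_const) (fun x _ => sg x) (fun x _ => hε.le)
      (fun x _ => by have := hH x; positivity) bc
      (bdOn_self_const_mul hV (inv_nonneg.2 hε.le) (fun x _ => mulAt x (sq x) (inv x))
        (bprod sq inv bs bi))).mono_const ?_ fun x _ => by have := hH x; positivity
    exact max_le (le_max_right _ _) (le_max_of_le_left (le_max_right _ _))
  have hsg0 : ∀ x, 0 < sGain ε (σ x) (H x) := fun x => sGain_pos hε (hH x)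
  refine ⟨hs0.mono_const (le_max_left _ _) fun x _ => (hsg0 x).le, ?_, ?_, ?_, ?_⟩
  · have e : (fun y => oscW ε (σ y) (H y)) =
        fun y => σ y + ε ^ 2 * (H y * Real.sqrt (σ y)) := by
      funext y; rw [oscW]; ring
    rw [e]
    refine (bdOn_self_add hV u
      (fun x _ => mulAt x contMDiffAt_const (mulAt x (hHs x) (sq x)))
      (fun x _ => (hσ x).le) (fun x _ => by have := hH x; positivity) bσ'
      (bdOn_self_const_mul hV (sq_nonneg ε) (fun x _ => mulAt x (hHs x) (sq x))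
        (bprod (fun x => hHs x) sq bH' bs))).mono_const ?_
      fun x _ => by have := hσ x; have := hH x; positivity
    exact le_max_of_le_left (le_max_left _ _)
  · have e : (fun y => waveW ε (ℓ y) (σ y)) = fun y => ε * (ℓ y * Real.sqrt (σ y)) := by
      funext y; rw [waveW]; ring
    rw [e]
    refine (bdOn_self_const_mul hV hε.le (fun x _ => mulAt x (hℓs x) (sq x))
      (bprod (fun x => hℓs x) sq bℓ' bs)).mono_const ?_
      fun x _ => by have := hℓ x; positivity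
    exact le_max_of_le_left (le_max_of_le_left (le_max_right _ _))
  · exact bs.mono_const (le_max_of_le_right (le_max_of_le_left (le_max_left _ _)))
      fun x _ => Real.sqrt_nonneg _
  · have hsm : ∀ x, ContMDiffAt (𝓡 2) 𝓘(ℝ, ℝ) ∞ (fun y => sGain ε (σ y) (H y)) x := fun x => by
      have e : (fun y => sGain ε (σ y) (H y)) =
          fun y => ε + ε⁻¹ * (Real.sqrt (σ y) * (H y)⁻¹) := by
        funext y; rw [sGain, div_eq_mul_inv, mul_inv]; ring
      rw [e]; exact contMDiffAt_const.add (sg x)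
    exact (hCg M V Set.univ _ hV (fun x _ => hsm x) (fun x _ => hsg0 x) hs0).mono_const
      (le_max_of_le_right (le_max_right _ _)) fun x _ => Real.sqrt_nonneg _

end

end Vale.Agent.P205.Full.Stage
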