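import Vale.Agent.P205.Full.Stage.Setup
import Vale.Agent.P205.Full.Stage.Weights

/-!
# P205 full, module S5 (part): the weights of one step

With `r = √s` and `a = r ^ n`: mean residual `a r σ ℓ²`, oscillatory residual `a A' ℓ²`,
amplitude correction `a r w₀`, compensating correction `a s w₀`.
-/

noncomputable section

namespace Vale.Agent.P205.Full.Stage

variable {N P : ℕ}

/-- Square root of the gain. -/
def rW : Fld N P ℝ := fun c x => Real.sqrt (sGain c.ε (c.σ x) (c.H x))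

/-- The size of a wave. -/
def w0W : Fld N P ℝ := fun c x => waveW c.ε (c.ℓ x) (c.σ x)

/-- The mean residual after `n` steps. -/
def meanW (n : ℕ) : Fld N P ℝ := fun c x => rW c x ^ (n + 1) * c.σ x * c.ℓ x ^ 2

/-- The oscillatory residual after `n` steps. -/
def oscF (n : ℕ) : Fld N P ℝ := fun c x => rW c x ^ n * oscW c.ε (c.σ x) (c.H x) * c.ℓ x ^ 2

/-- The amplitude correction of step `n`. -/
def ampW (n : ℕ) : Fld N P ℝ := fun c x => rW c x ^ (n + 1) * w0W c x

/-- The compensating correction of step `n`. -/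
def compW (n : ℕ) : Fld N P ℝ := fun c x => rW c x ^ (n + 2) * w0W c x

/-- The amplitude coefficient of step `n`. -/
def coefW (n : ℕ) : Fld N P ℝ := fun c x => rW c x ^ (n + 1) * Real.sqrt (c.σ x)

/-- The scalar hypotheses on a datum. -/
structure SmallAt (B : ℝ) (c : Ctx N P) (x : c.M) : Prop where
  εpos : 0 < c.ε
  εle : c.ε ≤ 1
  ℓpos : 0 < c.ℓ x
  Hpos : 0 < c.H x
  Hle : c.H x ≤ B
  σpos : 0 < c.σ x
  small : Real.sqrt (c.σ x) ≤ c.ε * c.H x

namespace SmallAt

variable {B : ℝ} {c : Ctx N P} {x : c.M} (h : SmallAt B c x)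
include h

theorem B_nonneg : 0 ≤ B := h.Hpos.le.trans h.Hle

theorem rW_sq : rW c x ^ 2 = sGain c.ε (c.σ x) (c.H x) :=
  Real.sq_sqrt (sGain_pos h.εpos h.Hpos).le

theorem rW_pos : 0 < rW c x := Real.sqrt_pos.2 (sGain_pos h.εpos h.Hpos)

theorem rW_le_two : rW c x ≤ 2 := by
  have h1 : sGain c.ε (c.σ x) (c.H x) ≤ c.ε + 1 := sGain_le h.εpos h.Hpos (by simpa using h.small)
  have h2 := h.εle
  unfold rW
  rw [Real.sqrt_le_left (by norm_num)]
  linarith

theorem ε_le_rW : c.ε ≤ rW c x := by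
  refine Real.le_sqrt_of_sq_le ((pow_le_of_le_one h.εpos.le h.εle two_ne_zero).trans ?_)
  exact le_sGain h.εpos h.Hpos

theorem pow_pos' (n : ℕ) : 0 < rW c x ^ n := pow_pos h.rW_pos n

theorem w0W_pos : 0 < w0W c x := by
  have := h.εpos; have := h.ℓpos; have := h.σpos
  unfold w0W waveW; positivity

theorem oscF_pos (n : ℕ) : 0 < oscF n c x :=
  mul_pos (mul_pos (h.pow_pos' n) (oscW_pos h.Hpos h.σpos)) (pow_pos h.ℓpos 2)

theorem meanW_pos (n : ℕ) : 0 < meanW n c x :=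
  mul_pos (mul_pos (h.pow_pos' _) h.σpos) (pow_pos h.ℓpos 2)

theorem ampW_pos (n : ℕ) : 0 < ampW n c x := mul_pos (h.pow_pos' _) h.w0W_pos

theorem compW_pos (n : ℕ) : 0 < compW n c x := mul_pos (h.pow_pos' _) h.w0W_pos

theorem coefW_pos (n : ℕ) : 0 < coefW n c x := mul_pos (h.pow_pos' _) (Real.sqrt_pos.2 h.σpos)

theorem pow_mono {n m : ℕ} (hnm : n ≤ m) : rW c x ^ m ≤ 2 ^ (m - n) * rW c x ^ n := by
  calc rW c x ^ m = rW c x ^ (m - n) * rW c x ^ n := by rw [← pow_add, Nat.sub_add_cancel hnm]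
    _ ≤ _ := mul_le_mul_of_nonneg_right (pow_le_pow_left₀ h.rW_pos.le h.rW_le_two _)
      (h.pow_pos' n).le

/-- Normal solve: the oscillatory residual over `ℓ H` is the compensating correction. -/
theorem osc_normal (n : ℕ) : oscF n c x / (c.ℓ x * c.H x) = compW n c x := by
  have hℓ := h.ℓpos.ne'
  have hε := h.εpos.ne'
  have hH := h.Hpos.ne'
  have key := oscW_div (σ := c.σ x) h.εpos h.Hpos h.σpos
  rw [div_eq_iff (mul_ne_zero hε hH)] at key
  rw [div_eq_iff (mul_ne_zero hℓ hH)]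
  simp only [oscF, compW, w0W, waveW, pow_add, h.rW_sq]
  rw [key]
  ring

/-- Tangential solve: `ε` times the oscillatory residual over `ℓ`. -/
theorem osc_tangential (n : ℕ) : c.ε * oscF n c x / c.ℓ x ≤ B * compW n c x := by
  rw [← h.osc_normal n, div_le_iff₀ h.ℓpos]
  have hℓ := h.ℓpos.ne'
  have hH := h.Hpos
  have : B * (oscF n c x / (c.ℓ x * c.H x)) * c.ℓ x = B / c.H x * oscF n c x := by field_simp
  rw [this]
  refine mul_le_mul_of_nonneg_right ?_ (h.oscF_pos n).le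
  rw [le_div_iff₀ hH]
  have h1 := mul_le_mul h.εle h.Hle hH.le (zero_le_one : (0 : ℝ) ≤ 1)
  linarith

/-- The amplitude part of a tangential field costs a factor `ε`. -/
theorem osc_leftover (n : ℕ) : c.ε * oscF n c x ≤ oscF (n + 1) c x := by
  calc c.ε * oscF n c x ≤ rW c x * oscF n c x :=
        mul_le_mul_of_nonneg_right h.ε_le_rW (h.oscF_pos n).le
    _ = _ := by simp only [oscF, pow_succ]; ring

/-- Tangential compensation of an amplitude correction. -/
theorem amp_tangential (n : ℕ) : c.ε * c.H x * ampW n c x ≤ B * compW n c x := by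
  calc c.ε * c.H x * ampW n c x ≤ rW c x * B * ampW n c x :=
        mul_le_mul_of_nonneg_right (mul_le_mul h.ε_le_rW h.Hle h.Hpos.le h.rW_pos.le)
          (h.ampW_pos n).le
    _ = _ := by simp only [ampW, compW, pow_succ]; ring

/-- The leftover of that compensation. -/
theorem amp_leftover (n : ℕ) : c.ℓ x * (c.ε * c.H x * ampW n c x) ≤ oscF (n + 1) c x := by
  have h1 := mul_le_mul_of_nonneg_left (sq_mul_le_oscW (ε := c.ε) (H := c.H x) h.σpos.le)
    (mul_nonneg (h.pow_pos' (n + 1)).le (sq_nonneg (c.ℓ x)))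
  simp only [ampW, w0W, waveW, oscF]
  linarith

/-- A product with a wave of full size. -/
theorem wave_comp (n : ℕ) : w0W c x * compW n c x / c.ε ^ 2 = meanW (n + 1) c x := by
  have hε := h.εpos.ne'
  simp only [compW, w0W, waveW, meanW]
  field_simp
  rw [Real.sq_sqrt h.σpos.le]
  ring

/-- A product of two amplitude corrections. -/
theorem amp_amp (k n : ℕ) :
    ampW k c x * ampW n c x / c.ε ^ 2 ≤ 2 ^ k * meanW (n + 1) c x := by
  have hε := h.εpos.ne'
  have e : ampW k c x * ampW n c x / c.ε ^ 2 =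
      rW c x ^ (k + n + 2) * c.σ x * c.ℓ x ^ 2 := by
    simp only [ampW, w0W, waveW]
    field_simp
    rw [Real.sq_sqrt h.σpos.le]
    ring
  rw [e, meanW, ← mul_assoc, ← mul_assoc]
  refine mul_le_mul_of_nonneg_right (mul_le_mul_of_nonneg_right ?_ h.σpos.le) (sq_nonneg _)
  simpa [show k + n + 2 - (n + 1 + 1) = k by omega] using
    h.pow_mono (show n + 1 + 1 ≤ k + n + 2 by omega)

/-- The amplitude part of a product of amplitudes. -/
theorem cross_amp (n : ℕ) :
    c.ε * c.ℓ x ^ 2 * (Real.sqrt (c.σ x) * coefW n c x) ≤ meanW (n + 1) c x := by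
  have e : c.ε * c.ℓ x ^ 2 * (Real.sqrt (c.σ x) * coefW n c x) =
      c.ε * (rW c x ^ (n + 1) * (Real.sqrt (c.σ x) * Real.sqrt (c.σ x)) * c.ℓ x ^ 2) := by
    simp only [coefW]; ring
  rw [e, Real.mul_self_sqrt h.σpos.le]
  calc c.ε * (rW c x ^ (n + 1) * c.σ x * c.ℓ x ^ 2)
      ≤ rW c x * (rW c x ^ (n + 1) * c.σ x * c.ℓ x ^ 2) :=
        mul_le_mul_of_nonneg_right h.ε_le_rW (h.meanW_pos n).le
    _ = _ := by simp only [meanW, pow_succ]; ring

/-- The oscillatory part of a product of amplitudes. -/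
theorem cross_osc (n : ℕ) :
    c.ℓ x ^ 2 * (Real.sqrt (c.σ x) * coefW n c x) ≤ oscF (n + 1) c x := by
  have e : c.ℓ x ^ 2 * (Real.sqrt (c.σ x) * coefW n c x) =
      rW c x ^ (n + 1) * (Real.sqrt (c.σ x) * Real.sqrt (c.σ x)) * c.ℓ x ^ 2 := by
    simp only [coefW]; ring
  rw [e, Real.mul_self_sqrt h.σpos.le, oscF]
  exact mul_le_mul_of_nonneg_right (mul_le_mul_of_nonneg_left (sigma_le_oscW h.Hpos)
    (h.pow_pos' _).le) (sq_nonneg _)

/-- The mean size is below the oscillatory size. -/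
theorem mean_le_osc (n : ℕ) : meanW n c x ≤ 2 * oscF n c x := by
  have h1 : c.σ x ≤ oscW c.ε (c.σ x) (c.H x) := sigma_le_oscW h.Hpos
  calc meanW n c x = rW c x * (rW c x ^ n * c.σ x * c.ℓ x ^ 2) := by
        simp only [meanW, pow_succ]; ring
    _ ≤ 2 * oscF n c x := mul_le_mul h.rW_le_two
        (mul_le_mul_of_nonneg_right (mul_le_mul_of_nonneg_left h1 (h.pow_pos' n).le) (sq_nonneg _))
        (mul_nonneg (mul_nonneg (h.pow_pos' n).le h.σpos.le) (sq_nonneg _)) zero_le_two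

/-- The residual fits in the weight of the statement. -/
theorem oscF_le (m : ℕ) : oscF (2 * m) c x ≤
    (c.ε + Real.sqrt (c.σ x) / (c.ε * c.H x)) ^ m *
      (c.ℓ x ^ 2 * Real.sqrt (c.σ x) * (Real.sqrt (c.σ x) + c.ε * c.H x)) := by
  simp only [oscF, pow_mul, h.rW_sq]
  calc sGain c.ε (c.σ x) (c.H x) ^ m * oscW c.ε (c.σ x) (c.H x) * c.ℓ x ^ 2
      ≤ sGain c.ε (c.σ x) (c.H x) ^ m *
          (Real.sqrt (c.σ x) * (Real.sqrt (c.σ x) + c.ε * c.H x)) * c.ℓ x ^ 2 :=
        mul_le_mul_of_nonneg_right (mul_le_mul_of_nonneg_left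
          (oscW_le h.εpos h.εle h.Hpos h.σpos.le) (pow_nonneg (sGain_pos h.εpos h.Hpos).le _))
          (sq_nonneg _)
    _ = _ := by rw [sGain]; ring

theorem meanW_le (m : ℕ) : meanW (2 * m) c x ≤
    2 * ((c.ε + Real.sqrt (c.σ x) / (c.ε * c.H x)) ^ m *
      (c.ℓ x ^ 2 * Real.sqrt (c.σ x) * (Real.sqrt (c.σ x) + c.ε * c.H x))) :=
  (h.mean_le_osc _).trans (by linarith [h.oscF_le m])

end SmallAt

end Vale.Agent.P205.Full.Stage
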