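import Vale.Agent.P205.Full.Stage.Setup
import Vale.Agent.P205.Full.Stage.Trig

/-!
# P205 full, module STAGE: waves (S4, helper80)

`Osc 𝒞 R L k μ f`: `f` is a finite sum of waves `cos θ_m • a` and `sin θ_m • a` with `m ≠ 0` of
degree at most `L`, `a` bounded by `μ` and supported in the good set of every index occurring in `m`.
`Trig` allows a mean as well. Products, the derivative `ε • D`, and the final bound are given.
-/

open scoped Manifold ContDiff RealInnerProductSpace Topology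
open Bundle Filter

set_option linter.unusedSectionVars false

namespace Vale.Agent.P205.Full.Stage

variable {N P : ℕ}

/-- Cosine for `false`, sine for `true`. -/
noncomputable def tw : Bool → ℝ → ℝ
  | false => Real.cos
  | true => Real.sin

/-- The sign in the derivative of `tw`. -/
def sg : Bool → ℝ
  | false => -1
  | true => 1

theorem contDiff_tw (b : Bool) : ContDiff ℝ ∞ (tw b) := by
  cases b
  · exact Real.contDiff_cos
  · exact Real.contDiff_sin

theorem hasDerivAt_tw (b : Bool) (t : ℝ) : HasDerivAt (tw b) (sg b * tw (!b) t) t := by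
  cases b
  · simpa [tw, sg] using Real.hasDerivAt_cos t
  · simpa [tw, sg] using Real.hasDerivAt_sin t

theorem abs_tw_le (b : Bool) (t : ℝ) : |tw b t| ≤ 1 := by
  cases b
  · exact Real.abs_cos_le_one t
  · exact Real.abs_sin_le_one t

/-- Coefficient of the sum phase in a product. -/
noncomputable def cp (b b' : Bool) : ℝ := if b && b' then -(1 / 2) else 1 / 2

/-- Coefficient of the difference phase in a product. -/
noncomputable def cm (b b' : Bool) : ℝ := if !b && b' then -(1 / 2) else 1 / 2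

theorem tw_mul (b b' : Bool) (s t : ℝ) :
    tw b s * tw b' t = cp b b' * tw (xor b b') (s + t) + cm b b' * tw (xor b b') (s - t) := by
  cases b <;> cases b' <;>
    simp [tw, cp, cm, Real.cos_add, Real.cos_sub, Real.sin_add, Real.sin_sub] <;> ring

/-- A covector of the momentum of a multi-index. -/
noncomputable def mcov (R : ℝ) (c : Ctx N P) (m : Fin (qn P) → ℤ) (i : Fin N) : c.M → ℝ :=
  fun x => ∑ q, ((m q : ℝ) * R ^ (q : ℕ)) * D c.V i (c.ph q) x

/-- The phase of a multi-index. -/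
noncomputable def mphase (R : ℝ) (c : Ctx N P) (m : Fin (qn P) → ℤ) : c.M → ℝ :=
  phase R c.ε c.ph m

/-- A single wave. -/
noncomputable def wave {E : Type} [NormedAddCommGroup E] [NormedSpace ℝ E] (R : ℝ)
    (m : Fin (qn P) → ℤ) (b : Bool) (a : Fld N P E) : Fld N P E :=
  fun c x => tw b (mphase R c m x) • a c x

/-- The intersection of the good sets of the indices in `m`. -/
def goodM (m : Fin (qn P) → ℤ) : SetF N P :=
  fun c => {x | ∀ q, m q ≠ 0 → x ∈ c.good q}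

/-- Hypotheses on the phases. -/
structure Nice (𝒞 : Set (Ctx N P)) (K : ℕ) : Prop where
  eps_pos : ∀ c ∈ 𝒞, 0 < c.ε
  eps_le : ∀ c ∈ 𝒞, c.ε ≤ 1
  smooth_ph : ∀ c ∈ 𝒞, ∀ q, ContMDiff (𝓡 2) 𝓘(ℝ, ℝ) ∞ (c.ph q)
  bd_ph : ∀ q i, UBOn 𝒞 (fun c => c.good q) K one (fun c => D c.V i (c.ph q))

theorem Nice.mono {𝒞 : Set (Ctx N P)} {K k : ℕ} (h : Nice 𝒞 K) (hk : k ≤ K) : Nice 𝒞 k :=
  ⟨h.eps_pos, h.eps_le, h.smooth_ph, fun q i => (h.bd_ph q i).mono_order hk⟩

/-- Support condition of a coefficient. -/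
def Supp {E : Type} [NormedAddCommGroup E] [NormedSpace ℝ E] (𝒞 : Set (Ctx N P))
    (m : Fin (qn P) → ℤ) (a : Fld N P E) : Prop :=
  ∀ c ∈ 𝒞, tsupport (a c) ⊆ goodM m c

/-- Sums of waves. -/
inductive Osc {E : Type} [NormedAddCommGroup E] [NormedSpace ℝ E] (𝒞 : Set (Ctx N P)) (R : ℝ)
    (L k : ℕ) (μ : Fld N P ℝ) : Fld N P E → Prop
  | zero : Osc 𝒞 R L k μ (fun _ _ => 0)
  | wave (m : Fin (qn P) → ℤ) (b : Bool) (a : Fld N P E) : m ∈ box (qn P) L → m ≠ 0 →
      Supp 𝒞 m a → UB 𝒞 k μ a → Osc 𝒞 R L k μ (wave R m b a)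
  | add (f g : Fld N P E) : Osc 𝒞 R L k μ f → Osc 𝒞 R L k μ g →
      Osc 𝒞 R L k μ (fun c x => f c x + g c x)
  | congr (f g : Fld N P E) : Osc 𝒞 R L k μ f → (∀ c ∈ 𝒞, f c = g c) → Osc 𝒞 R L k μ g

/-- A mean plus sums of waves. -/
def Trig {E : Type} [NormedAddCommGroup E] [NormedSpace ℝ E] (𝒞 : Set (Ctx N P)) (R : ℝ)
    (L k : ℕ) (μ : Fld N P ℝ) (f : Fld N P E) : Prop :=
  ∃ f₀ f₁ : Fld N P E, UB 𝒞 k μ f₀ ∧ Osc 𝒞 R L k μ f₁ ∧ ∀ c ∈ 𝒞, ∀ x, f c x = f₀ c x + f₁ c x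

section Basic

variable {E E' G : Type} [NormedAddCommGroup E] [NormedSpace ℝ E]
  [NormedAddCommGroup E'] [NormedSpace ℝ E'] [NormedAddCommGroup G] [NormedSpace ℝ G]
variable {𝒞 : Set (Ctx N P)} {R : ℝ} {L L' k l K : ℕ} {μ ν : Fld N P ℝ} {f g : Fld N P E}
variable {m m' : Fin (qn P) → ℤ}

theorem Supp.map {a : Fld N P E} {a' : Fld N P E'} (h : Supp 𝒞 m a)
    (hz : ∀ c ∈ 𝒞, ∀ x, a c x = 0 → a' c x = 0) : Supp 𝒞 m a' := fun c hc =>
  (closure_mono (Function.support_subset_iff'.2 fun x hx =>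
    hz c hc x (Function.notMem_support.1 hx))).trans (h c hc)

theorem supp_zero_index (a : Fld N P E) : Supp 𝒞 (0 : Fin (qn P) → ℤ) a :=
  fun _ _ _ _ _ hq => absurd rfl hq

theorem isClosed_goodM (m : Fin (qn P) → ℤ) (c : Ctx N P) : IsClosed (goodM m c) := by
  simp only [goodM, Set.ofPred_forall]
  exact isClosed_iInter fun q => isClosed_iInter fun _ => isClosed_tsupport _

theorem contMDiff_mphase (hn : Nice 𝒞 K) {c : Ctx N P} (hc : c ∈ 𝒞) (R : ℝ)
    (m : Fin (qn P) → ℤ) : ContMDiff (𝓡 2) 𝓘(ℝ, ℝ) ∞ (mphase R c m) := by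
  intro x
  show ContMDiffAt (𝓡 2) 𝓘(ℝ, ℝ) ∞
    (fun y => (∑ q, (m q : ℝ) * R ^ (q : ℕ) * c.ph q y) / c.ε) x
  have h : ContMDiffAt (𝓡 2) 𝓘(ℝ, ℝ) ∞ (fun y => ∑ q, (m q : ℝ) * R ^ (q : ℕ) * c.ph q y) x :=
    contMDiffAt_finsetSum fun q _ =>
      (ContinuousLinearMap.mul ℝ ℝ ((m q : ℝ) * R ^ (q : ℕ))).contDiff.contDiffAt.comp_contMDiffAt
        (hn.smooth_ph c hc q x)
  simpa only [div_eq_mul_inv, Function.comp_def, ContinuousLinearMap.flip_apply,
    ContinuousLinearMap.mul_apply'] using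
    ((ContinuousLinearMap.mul ℝ ℝ).flip c.ε⁻¹).contDiff.contDiffAt.comp_contMDiffAt h

/-- The derivative of a phase. -/
theorem eps_D_mphase (hn : Nice 𝒞 K) {c : Ctx N P} (hc : c ∈ 𝒞) (R : ℝ)
    (m : Fin (qn P) → ℤ) (i : Fin N) (x : c.M) :
    c.ε * D c.V i (mphase R c m) x = mcov R c m i x := by
  have he : mphase R c m = fun y => c.ε⁻¹ • ∑ q, ((m q : ℝ) * R ^ (q : ℕ)) • c.ph q y := by
    funext y
    simp only [mphase, phase, smul_eq_mul]
    rw [div_eq_inv_mul]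
  have hd : ∀ q, MDifferentiableAt (𝓡 2) 𝓘(ℝ, ℝ)
      (fun y => ((m q : ℝ) * R ^ (q : ℕ)) • c.ph q y) x := fun q =>
    mdiffAt_of_smoothAt ((((m q : ℝ) * R ^ (q : ℕ)) • ContinuousLinearMap.id ℝ ℝ).contDiff
      |>.contDiffAt.comp_contMDiffAt (hn.smooth_ph c hc q x))
  rw [he, D_const_smul _ (mdiffAt_sum _ fun q _ => hd q), D_sum _ fun q _ => hd q, smul_eq_mul,
    ← mul_assoc, mul_inv_cancel₀ (hn.eps_pos c hc).ne', one_mul]
  refine Finset.sum_congr rfl fun q _ => ?_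
  rw [D_const_smul _ (mdiffAt_of_smoothAt (hn.smooth_ph c hc q x)), smul_eq_mul]

theorem contMDiff_wave (hn : Nice 𝒞 K) {a : Fld N P E} (ha : UB 𝒞 k μ a) {c : Ctx N P}
    (hc : c ∈ 𝒞) (R : ℝ) (m : Fin (qn P) → ℤ) (b : Bool) :
    ContMDiff (𝓡 2) 𝓘(ℝ, E) ∞ (wave R m b a c) := fun x =>
  ((contDiff_tw b).contDiffAt.comp_contMDiffAt (contMDiff_mphase hn hc R m x)).smul
    (ha.contMDiff hc x)

/-- The derivative of a wave, exactly. -/
theorem eps_D_wave (hn : Nice 𝒞 K) {a : Fld N P E} (ha : UB 𝒞 k μ a) {c : Ctx N P} (hc : c ∈ 𝒞)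
    (R : ℝ) (m : Fin (qn P) → ℤ) (b : Bool) (i : Fin N) (x : c.M) :
    c.ε • D c.V i (wave R m b a c) x =
      wave R m (!b) (fun c y => (sg b * mcov R c m i y) • a c y) c x +
        wave R m b (fun c y => c.ε • D c.V i (a c) y) c x := by
  have h1 := mdiffAt_of_smoothAt (contMDiff_mphase hn hc R m x)
  have h2 := mdiffAt_of_smoothAt (ha.contMDiff hc x)
  have ht : DifferentiableAt ℝ (tw b) (mphase R c m x) := (hasDerivAt_tw b _).differentiableAt
  have h3 : MDifferentiableAt (𝓡 2) 𝓘(ℝ, ℝ) (fun y => tw b (mphase R c m y)) x :=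
    ht.mdifferentiableAt.comp x h1
  show c.ε • D c.V i (fun y => tw b (mphase R c m y) • a c y) x =
    tw (!b) (mphase R c m x) • ((sg b * mcov R c m i x) • a c x) +
      tw b (mphase R c m x) • (c.ε • D c.V i (a c) x)
  rw [D_smul h3 h2, D_comp ht h1, (hasDerivAt_tw b _).hasFDerivAt.fderiv]
  simp only [ContinuousLinearMap.toSpanSingleton_apply, smul_eq_mul, smul_add, smul_smul]
  rw [← eps_D_mphase hn hc R m i x]
  congr 1
  · congr 1
    ring
  · rw [mul_comm]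

theorem Osc.contMDiff (hn : Nice 𝒞 K) (h : Osc 𝒞 R L k μ f) {c : Ctx N P} (hc : c ∈ 𝒞) :
    ContMDiff (𝓡 2) 𝓘(ℝ, E) ∞ (f c) := by
  induction h with
  | zero => exact contMDiff_const
  | wave m b a _ _ _ ha => exact contMDiff_wave hn ha hc R m b
  | add f g _ _ ihf ihg => exact fun x => (ihf x).add (ihg x)
  | congr f g _ he ih => rw [← he c hc]; exact ih

theorem Osc.mono_L (h : Osc 𝒞 R L k μ f) (hL : L ≤ L') : Osc 𝒞 R L' k μ f := by
  induction h with
  | zero => exact .zero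
  | wave m b a hm h0 hs ha => exact .wave m b a (box_mono hL hm) h0 hs ha
  | add f g _ _ ihf ihg => exact .add f g ihf ihg
  | congr f g _ he ih => exact .congr f g ih he

theorem Osc.mono_order (h : Osc 𝒞 R L k μ f) (hl : l ≤ k) : Osc 𝒞 R L l μ f := by
  induction h with
  | zero => exact .zero
  | wave m b a hm h0 hs ha => exact .wave m b a hm h0 hs (ha.mono_order hl)
  | add f g _ _ ihf ihg => exact .add f g ihf ihg
  | congr f g _ he ih => exact .congr f g ih he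

theorem Osc.mono_weight (h : Osc 𝒞 R L k μ f) {a : ℝ} (ha : 0 ≤ a)
    (hμ : ∀ c ∈ 𝒞, ∀ x, μ c x ≤ a * ν c x) : Osc 𝒞 R L k ν f := by
  induction h with
  | zero => exact .zero
  | wave m b a' hm h0 hs ha' =>
    exact .wave m b a' hm h0 hs (ha'.mono_weight ha fun c hc x _ => hμ c hc x)
  | add f g _ _ ihf ihg => exact .add f g ihf ihg
  | congr f g _ he ih => exact .congr f g ih he

theorem Osc.add' {f g h : Fld N P E} (hf : Osc 𝒞 R L k μ f) (hg : Osc 𝒞 R L k μ g)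
    (he : ∀ c ∈ 𝒞, ∀ x, h c x = f c x + g c x) : Osc 𝒞 R L k μ h :=
  .congr _ _ (.add f g hf hg) fun c hc => funext fun x => (he c hc x).symm

theorem Osc.sum {ι : Type*} (s : Finset ι) {u : ι → Fld N P E}
    (h : ∀ j ∈ s, Osc 𝒞 R L k μ (u j)) : Osc 𝒞 R L k μ (fun c x => ∑ j ∈ s, u j c x) := by
  classical
  induction s using Finset.induction_on with
  | empty => simpa only [Finset.sum_empty] using Osc.zero
  | insert a s ha ih =>
    exact (h a (Finset.mem_insert_self a s)).add'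
      (ih fun j hj => h j (Finset.mem_insert_of_mem hj)) fun c _ x => Finset.sum_insert ha

/-- A bilinear pairing with a bounded field, on the left. -/
theorem Osc.bilin_left {u : Fld N P E'} (A : E' →L[ℝ] E →L[ℝ] G) (hu : UB 𝒞 k ν u)
    (h : Osc 𝒞 R L k μ f) :
    Osc 𝒞 R L k (fun c x => ν c x * μ c x) (fun c x => A (u c x) (f c x)) := by
  induction h with
  | zero => exact .congr _ _ .zero fun c _ => funext fun x => (map_zero (A (u c x))).symm
  | wave m b a hm h0 hs ha =>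
    refine .congr _ _ (.wave m b (fun c x => A (u c x) (a c x)) hm h0
      (hs.map fun c _ x hx => by rw [hx, map_zero]) (UBOn.bilin A hu ha)) fun c _ => funext fun x => ?_
    exact (map_smul (A (u c x)) _ _).symm
  | add f g _ _ ihf ihg => exact ihf.add' ihg fun c _ x => map_add (A (u c x)) _ _
  | congr f g _ he ih => exact .congr _ _ ih fun c hc => by rw [he c hc]

/-- A constant linear map. -/
theorem Osc.clm (h : Osc 𝒞 R L k μ f) (A : E →L[ℝ] G) :
    Osc 𝒞 R L k μ (fun c x => A (f c x)) := by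
  induction h with
  | zero => exact .congr _ _ .zero fun c _ => funext fun x => (map_zero A).symm
  | wave m b a hm h0 hs ha =>
    refine .congr _ _ (.wave m b (fun c x => A (a c x)) hm h0
      (hs.map fun c _ x hx => by rw [hx, map_zero]) (ha.clm A)) fun c _ => funext fun x => ?_
    exact (map_smul A _ _).symm
  | add f g _ _ ihf ihg => exact ihf.add' ihg fun c _ x => map_add A _ _
  | congr f g _ he ih => exact .congr _ _ ih fun c hc => by rw [he c hc]

theorem Osc.neg (h : Osc 𝒞 R L k μ f) : Osc 𝒞 R L k μ (fun c x => -f c x) :=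
  h.clm (-ContinuousLinearMap.id ℝ E)

theorem Osc.const_smul (h : Osc 𝒞 R L k μ f) (r : ℝ) :
    Osc 𝒞 R L k μ (fun c x => r • f c x) :=
  h.clm (r • ContinuousLinearMap.id ℝ E)

theorem Osc.sub' {f g h : Fld N P E} (hf : Osc 𝒞 R L k μ f) (hg : Osc 𝒞 R L k μ g)
    (he : ∀ c ∈ 𝒞, ∀ x, h c x = f c x - g c x) : Osc 𝒞 R L k μ h :=
  hf.add' hg.neg fun c hc x => by rw [he c hc x, sub_eq_add_neg]

/-- Multiplication by `ε`. -/
theorem UBOn.eps_smul {S : SetF N P} {a : Fld N P E} (hn : Nice 𝒞 K) (ha : UBOn 𝒞 S k μ a) :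
    UBOn 𝒞 S k (fun c x => c.ε * μ c x) (fun c x => c.ε • a c x) := by
  obtain ⟨C, hC0, hC⟩ := ha.bound
  refine ⟨fun c hc x hx => (contMDiffAt_const :
      ContMDiffAt (𝓡 2) 𝓘(ℝ, ℝ) ∞ (fun _ => c.ε) x).smul (ha.smooth c hc x hx), C, hC0,
    fun c hc => ?_⟩
  refine (BdOn.const_smul c.smooth_V c.ε (ha.smooth c hc) (hC c hc)).mono_bound fun x _ => ?_
  rw [abs_of_pos (hn.eps_pos c hc)]
  exact le_of_eq (by ring)

/-- Multiplication by `ε`. -/
theorem Osc.eps_smul (hn : Nice 𝒞 K) (h : Osc 𝒞 R L k μ f) :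
    Osc 𝒞 R L k (fun c x => c.ε * μ c x) (fun c x => c.ε • f c x) := by
  induction h with
  | zero => exact .congr _ _ .zero fun c _ => funext fun x => (smul_zero c.ε).symm
  | wave m b a hm h0 hs ha =>
    refine .congr _ _ (.wave m b (fun c x => c.ε • a c x) hm h0
      (hs.map fun c _ x hx => by rw [hx, smul_zero]) (UBOn.eps_smul hn ha))
      fun c _ => funext fun x => smul_comm _ _ _
  | add f g _ _ ihf ihg => exact ihf.add' ihg fun c _ x => smul_add _ _ _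
  | congr f g _ he ih => exact .congr _ _ ih fun c hc => by rw [he c hc]

theorem Trig.of_osc (h : Osc 𝒞 R L k μ f) : Trig 𝒞 R L k μ f :=
  ⟨fun _ _ => 0, f, UBOn.zero, h, fun _ _ _ => (zero_add _).symm⟩

theorem Trig.of_ub (h : UB 𝒞 k μ f) : Trig 𝒞 R L k μ f :=
  ⟨f, fun _ _ => 0, h, .zero, fun _ _ _ => (add_zero _).symm⟩

theorem Trig.congr (h : Trig 𝒞 R L k μ f) (he : ∀ c ∈ 𝒞, ∀ x, f c x = g c x) :
    Trig 𝒞 R L k μ g := by
  obtain ⟨f₀, f₁, h₀, h₁, e⟩ := h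
  exact ⟨f₀, f₁, h₀, h₁, fun c hc x => by rw [← he c hc x, e c hc x]⟩

theorem Trig.add' {f g h : Fld N P E} (hf : Trig 𝒞 R L k μ f) (hg : Trig 𝒞 R L k μ g)
    (he : ∀ c ∈ 𝒞, ∀ x, h c x = f c x + g c x) : Trig 𝒞 R L k μ h := by
  obtain ⟨f₀, f₁, h₀, h₁, e⟩ := hf
  obtain ⟨g₀, g₁, k₀, k₁, e'⟩ := hg
  exact ⟨_, _, h₀.add k₀, .add f₁ g₁ h₁ k₁, fun c hc x => by
    rw [he c hc x, e c hc x, e' c hc x]; abel⟩

theorem Trig.mono_L (h : Trig 𝒞 R L k μ f) (hL : L ≤ L') : Trig 𝒞 R L' k μ f := by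
  obtain ⟨f₀, f₁, h₀, h₁, e⟩ := h
  exact ⟨f₀, f₁, h₀, h₁.mono_L hL, e⟩

theorem Trig.mono_order (h : Trig 𝒞 R L k μ f) (hl : l ≤ k) : Trig 𝒞 R L l μ f := by
  obtain ⟨f₀, f₁, h₀, h₁, e⟩ := h
  exact ⟨f₀, f₁, h₀.mono_order hl, h₁.mono_order hl, e⟩

theorem Trig.mono_weight (h : Trig 𝒞 R L k μ f) {a : ℝ} (ha : 0 ≤ a)
    (hμ : ∀ c ∈ 𝒞, ∀ x, μ c x ≤ a * ν c x) : Trig 𝒞 R L k ν f := by
  obtain ⟨f₀, f₁, h₀, h₁, e⟩ := h
  exact ⟨f₀, f₁, h₀.mono_weight ha fun c hc x _ => hμ c hc x, h₁.mono_weight ha hμ, e⟩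

theorem Trig.clm (h : Trig 𝒞 R L k μ f) (A : E →L[ℝ] G) :
    Trig 𝒞 R L k μ (fun c x => A (f c x)) := by
  obtain ⟨f₀, f₁, h₀, h₁, e⟩ := h
  exact ⟨_, _, h₀.clm A, h₁.clm A, fun c hc x => by
    show A (f c x) = _
    rw [e c hc x, map_add]⟩

theorem Trig.neg (h : Trig 𝒞 R L k μ f) : Trig 𝒞 R L k μ (fun c x => -f c x) :=
  h.clm (-ContinuousLinearMap.id ℝ E)

theorem Trig.sub' {f g h : Fld N P E} (hf : Trig 𝒞 R L k μ f) (hg : Trig 𝒞 R L k μ g)
    (he : ∀ c ∈ 𝒞, ∀ x, h c x = f c x - g c x) : Trig 𝒞 R L k μ h :=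
  hf.add' hg.neg fun c hc x => by rw [he c hc x, sub_eq_add_neg]

theorem Trig.sum {ι : Type*} (s : Finset ι) {u : ι → Fld N P E}
    (h : ∀ j ∈ s, Trig 𝒞 R L k μ (u j)) : Trig 𝒞 R L k μ (fun c x => ∑ j ∈ s, u j c x) := by
  classical
  induction s using Finset.induction_on with
  | empty => simpa only [Finset.sum_empty] using Trig.of_ub (UBOn.zero)
  | insert a s ha ih =>
    exact (h a (Finset.mem_insert_self a s)).add'
      (ih fun j hj => h j (Finset.mem_insert_of_mem hj)) fun c _ x => Finset.sum_insert ha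

/-- A wave of arbitrary index, the mean included. -/
theorem Trig.wave (m : Fin (qn P) → ℤ) (b : Bool) {a : Fld N P E} (hm : m ∈ box (qn P) L)
    (hs : Supp 𝒞 m a) (ha : UB 𝒞 k μ a) : Trig 𝒞 R L k μ (wave R m b a) := by
  by_cases h0 : m = 0
  · subst h0
    have e : ∀ (c : Ctx N P) (x : c.M), mphase R c 0 x = 0 := fun c x => phase_zero _ _ _ x
    cases b
    · exact (Trig.of_ub ha).congr fun c _ x => by simp [Stage.wave, e, tw]
    · exact (Trig.of_ub (f := fun _ _ => (0 : E)) UBOn.zero).congr fun c _ x => by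
        simp [Stage.wave, e, tw]
  · exact .of_osc (.wave m b a hm h0 hs ha)

/-- Product of two waves. -/
theorem Trig.wave_mul (A : E →L[ℝ] E' →L[ℝ] G) {b b' : Bool} {a : Fld N P E} {a' : Fld N P E'}
    (hm : m ∈ box (qn P) L) (hm' : m' ∈ box (qn P) L') (hs : Supp 𝒞 m a) (hs' : Supp 𝒞 m' a')
    (ha : UB 𝒞 k μ a) (ha' : UB 𝒞 k ν a') :
    Trig 𝒞 R (L + L') k (fun c x => μ c x * ν c x)
      (fun c x => A (Stage.wave R m b a c x) (Stage.wave R m' b' a' c x)) := by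
  have key : ∀ n : Fin (qn P) → ℤ, (∀ q, m q = 0 → m' q = 0 → n q = 0) →
      Supp 𝒞 n (fun c x => A (a c x) (a' c x)) := by
    intro n hn c hc x hx q hq
    by_cases h : m q = 0
    · exact (hs'.map (a' := fun c x => A (a c x) (a' c x))
        fun c _ x h0 => by rw [h0, map_zero]) c hc hx q fun h' => hq (hn q h h')
    · exact (hs.map (a' := fun c x => A (a c x) (a' c x))
        fun c _ x h0 => by rw [h0, map_zero, _root_.zero_apply]) c hc hx q h
  have hb : ∀ r : ℝ, UB 𝒞 k (fun c x => μ c x * ν c x) (fun c x => r • A (a c x) (a' c x)) :=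
    fun r => (UBOn.bilin A ha ha').const_smul r
  refine (Trig.wave (R := R) (m + m') (xor b b') (add_mem_box hm hm')
    ((key _ fun q h h' => by simp [h, h']).map (a' := fun c x => cp b b' • A (a c x) (a' c x))
      fun c _ x h0 => by rw [h0, smul_zero]) (hb _)).add'
    (Trig.wave (R := R) (m - m') (xor b b') (sub_mem_box hm hm')
      ((key _ fun q h h' => by simp [h, h']).map (a' := fun c x => cm b b' • A (a c x) (a' c x))
      fun c _ x h0 => by rw [h0, smul_zero]) (hb _)) fun c _ x => ?_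
  simp only [Stage.wave, map_smul, _root_.smul_apply, smul_smul, ← add_smul]
  rw [show mphase R c (m + m') x = mphase R c m x + mphase R c m' x from phase_add _ _ _ _ _ _,
    show mphase R c (m - m') x = mphase R c m x - mphase R c m' x from phase_sub _ _ _ _ _ _,
    mul_comm (tw b' _) (tw b _), tw_mul]
  congr 1
  ring

end Basic

/-! ## Derivative, products, final bound -/

section Deriv

variable {E E' G : Type} [NormedAddCommGroup E] [NormedSpace ℝ E]
  [NormedAddCommGroup E'] [NormedSpace ℝ E'] [NormedAddCommGroup G] [NormedSpace ℝ G]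
variable {𝒞 : Set (Ctx N P)} {R : ℝ} {L L' k K : ℕ} {μ ν : Fld N P ℝ}
  {f : Fld N P E} {g : Fld N P E'}

theorem supp_mcov (hn : Nice 𝒞 K) (hk : k ≤ K) {m : Fin (qn P) → ℤ} (i : Fin N) :
    UBOn 𝒞 (goodM m) k one (fun c => mcov R c m i) := by
  unfold mcov
  refine UBOn.sum _ fun q _ => ?_
  by_cases hq : m q = 0
  · simpa [hq] using (UBOn.zero : UBOn 𝒞 (goodM m) k one (fun _ _ => (0 : ℝ)))
  · exact (((hn.bd_ph q i).mono_order hk).mono_set (T := goodM m)
      fun c _ x hx => hx q hq).const_mul _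

theorem UBOn.deriv_eps {S : SetF N P} {a : Fld N P E} (hn : Nice 𝒞 K) (hμ : Nonneg 𝒞 μ)
    (ha : UBOn 𝒞 S (k + 1) μ a) (i : Fin N) :
    UBOn 𝒞 S k μ (fun c x => c.ε • D c.V i (a c) x) :=
  (UBOn.eps_smul hn (ha.deriv i)).mono_weight zero_le_one fun c hc x _ => by
    rw [_root_.one_mul]
    exact mul_le_of_le_one_left (hμ c hc x) (hn.eps_le c hc)

/-- The two pieces of the derivative of a wave. -/
theorem Osc.wave_deriv (hn : Nice 𝒞 K) (hk : k ≤ K) (hμ : Nonneg 𝒞 μ)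
    {m : Fin (qn P) → ℤ} (hm : m ∈ box (qn P) L) (h0 : m ≠ 0) {a : Fld N P E}
    (hs : Supp 𝒞 m a) (ha : UB 𝒞 (k + 1) μ a) (b : Bool) (i : Fin N) :
    Osc 𝒞 R L k μ (Stage.wave R m (!b) (fun c x => (sg b * mcov R c m i x) • a c x)) ∧
      Osc 𝒞 R L k μ (Stage.wave R m b (fun c x => c.ε • D c.V i (a c) x)) := by
  have hs1 : Supp 𝒞 m (fun c x => (sg b * mcov R c m i x) • a c x) :=
    hs.map fun c _ x hx => by rw [hx, smul_zero]
  have hs2 : Supp 𝒞 m (fun c x => c.ε • D c.V i (a c) x) := fun c hc =>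
    ((tsupport_smul_subset_right (fun _ => c.ε) (D c.V i (a c))).trans
      (tsupport_DW_subset (V := c.V) [i])).trans (hs c hc)
  refine ⟨.wave m (!b) _ hm h0 hs1 ?_, .wave m b _ hm h0 hs2 (UBOn.deriv_eps hn hμ ha i)⟩
  exact (((supp_mcov hn hk i).const_mul (sg b)).smul_one
    ((ha.ubOn _).mono_order k.le_succ)).extend hμ hs1

/-- `ε D` of waves are waves, with one derivative lost. -/
theorem Osc.deriv (hn : Nice 𝒞 K) (hk : k ≤ K) (hμ : Nonneg 𝒞 μ)
    (h : Osc 𝒞 R L (k + 1) μ f) (i : Fin N) :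
    Osc 𝒞 R L k μ (fun c x => c.ε • D c.V i (f c) x) := by
  induction h with
  | zero => exact .congr _ _ .zero fun c _ => funext fun x => by rw [D_const, smul_zero]
  | wave m b a hm h0 hs ha =>
    obtain ⟨h1, h2⟩ := Osc.wave_deriv (R := R) hn hk hμ hm h0 hs ha b i
    exact h1.add' h2 fun c hc x => eps_D_wave hn ha hc R m b i x
  | add f g hf hg ihf ihg =>
    refine ihf.add' ihg fun c hc x => ?_
    rw [← smul_add, D_add (mdiffAt_of_smoothAt (hf.contMDiff hn hc x))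
      (mdiffAt_of_smoothAt (hg.contMDiff hn hc x))]
  | congr f g _ he ih => exact .congr _ _ ih fun c hc => by rw [he c hc]

theorem Trig.contMDiff (hn : Nice 𝒞 K) (h : Trig 𝒞 R L k μ f) {c : Ctx N P} (hc : c ∈ 𝒞) :
    ContMDiff (𝓡 2) 𝓘(ℝ, E) ∞ (f c) := by
  obtain ⟨f₀, f₁, h₀, h₁, e⟩ := h
  rw [show f c = fun x => f₀ c x + f₁ c x from funext (e c hc)]
  exact fun x => (h₀.contMDiff hc x).add (h₁.contMDiff hn hc x)

theorem Trig.deriv (hn : Nice 𝒞 K) (hk : k ≤ K) (hμ : Nonneg 𝒞 μ)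
    (h : Trig 𝒞 R L (k + 1) μ f) (i : Fin N) :
    Trig 𝒞 R L k μ (fun c x => c.ε • D c.V i (f c) x) := by
  obtain ⟨f₀, f₁, h₀, h₁, e⟩ := h
  refine ⟨_, _, UBOn.deriv_eps hn hμ h₀ i, h₁.deriv hn hk hμ i, fun c hc x => ?_⟩
  show c.ε • D c.V i (f c) x = _
  rw [show f c = fun x => f₀ c x + f₁ c x from funext (e c hc),
    D_add (mdiffAt_of_smoothAt (h₀.contMDiff hc x))
      (mdiffAt_of_smoothAt (h₁.contMDiff hn hc x)), smul_add]

theorem Osc.trig_mul (A : E →L[ℝ] E' →L[ℝ] G) (hf : Osc 𝒞 R L k μ f) (hg : Osc 𝒞 R L' k ν g) :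
    Trig 𝒞 R (L + L') k (fun c x => μ c x * ν c x) (fun c x => A (f c x) (g c x)) := by
  induction hf with
  | zero => exact (Trig.of_ub UBOn.zero).congr fun c _ x => by simp
  | wave m b a hm h0 hs ha =>
    induction hg with
    | zero => exact (Trig.of_ub UBOn.zero).congr fun c _ x => by simp
    | wave m' b' a' hm' h0' hs' ha' => exact Trig.wave_mul A hm hm' hs hs' ha ha'
    | add f g _ _ ihf ihg => exact ihf.add' ihg fun c _ x => map_add _ _ _
    | congr f g _ he ih => exact ih.congr fun c hc x => by rw [he c hc]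
  | add f g _ _ ihf ihg =>
    exact ihf.add' ihg fun c _ x => by rw [map_add, _root_.add_apply]
  | congr f g _ he ih => exact ih.congr fun c hc x => by rw [he c hc]

theorem Trig.bilin_left {u : Fld N P E'} (A : E' →L[ℝ] E →L[ℝ] G) (hu : UB 𝒞 k ν u)
    (h : Trig 𝒞 R L k μ f) :
    Trig 𝒞 R L k (fun c x => ν c x * μ c x) (fun c x => A (u c x) (f c x)) := by
  obtain ⟨f₀, f₁, h₀, h₁, e⟩ := h
  exact ⟨_, _, UBOn.bilin A hu h₀, h₁.bilin_left A hu, fun c hc x => by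
    show A (u c x) (f c x) = _
    rw [e c hc x, map_add]⟩

/-- Products. -/
theorem Trig.mul (A : E →L[ℝ] E' →L[ℝ] G) (hf : Trig 𝒞 R L k μ f) (hg : Trig 𝒞 R L' k ν g) :
    Trig 𝒞 R (L + L') k (fun c x => μ c x * ν c x) (fun c x => A (f c x) (g c x)) := by
  obtain ⟨f₀, f₁, h₀, h₁, e⟩ := hf
  obtain ⟨g₀, g₁, k₀, k₁, e'⟩ := hg
  have t0 : Trig 𝒞 R (L + L') k (fun c x => μ c x * ν c x) (fun c x => A (f₀ c x) (g₀ c x)) :=
    .of_ub (UBOn.bilin A h₀ k₀)
  have t1 : Trig 𝒞 R (L + L') k (fun c x => μ c x * ν c x) (fun c x => A (f₀ c x) (g₁ c x)) :=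
    (Trig.of_osc (k₁.bilin_left A h₀)).mono_L (Nat.le_add_left _ _)
  have t2 : Trig 𝒞 R (L + L') k (fun c x => μ c x * ν c x) (fun c x => A (f₁ c x) (g₀ c x)) :=
    (Trig.of_osc ((h₁.bilin_left A.flip k₀).mono_weight (ν := fun c x => μ c x * ν c x)
      zero_le_one fun c _ x => by rw [one_mul, mul_comm])).mono_L (Nat.le_add_right _ _)
  have t3 := Osc.trig_mul A h₁ k₁
  refine (t0.add' t1 (h := fun c x => A (f₀ c x) (g c x)) fun c hc x => by
    rw [e' c hc x, map_add]).add'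
    (t2.add' t3 (h := fun c x => A (f₁ c x) (g c x)) fun c hc x => by
      rw [e' c hc x, map_add]) fun c hc x => ?_
  rw [e c hc x, map_add, _root_.add_apply]

theorem Osc.norm_le (h : Osc 𝒞 R L k μ f) :
    ∃ C, 0 ≤ C ∧ ∀ c ∈ 𝒞, ∀ x, ‖f c x‖ ≤ C * μ c x := by
  induction h with
  | zero => exact ⟨0, le_rfl, fun c _ x => by simp⟩
  | wave m b a _ _ _ ha =>
    obtain ⟨C, hC0, hC⟩ := UBOn.norm_le ha
    refine ⟨C, hC0, fun c hc x => ?_⟩
    rw [Stage.wave, norm_smul, Real.norm_eq_abs]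
    exact (mul_le_of_le_one_left (norm_nonneg _) (abs_tw_le _ _)).trans (hC c hc x trivial)
  | add f g _ _ ihf ihg =>
    obtain ⟨C, hC0, hC⟩ := ihf
    obtain ⟨C', hC0', hC'⟩ := ihg
    exact ⟨C + C', by positivity, fun c hc x =>
      (norm_add_le _ _).trans ((add_le_add (hC c hc x) (hC' c hc x)).trans_eq (add_mul _ _ _).symm)⟩
  | congr f g _ he ih =>
    obtain ⟨C, hC0, hC⟩ := ih
    exact ⟨C, hC0, fun c hc x => by rw [← he c hc]; exact hC c hc x⟩

theorem Trig.norm_le (h : Trig 𝒞 R L k μ f) :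
    ∃ C, 0 ≤ C ∧ ∀ c ∈ 𝒞, ∀ x, ‖f c x‖ ≤ C * μ c x := by
  obtain ⟨f₀, f₁, h₀, h₁, e⟩ := h
  obtain ⟨C, hC0, hC⟩ := UBOn.norm_le h₀
  obtain ⟨C', hC0', hC'⟩ := h₁.norm_le
  exact ⟨C + C', by positivity, fun c hc x => by
    rw [e c hc x, add_mul]
    exact (norm_add_le _ _).trans (add_le_add (hC c hc x trivial) (hC' c hc x))⟩

/-- The final bound: every derivative costs `1 / ε`. -/
theorem Trig.DW_le (hn : Nice 𝒞 K) (hμ : Nonneg 𝒞 μ) :
    ∀ {j : ℕ} {f : Fld N P E}, j ≤ K → Trig 𝒞 R L j μ f → ∃ C, 0 ≤ C ∧ ∀ c ∈ 𝒞,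
      ∀ w : List (Fin N), w.length ≤ j → ∀ x,
        ‖DW c.V w (f c) x‖ ≤ C * (1 / c.ε) ^ w.length * μ c x := by
  intro j
  induction j with
  | zero =>
    intro f _ h
    obtain ⟨C, hC0, hC⟩ := h.norm_le
    refine ⟨C, hC0, fun c hc w hw x => ?_⟩
    rw [List.length_eq_zero_iff.1 (Nat.le_zero.1 hw)]
    simpa using hC c hc x
  | succ j ih =>
    intro f hj h
    obtain ⟨C, hC0, hC⟩ := h.norm_le
    choose D' hD0 hD using fun i => ih (by omega) (Trig.deriv hn (by omega) hμ h i)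
    refine ⟨C + ∑ i, D' i, add_nonneg hC0 (Finset.sum_nonneg fun i _ => hD0 i),
      fun c hc w hw x => ?_⟩
    have he := hn.eps_pos c hc
    have hμx := hμ c hc x
    rcases List.eq_nil_or_concat w with rfl | ⟨v, i, rfl⟩
    · simp only [DW_nil, List.length_nil, pow_zero, mul_one]
      exact (hC c hc x).trans (mul_le_mul_of_nonneg_right
        (le_add_of_nonneg_right (Finset.sum_nonneg fun i _ => hD0 i)) hμx)
    · simp only [List.concat_eq_append] at hw ⊢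
      have hv : v.length ≤ j := by
        simp only [List.length_append, List.length_singleton] at hw
        omega
      have h1 := hD i c hc v hv x
      have hsm : ContMDiffAt (𝓡 2) 𝓘(ℝ, E) ∞ (D c.V i (f c)) x :=
        contMDiffAt_D c.smooth_V i (h.contMDiff hn hc x)
      rw [DW_const_smul c.smooth_V c.ε v hsm, norm_smul, Real.norm_eq_abs, abs_of_pos he] at h1
      rw [DW_snoc, List.length_append, List.length_singleton, pow_succ]
      have h2 : ‖DW c.V v (D c.V i (f c)) x‖ ≤ D' i * ((1 / c.ε) ^ v.length * (1 / c.ε)) * μ c x := by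
        rw [← mul_le_mul_iff_of_pos_left he]
        refine h1.trans (le_of_eq ?_)
        field_simp
      refine h2.trans ?_
      gcongr
      exact (Finset.single_le_sum (fun l _ => hD0 l) (Finset.mem_univ i)).trans
        (le_add_of_nonneg_left hC0)

end Deriv

end Vale.Agent.P205.Full.Stage
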